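import Mathlib

/-!
Forcing block of P236.  Index convention: `D n s` is the group in stem `n` at stage `s`
(`s = 2k` is `a^k`), the class in `E(n,s)` has internal degree `n - s`.
A position carries `u^j` times an exterior form of type `e` in three generators.
-/

namespace Vale.Agent.P236Z.Force

universe u v

/-- coordinates of an exterior form of one type -/
abbrev V (O : Type u) := Fin 3 → O

variable {O : Type u} [CommRing O]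

/-- forms of type 0 and 3 have one coordinate -/
def Lm (e : ℤ) (x : V O) : Prop := (e = 0 ∨ e = 3) → x 1 = 0 ∧ x 2 = 0

/-- wedge of a one form `w` with a form `x` of type `e` -/
def wd (e : ℤ) (w x : V O) : V O :=
  if e = 0 then x 0 • w
  else if e = 1 then ![w 1 * x 2 - w 2 * x 1, w 2 * x 0 - w 0 * x 2, w 0 * x 1 - w 1 * x 0]
  else if e = 2 then ![w 0 * x 0 + w 1 * x 1 + w 2 * x 2, 0, 0]
  else 0

/-- first basis vector -/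
def e0 : V O := ![1, 0, 0]

/-- last basis vector -/
def e2 : V O := ![0, 0, 1]

/-- position `(n,s)` carries `u^j` times forms of type `e` -/
def At (n s j e : ℤ) : Prop := 0 ≤ e ∧ e ≤ 3 ∧ 2 * n + s = 6 * j - e ∧ (n - s) % 4 = 0

/-- a sign -/
def Sg (a : ℤ) : Prop := a = 1 ∨ a = -1

/-- ring facts -/
structure OFacts (n1 n2 : O) : Prop where
  dom : ∀ a b : O, a * b = 0 → a = 0 ∨ b = 0
  three : (3 : O) = 0
  n1_ne : n1 ≠ 0
  prime1 : ∀ a b : O, n1 ∣ a * b → n1 ∣ a ∨ n1 ∣ b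
  not_dvd : ¬ n1 ∣ n2
  val : ∀ a b : O, ∃ c, n1 ∣ a - c * b ∨ n1 ∣ b - c * a
  loc : ∀ b : O, IsUnit b ∨ b ∈ Ideal.span {n1, n2}
  ne_top : (1 : O) ∉ Ideal.span {n1, n2}
  res : ∀ b : O, ∃ c : ℤ, b - c ∈ Ideal.span {n1, n2}

/-- the tower with its automorphism and the three links to the underlying ring -/
structure Tow (O : Type u) (D : ℤ → ℤ → Type v) [∀ n s, AddCommGroup (D n s)] where
  I : ∀ n s s', D n s →+ D n s'
  g : ∀ n s, D n s →+ D n s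
  c0 : ∀ n s, D n s → O
  ku : ∀ n, D n n
  eta : D 1 0
  I_id : ∀ n s y, I n s s y = y
  I_comp : ∀ n s s' s'' y, s ≤ s' → s' ≤ s'' → I n s' s'' (I n s s' y) = I n s s'' y
  Ig : ∀ n s s' y, s ≤ s' → I n s s' (g n s y) = g n s' (I n s s' y)
  sparse : ∀ n s' s, s' + 1 = s → (n - s) % 4 ≠ 0 → ∀ y : D n s, ∃ y', I n s' s y' = y
  nil : ∀ n s s' y, s + 213 ≤ s' → I n s s' y = 0

variable {D : ℤ → ℤ → Type v} [∀ n s, AddCommGroup (D n s)]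

/-- coordinates on the second page -/
structure Crd (T : Tow O D) where
  j : ∀ n s, D n s →+ V O
  k : ∀ n s, V O →+ D n s
  G : ℤ → ℤ → V O →+ V O

namespace Crd

variable {T : Tow O D} (C : Crd T)

/-- the differential from `(n+1,K+1)` to `(n,s)` takes `x` to `z` -/
def Hit (n s K : ℤ) (x z : V O) : Prop :=
  ∃ y : D n s, T.I n s K y = C.k n K x ∧ C.j n s y = z

/-- `z` at `(n,s)` is killed at stage `K` -/
def Bd (n s K : ℤ) (z : V O) : Prop := ∃ y : D n s, T.I n s K y = 0 ∧ C.j n s y = z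

/-- permanent cycle -/
def Perm (n s : ℤ) (z : V O) : Prop := ∃ y : D n s, C.j n s y = z

end Crd

/-- common part of the two models -/
structure Pre {T : Tow O D} (C : Crd T) (n1 n2 : O) : Prop where
  of : OFacts n1 n2
  j_mem : ∀ n s i e y, At n s i e → Lm e (C.j n s y)
  j_zero : ∀ n s y, (∀ i e, ¬ At n s i e) → C.j n s y = 0
  ex_j : ∀ n s' s s'' y, s' + 1 = s → s + 1 = s'' →
    (C.j n s y = 0 ↔ ∃ y' : D n s', T.I n s s'' (y - T.I n s' s y') = 0)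
  ex_k : ∀ n s n' s' i e x, n + 1 = n' → s + 1 = s' → At n' s' i e → Lm e x →
    (C.k n s x = 0 ↔ C.Perm n' s' x)
  ex_i : ∀ n s K K' (y : D n s), s < K → K + 1 = K' → T.I n s K' y = 0 →
    T.I n s K y = 0 ∨ ∃ i e x, At (n + 1) K' i e ∧ Lm e x ∧ C.k n K x = T.I n s K y
  ik : ∀ n s s' i e x, s + 1 = s' → At (n + 1) s' i e → Lm e x → T.I n s s' (C.k n s x) = 0
  k_two : ∀ n s' s i e x, s' + 1 = s → At (n + 1) (s + 1) i e → Lm e x →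
    ∃ y : D n s', T.I n s' s y = C.k n s x
  leib0 : ∀ n s K n' s' K' n'' s'' K'' i i' e' x z x' z',
    s + 4 ≤ K → K - s = K' - s' → n'' = n + n' + 1 → K'' = K + K' + 1 → s'' = s + K' + 1 →
    At (n + 1) (K + 1) i 0 → At (n' + 1) (K' + 1) i' e' → Lm 0 x → Lm e' x' →
    (z = 0 ∨ ∃ i1, At n s i1 1) → C.Hit n s K x z → C.Hit n' s' K' x' z' →
    ∃ a b : ℤ, Sg a ∧ Sg b ∧ (e' = 0 → a = 1 ∧ b = 1) ∧
      C.Hit n'' s'' K'' (x 0 • x') (a • wd e' z x' + b • x 0 • z')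
  leib1 : ∀ n s K n' s' n'' s'' K'' i i' e' x z w,
    s + 4 ≤ K → n'' = n + n' → K'' = K + s' → s'' = s + s' →
    At (n + 1) (K + 1) i 1 → At n' s' i' e' → e' ≤ 2 → Lm e' w →
    (z = 0 ∨ ∃ i1, At n s i1 0) → C.Hit n s K x z → C.Perm n' s' w →
    ∃ a : ℤ, Sg a ∧ C.Hit n'' s'' K'' (wd e' x w) (a • z 0 • w)
  perm0 : ∀ n s x, At n s 0 0 → Lm 0 x → C.Perm n s x
  jg : ∀ n s i e y, At n s i e → C.j n s (T.g n s y) = C.G (n - s) e (C.j n s y)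
  kg : ∀ n s i e x, At (n + 1) (s + 1) i e → Lm e x →
    C.k n s (C.G (n - s) e x) = T.g n s (C.k n s x)
  G_mem : ∀ t e x, Lm e x → Lm e (C.G t e x)
  G_one : C.G 0 0 e0 = e0
  G_res : ∀ x, Lm 0 x → C.G 12 0 x 0 - x 0 ∈ Ideal.span {n1, n2}
  inv1 : ∀ b : O, IsUnit b → C.G 12 0 (b • e0) 0 ≠ b
  inv2 : ∀ b : O, IsUnit b → ¬ n1 ∣ C.G 48 0 (b • e0) 0 - b
  inv3 : ∀ b : O, IsUnit b → ¬ n1 ∣ C.G 48 0 ((b * n2 ^ 2) • e0) 0 - b * n2 ^ 2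
  acy : ∀ x, Lm 3 x → x + C.G 0 3 x + C.G 0 3 (C.G 0 3 x) = 0 →
    ∃ y, Lm 3 y ∧ x = C.G 0 3 y - y
  nb1 : C.Bd 4 (-8) 16 (n1 • e0)
  nb2 : C.Bd 16 (-32) 36 (n2 • e0)
  nb3 : C.Bd 0 0 212 e0
  link : ∀ n s i y, At n s i 0 → C.j n s y 0 ^ 3 = T.c0 n s y
  k_one : ∀ n i, At (n + 1) (n + 1) i 0 → C.k n n e0 = T.ku n

/-- the model in the coordinates of the Tate block -/
structure Raw {T : Tow O D} (C : Crd T) (n1 n2 : O) : Prop extends Pre C n1 n2 where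
  eta_rel : T.I 1 0 1 (T.eta + T.g 1 0 T.eta + T.g 1 0 (T.g 1 0 T.eta)) = T.ku 1
  alpha : ∃ n s i z, At n s i 1 ∧ n - s = 4 ∧ C.Bd n s (s + 5) z ∧ ∃ l, IsUnit (z l)
  jordan : ∀ t x l, t = 4 ∨ t = 16 →
    C.G t 1 x l - (![x 0, x 0 + x 1, x 1 + x 2] : V O) l ∈ Ideal.span {n1, n2}
  G_cube : ∀ x, C.G 4 1 (C.G 4 1 (C.G 4 1 x)) = x

/-- the model in the basis adapted to `eta` -/
structure Adp {T : Tow O D} (C : Crd T) (n1 n2 : O) : Prop extends Pre C n1 n2 where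
  perm : ∀ n s e x, At n s 0 e → Lm e x → C.Perm n s x
  d5 : C.Hit 1 (-3) 1 e0 e0
  G4 : C.G 4 1 e0 = e0
  G16 : ∀ x, C.G 16 1 x 1 - x 1 - x 2 ∈ Ideal.span {n1, n2}
  eta_j : ∃ y : D 1 (-3), C.j 1 (-3) y = e2 ∧ T.I 1 (-3) 0 y = T.eta

/-- the pattern of differentials -/
structure Pat {T : Tow O D} (C : Crd T) (n1 n2 : O) : Prop where
  p1 : ∀ n s i e x, At n s i e → i % 3 = 2 → C.Perm n s x → x = 0
  p2 : ∀ n s i e x, At n s i e → i % 3 = 1 → C.Perm n s x → C.Bd n s (s + 5) x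
  p3 : ∀ n s i e x, At n s i e → i % 9 = 6 → C.Perm n s x → C.Bd n s (s + 9) x
  p4 : ∀ n s i e x, At n s i e → i % 9 = 3 → C.Perm n s x → C.Bd n s (s + 17) x
  p5 : ∀ n s i e x, At n s i e → i % 27 = 18 → C.Perm n s x → C.Bd n s (s + 33) x
  p6 : ∀ n s i e x, At n s i e → i % 27 = 9 → C.Perm n s x → C.Bd n s (s + 53) x
  p7 : ∀ n s i e x, At n s i e → i % 27 = 0 → Lm e x → C.Bd n s (s + 105) x
  p8 : ∀ n s i e x, At n s i e → i % 9 = 0 → 2 ≤ e → Lm e x → C.Bd n s (s + 17) x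
  p9 : ∀ n s i x, At n s i 0 → i % 9 = 0 → Lm 0 x → x 0 ∈ Ideal.span {n1, n2} →
    C.Bd n s (s + 33) x
  p10 : ∀ n s i x, At n s i 1 → i % 9 = 0 → x 2 ∈ Ideal.span {n1, n2} → C.Bd n s (s + 33) x
  p11 : ∀ n s i x, At n s i 0 → i % 27 = 0 → C.Bd n s (s + 104) x → x 0 ∈ Ideal.span {n1, n2}
  p12 : ∀ n s i e x, At n s i e → i % 27 = 0 → Lm e x → C.Perm n s x

/-- the row facts used by the quotient group step -/
structure Rows (T : Tow O D) : Prop where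
  r1 : ∀ x : D (-2) 0, x = 0
  r2 : ∀ x : D (-1) 0, x + T.g (-1) 0 x + T.g (-1) 0 (T.g (-1) 0 x) = 0 →
    ∃ y, x = T.g (-1) 0 y - y
  r3 : ∀ x o : D 0 0, T.c0 0 0 o = 1 → 3 • T.I 0 0 34 o = 0 ∧
    ∃ c : ℤ, T.I 0 0 34 x = c • T.I 0 0 34 o ∧ (IsUnit (T.c0 0 0 x) → ¬ 3 ∣ c)
  r3b : ∀ (x : D 0 12) (o : D 0 0), T.c0 0 0 o = 1 → ∃ c : ℤ, T.I 0 12 44 x = c • T.I 0 0 44 o
  r4 : ∀ x : D 1 44, ∃ c : ℤ, x = c • T.I 1 0 44 T.eta
  r5 : ∀ x : D 2 44, x = 0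
  r6 : ∀ x : D 3 44, x = 0
  r7 : ∀ w : D 4 (-8), IsUnit (T.c0 4 (-8) w) → T.I 4 (-8) 62 w ≠ 0 ∧
    3 • T.I 4 (-8) 62 w = 0 ∧ ∀ y : D 4 44, T.I 4 44 62 (T.g 4 44 y - y) = 0 ∧
      ∃ c : ℤ, T.I 4 44 62 y = c • T.I 4 (-8) 62 w
  r8 : T.ku 53 = 0
  r9 : ∀ n k : ℤ, n = 12 * k → k % 27 = 0 → ∃ y : D n 0, T.c0 n 0 y = 1

/-- base change -/
def BASE : Prop := ∀ (O : Type u) [CommRing O] (D : ℤ → ℤ → Type v) [∀ n s, AddCommGroup (D n s)]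
  (T : Tow O D) (C : Crd T) (n1 n2 : O), Raw C n1 n2 → ∃ C' : Crd T, Adp C' n1 n2

/-- forcing -/
def CORE : Prop := ∀ (O : Type u) [CommRing O] (D : ℤ → ℤ → Type v) [∀ n s, AddCommGroup (D n s)]
  (T : Tow O D) (C : Crd T) (n1 n2 : O), Adp C n1 n2 → Pat C n1 n2

/-- rows -/
def ROWS : Prop := ∀ (O : Type u) [CommRing O] (D : ℤ → ℤ → Type v) [∀ n s, AddCommGroup (D n s)]
  (T : Tow O D) (C : Crd T) (n1 n2 : O), Adp C n1 n2 → Pat C n1 n2 → Rows T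

end Vale.Agent.P236Z.Force
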