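import Vale.Agent.P236Z.SS.Cpl
import Vale.Agent.P236Z.Force.Defs

/-!
Interface of the forcing block of P236: the Tate algebra that is used, the row facts that are
delivered, in the indices of `SS.Cpl`.
-/

namespace Vale.Agent.P236Z.Force

open SS

variable {R : Type} [CommRing R] {O : Type} [CommRing O]

/-- the standard cocycle of type `e` with coefficients the norms of `c` -/
def gen (h : R ≃+* R) (x : Fin 3 → R) (e : ℤ) (c : Fin 3 → R) : R :=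
  if e = 0 then nm h (c 0)
  else if e = 1 then nm h (c 0) * x 0 + nm h (c 1) * x 1 + nm h (c 2) * x 2
  else if e = 2 then nm h (c 0) * cup h 1 1 (x 1) (x 2) + nm h (c 1) * cup h 1 1 (x 2) (x 0) +
    nm h (c 2) * cup h 1 1 (x 0) (x 1)
  else if e = 3 then nm h (c 0) * (x 0 * cup h 1 1 (x 1) (x 2))
  else 0

/-- The Tate cohomology of `C₃` with its action of `C₉`. -/
structure Tate (deg : ℤ → AddSubgroup R) (h g : R ≃+* R) (σ : ℕ → R) (red : R →+* O)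
    (x : Fin 3 → R) : Prop where
  one_mem : (1 : R) ∈ deg 0
  mul_mem : ∀ s t a b, a ∈ deg s → b ∈ deg t → a * b ∈ deg (s + t)
  g_mem : ∀ t a, a ∈ deg t → g a ∈ deg t
  sparse : ∀ t a, t % 4 ≠ 0 → a ∈ deg t → a = 0
  g_cube : ∀ a, g (g (g a)) = h a
  h_cube : ∀ a, h (h (h a)) = a
  red_h : ∀ a, red (h a) = red a
  s3_mem : σ 3 ∈ deg 4
  s9_mem : σ 9 ∈ deg 16
  of : OFacts (red (σ 3)) (red (σ 9))
  x_mem : ∀ i, x i ∈ deg 4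
  x_tr : ∀ i, tr h (x i) = 0
  surj : ∀ (m : ℤ) b, ∃ c ∈ deg (4 * m), red c = b
  ker : ∀ (m : ℤ) c, c ∈ deg (4 * m) → red c = 0 → ∃ f ∈ deg (12 * m), nm h c = tr h f
  span : ∀ (m e : ℤ) a, 0 ≤ e → e ≤ 5 → a ∈ deg (12 * m + 4 * e) → d1 h e a = 0 →
    ∃ (c : Fin 3 → R) (f : R), (∀ l, c l ∈ deg (4 * m)) ∧ f ∈ deg (12 * m + 4 * e) ∧
      a = gen h x e c + d1 h (e + 1) f
  ind : ∀ (m e : ℤ) (c : Fin 3 → R) f, 0 ≤ e → e ≤ 3 → (∀ l, c l ∈ deg (4 * m)) →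
    f ∈ deg (12 * m + 4 * e) → gen h x e c = d1 h (e + 1) f →
    red (c 0) = 0 ∧ (e = 1 ∨ e = 2 → red (c 1) = 0 ∧ red (c 2) = 0)
  jordan : ∀ i, ∃ (c : Fin 3 → R) (f : R), (∀ l, c l ∈ deg 0) ∧ f ∈ deg 4 ∧
    g (x i) = gen h x 1 c + (h f - f) ∧ ∀ l, red (c l) -
      (![![1, 1, 0], ![0, 1, 1], ![0, 0, 1]] : Fin 3 → Fin 3 → O) i l ∈
        Ideal.span {red (σ 3), red (σ 9)}
  g_res : ∀ (m : ℤ) c, c ∈ deg (4 * m) → red (g c) - red c ∈ Ideal.span {red (σ 3), red (σ 9)}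
  inv1 : ∀ c ∈ deg 4, IsUnit (red c) → red (g c) ≠ red c
  inv2 : ∀ c ∈ deg 16, IsUnit (red c) → ¬ red (σ 3) ∣ red (g c) - red c
  inv3 : ∀ c ∈ deg 16, ∀ b, IsUnit b → red c = b * red (σ 9) ^ 2 →
    ¬ red (σ 3) ∣ red (g c) - red c
  s3 : ∃ (c : Fin 3 → R) (f : R), (∀ l, c l ∈ deg 0) ∧ f ∈ deg 4 ∧
    σ 3 = gen h x 1 c + (h f - f) ∧ ∃ l, IsUnit (red (c l))
  acy : ∀ a ∈ deg 0, ∀ f ∈ deg 0, tr h a = 0 → a + g a + g (g a) = h f - f →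
    ∃ b ∈ deg 0, ∃ f' ∈ deg 0, tr h b = 0 ∧ a = g b - b + (h f' - f')

variable {deg : ℤ → AddSubgroup R} {h g : R ≃+* R}

/-- `η` has trace the boundary of `c⁻¹`, up to the sign `e` -/
def IsEta (C : Cpl R deg h g) (η : C.D 0 1) (e : ℤ) : Prop :=
  ∃ y : deg (-1 + 1), SS.Sg e ∧ (y : R) = 1 ∧
    C.I (-1) 0 1 (η + C.G 0 1 η + C.G 0 1 (C.G 0 1 η)) = e • C.k (-1) 1 y

/-- The row facts, in the indices of `Cpl`. -/
structure RowsC (C : Cpl R deg h g) (red : R →+* O) (η : C.D 0 1) : Prop where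
  r1 : ∀ y : C.D 0 (-2), y = 0
  r2 : ∀ y : C.D 0 (-1), y + C.G 0 (-1) y + C.G 0 (-1) (C.G 0 (-1) y) = 0 →
    ∃ z, y = C.G 0 (-1) z - z
  r3 : ∀ y o : C.D 0 0, C.j 0 0 o = 1 → 3 • C.I (-34) 0 0 o = 0 ∧
    ∃ c : ℤ, C.I (-34) 0 0 y = c • C.I (-34) 0 0 o ∧ (IsUnit (red (C.j 0 0 y)) → ¬ 3 ∣ c)
  r3b : ∀ (y : C.D (-12) 0) (o : C.D 0 0), C.j 0 0 o = 1 →
    ∃ c : ℤ, C.I (-44) (-12) 0 y = c • C.I (-44) 0 0 o
  r4 : ∀ y : C.D (-44) 1, ∃ c : ℤ, y = c • C.I (-44) 0 1 η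
  r5 : ∀ y : C.D (-44) 2, y = 0
  r6 : ∀ y : C.D (-44) 3, y = 0
  r7 : ∀ w : C.D 8 4, IsUnit (red (C.j 8 4 w)) → C.I (-62) 8 4 w ≠ 0 ∧
    3 • C.I (-62) 8 4 w = 0 ∧ ∀ y : C.D (-44) 4, C.I (-62) (-44) 4 (C.G (-44) 4 y - y) = 0 ∧
      ∃ c : ℤ, C.I (-62) (-44) 4 y = c • C.I (-62) 8 4 w
  r8 : ∃ p : C.D (-54) 54, C.j (-54) 54 p = 1
  r9 : ∀ n k : ℤ, n = 12 * k → k % 27 = 0 → ∃ y : C.D 0 n, red (C.j 0 n y) = 1

/-- the tower of a couple -/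
def tow (C : Cpl R deg h g) {σ : ℕ → R} {red : R →+* O} {x : Fin 3 → R}
    (hT : Tate deg h g σ red x) (hN : C.NB σ) (η : C.D 0 1) (e : ℤ) :
    Tow O (fun n s => C.D (-s) n) where
  I n s s' := C.I (-s') (-s) n
  g n s := C.G (-s) n
  c0 n s y := red (C.j (-s) n y)
  ku n := C.k (-n) n ⟨1, by simpa using hT.one_mem⟩
  eta := e • η
  I_id n s y := C.I_self _ _ y
  I_comp n s s' s'' y h1 h2 := C.I_I n y (by omega) (by omega)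
  Ig n s s' y _ := (C.G_I _ _ _ y).symm
  sparse n s' s h1 h2 y :=
    (C.ex_j n y (by omega)).1 (hT.sparse _ _ (by omega) (C.j_mem _ _ y))
  nil n s s' y h1 := hN.nil _ _ _ y (by omega)

/-- coordinates -/
def GLUE : Prop := ∀ (R : Type) [CommRing R] (O : Type) [CommRing O] (deg : ℤ → AddSubgroup R)
  (h g : R ≃+* R) (C : Cpl R deg h g) (σ : ℕ → R) (red : R →+* O) (x : Fin 3 → R)
  (hT : Tate deg h g σ red x) (hN : C.NB σ) (η : C.D 0 1) (e : ℤ), IsEta C η e →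
  ∃ K : Crd (tow C hT hN η e), Raw K (red (σ 3)) (red (σ 9))

/-- the forcing block -/
def FORCE : Prop := ∀ (R : Type) [CommRing R] (O : Type) [CommRing O] (deg : ℤ → AddSubgroup R)
  (h g : R ≃+* R) (C : Cpl R deg h g) (σ : ℕ → R) (red : R →+* O) (x : Fin 3 → R),
  Tate deg h g σ red x → C.NB σ → ∀ (η : C.D 0 1) (e : ℤ), IsEta C η e → RowsC C red η

theorem force_of (h1 : GLUE) (h2 : BASE.{0, 0}) (h3 : CORE.{0, 0}) (h4 : ROWS.{0, 0}) :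
    FORCE := by
  intro R _ O _ deg h g C σ red x hT hN η e he
  obtain ⟨K, hK⟩ := h1 R O deg h g C σ red x hT hN η e he
  obtain ⟨K', hK'⟩ := h2 O _ _ K _ _ hK
  have hr := h4 O _ _ K' _ _ hK' (h3 O _ _ K' _ _ hK')
  refine ⟨hr.r1, hr.r2, ?_, ?_, ?_, hr.r5, hr.r6, hr.r7, ?_, hr.r9⟩
  · intro y o ho
    refine hr.r3 y o ?_
    change red (C.j 0 0 o) = 1
    rw [ho, map_one]
  · intro y o ho
    refine hr.r3b y o ?_
    change red (C.j 0 0 o) = 1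
    rw [ho, map_one]
  · intro y
    obtain ⟨c, hc⟩ := hr.r4 y
    refine ⟨c * e, ?_⟩
    have hc' : y = c • C.I (-44) 0 1 (e • η) := hc
    rw [hc', map_zsmul, mul_smul]
  · have h8 : C.k (-53) 53 ⟨1, by simpa using hT.one_mem⟩ = 0 := hr.r8
    exact (C.ex_k (s₀ := -54) (t₁ := 54) _ (by norm_num) (by norm_num)).1 h8

end Vale.Agent.P236Z.Force
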