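import Vale.Agent.P236Z.Force.LevB

/-! The ideals of the three levels and their Koszul properties. -/

namespace Vale.Agent.P236Z.Force

universe u

variable {O : Type u} [CommRing O]

/-- product of three ideals -/
def tri (a b c : Ideal O) : Submodule O (V O) where
  carrier := {x | x 0 ∈ a ∧ x 1 ∈ b ∧ x 2 ∈ c}
  add_mem' := fun h h' => ⟨add_mem h.1 h'.1, add_mem h.2.1 h'.2.1, add_mem h.2.2 h'.2.2⟩
  zero_mem' := ⟨zero_mem _, zero_mem _, zero_mem _⟩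
  smul_mem' := fun r _ h => ⟨a.mul_mem_left r h.1, b.mul_mem_left r h.2.1, c.mul_mem_left r h.2.2⟩

/-- the shape of the boundaries -/
def Jf (a b c d : Ideal O) (e : ℤ) : Submodule O (V O) :=
  if e = 0 then tri a ⊥ ⊥ else if e = 1 then tri ⊤ b c else if e = 2 then tri d ⊤ ⊤
  else tri ⊤ ⊥ ⊥

variable {a b c d : Ideal O} {x v : V O} {n1 n2 f : O}

theorem jf0 : x ∈ Jf a b c d 0 ↔ x 0 ∈ a ∧ x 1 = 0 ∧ x 2 = 0 := Iff.rfl

theorem jf1 : x ∈ Jf a b c d 1 ↔ x 1 ∈ b ∧ x 2 ∈ c := ⟨fun h => h.2, fun h => ⟨trivial, h⟩⟩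

theorem jf2 : x ∈ Jf a b c d 2 ↔ x 0 ∈ d := ⟨fun h => h.1, fun h => ⟨h, trivial, trivial⟩⟩

theorem jf3 : x ∈ Jf a b c d 3 ↔ x 1 = 0 ∧ x 2 = 0 := ⟨fun h => h.2, fun h => ⟨trivial, h⟩⟩

theorem jf_top (h : Lm 3 x) : x ∈ Jf a b c d 3 := jf3.2 (h (Or.inr rfl))

theorem lm0 : Lm 0 x ↔ x 1 = 0 ∧ x 2 = 0 := ⟨fun h => h (Or.inl rfl), fun h _ => h⟩

theorem lm3 : Lm 3 x ↔ x 1 = 0 ∧ x 2 = 0 := ⟨fun h => h (Or.inr rfl), fun h _ => h⟩

theorem lm_two (x : V O) : Lm 2 x := fun h => by omega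

theorem jv1 {J : ℤ → Submodule O (V O)} : JV J v 1 x ↔ ∃ t : O, x - t • v ∈ J 1 :=
  ⟨fun ⟨y, _, h⟩ => ⟨y 0, h⟩, fun ⟨t, h⟩ => ⟨t • e0, (lm_e0 _).smul t, by
    simpa [wd, e0] using h⟩⟩

theorem jv2 {J : ℤ → Submodule O (V O)} : JV J v 2 x ↔ ∃ y, x - wd 1 v y ∈ J 2 :=
  ⟨fun ⟨y, _, h⟩ => ⟨y, h⟩, fun ⟨y, h⟩ => ⟨y, lm_one y, h⟩⟩

theorem jv3 {J : ℤ → Submodule O (V O)} : JV J v 3 x ↔ ∃ y, x - wd 2 v y ∈ J 3 :=
  ⟨fun ⟨y, _, h⟩ => ⟨y, h⟩, fun ⟨y, h⟩ => ⟨y, lm_two y, h⟩⟩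

theorem jv_of_mem {J : ℤ → Submodule O (V O)} {e : ℤ} (h : x ∈ J e) : JV J v e x :=
  ⟨0, Lm.zero _, by rwa [wd_zero_right, sub_zero]⟩

theorem wd_ty0 (w x : V O) : wd 0 w x = x 0 • w := rfl

theorem wd1_0 (w x : V O) : wd 1 w x 0 = w 1 * x 2 - w 2 * x 1 := rfl

theorem wd2_mem (w x : V O) : wd 2 w x ∈ Jf a b c d 3 := jf3.2 ⟨rfl, rfl⟩

theorem cases4 {e : ℤ} (h0 : 0 ≤ e) (h3 : e ≤ 3) : e = 0 ∨ e = 1 ∨ e = 2 ∨ e = 3 := by omega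

/-- the maximal ideal -/
abbrev mm (n1 n2 : O) : Ideal O := Ideal.span {n1, n2}

/-- the ideal of the first level -/
abbrev i1 (n1 : O) : Ideal O := Ideal.span {n1}

/-- boundaries at the start of the second level -/
abbrev J2 (n1 : O) : ℤ → Submodule O (V O) := Jf (i1 n1) (i1 n1) (i1 n1) (i1 n1)

/-- boundaries at the start of the third level -/
abbrev J3 (n1 n2 : O) : ℤ → Submodule O (V O) := Jf (mm n1 n2) ⊤ (mm n1 n2) ⊤

theorem mem_i1 {y : O} : y ∈ i1 n1 ↔ n1 ∣ y := Ideal.mem_span_singleton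

theorem mm_of_dvd {y : O} (h : n1 ∣ y) : y ∈ mm n1 n2 := by
  obtain ⟨t, rfl⟩ := h
  exact Ideal.mul_mem_right _ _ (Ideal.subset_span (by simp))

theorem n2_mem : n2 ∈ mm n1 n2 := Ideal.subset_span (by simp)

theorem mm_iff {y : O} : y ∈ mm n1 n2 ↔ ∃ t, n1 ∣ y - t * n2 := by
  refine ⟨fun h => ?_, fun ⟨t, h⟩ => ?_⟩
  · obtain ⟨s, t, rfl⟩ := Ideal.mem_span_pair.1 h
    exact ⟨t, s, by ring⟩
  · simpa using add_mem (mm_of_dvd (n2 := n2) h) (Ideal.mul_mem_left _ t n2_mem)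

namespace OFacts

variable (h : OFacts n1 n2)
include h

theorem not_mem {y : O} (hy : IsUnit y) : y ∉ mm n1 n2 := fun hm =>
  h.ne_top ((Ideal.eq_top_iff_one _).1 (Ideal.eq_top_of_isUnit_mem _ hm hy))

theorem unit_of {y z : O} (hy : IsUnit y) (hm : y - z ∈ mm n1 n2) : IsUnit z :=
  (h.loc z).resolve_right fun hz => h.not_mem hy (by simpa using add_mem hm hz)

theorem dvd_unit {y z : O} (hy : IsUnit y) (hd : n1 ∣ y * z) : n1 ∣ z :=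
  (h.prime1 _ _ hd).resolve_left fun hy' => h.not_mem hy (mm_of_dvd hy')

theorem div {t : O} (hd : n1 ∣ n2 - t * f) : IsUnit f ∨ ∃ d, IsUnit d ∧ n1 ∣ f - d * n2 := by
  refine (h.loc f).imp id fun hf => ?_
  obtain ⟨d, hd'⟩ := mm_iff.1 hf
  have : n1 ∣ n2 * (1 - t * d) := by
    have := dvd_add hd (hd'.mul_left t)
    rwa [show n2 - t * f + t * (f - d * n2) = n2 * (1 - t * d) by ring] at this
  have h1 := (h.prime1 _ _ this).resolve_left h.not_dvd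
  exact ⟨d, isUnit_of_mul_isUnit_right (h.unit_of isUnit_one (mm_of_dvd h1)), hd'⟩

theorem prim (hv : v ∉ J2 n1 1) : ∃ (g : O) (w : V O), ¬ n1 ∣ g ∧ v - g • w ∈ J2 n1 1 ∧
    wd 1 v w ∈ J2 n1 2 ∧ (∀ x, wd 1 v x ∈ J2 n1 2 → ∃ t : O, x - t • w ∈ J2 n1 1) ∧
    (∀ y : O, y • w ∈ J2 n1 1 → n1 ∣ y) ∧ (w 1 = 1 ∨ w 2 = 1) := by
  simp only [jf1, jf2, mem_i1, wd1_0] at hv ⊢
  obtain ⟨t, ht | ht⟩ := h.val (v 1) (v 2)
  · have hg : ¬ n1 ∣ v 2 := fun hg => hv ⟨by simpa using dvd_add ht (hg.mul_left t), hg⟩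
    refine ⟨v 2, ![0, t, 1], hg, ⟨by simpa [mul_comm] using ht, by simp⟩,
      by simpa [mul_comm] using ht, fun x hx => ⟨x 2, ?_, by simp⟩,
      fun y hy => by simpa using hy.2, Or.inr rfl⟩
    have := dvd_sub (ht.mul_right (x 2)) hx
    rw [show (v 1 - t * v 2) * x 2 - (v 1 * x 2 - v 2 * x 1) = v 2 * (x 1 - x 2 * t) by ring] at this
    simpa using (h.prime1 _ _ this).resolve_left hg
  · have hg : ¬ n1 ∣ v 1 := fun hg => hv ⟨hg, by simpa using dvd_add ht (hg.mul_left t)⟩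
    refine ⟨v 1, ![0, 1, t], hg, ⟨by simp, by simpa [mul_comm] using ht⟩, ?_,
      fun x hx => ⟨x 1, by simp, ?_⟩, fun y hy => by simpa using hy.1, Or.inl rfl⟩
    · have := ht.neg_right
      simpa [mul_comm] using this
    · have := dvd_add (ht.mul_right (x 1)) hx
      rw [show (v 2 - t * v 1) * x 1 + (v 1 * x 2 - v 2 * x 1) = v 1 * (x 2 - x 1 * t) by ring]
        at this
      simpa using (h.prime1 _ _ this).resolve_left hg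

omit h in
theorem ka1 (e : ℤ) (x : V O) (h0 : 0 ≤ e) (h3 : e ≤ 3) (l : Lm e x)
    (hx : wd e e0 x ∈ (fun _ => ⊥ : ℤ → Submodule O (V O)) (e + 1)) :
    JV (fun _ => ⊥) e0 e x := by
  have hx' : ∀ k, wd e e0 x k = 0 := fun k => by rw [Submodule.mem_bot O |>.1 hx]; rfl
  rcases cases4 h0 h3 with rfl | rfl | rfl | rfl
  · have : x 0 = 0 := by simpa [wd, e0] using hx' 0
    refine JV.zero_iff.2 ?_
    rw [l.eq_e0, this, zero_smul]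
    exact zero_mem _
  · have h1 : x 2 = 0 := by simpa [wd, e0] using hx' 1
    have h2 : x 1 = 0 := by simpa [wd, e0] using hx' 2
    exact jv1.2 ⟨x 0, by rw [← (lm0.2 ⟨h2, h1⟩).eq_e0, sub_self]; exact zero_mem _⟩
  · have : x 0 = 0 := by simpa [wd, e0] using hx' 0
    refine jv2.2 ⟨![0, x 2, -x 1], (Submodule.mem_bot O).2 ?_⟩
    ext k
    fin_cases k <;> simp [wd, e0, this]
  · refine jv3.2 ⟨x, (Submodule.mem_bot O).2 ?_⟩
    ext k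
    fin_cases k <;> simp [wd, e0, (lm3.1 l).1, (lm3.1 l).2]

theorem kb1 {d : O} (hd : IsUnit d) (hf : f = n1 * d) (e : ℤ) (x : V O) (h0 : 0 ≤ e) (h2 : e ≤ 2)
    (l : Lm e x) (hx : JV (fun _ => ⊥) e0 e (f • x)) :
    wd e e0 x ∈ (fun _ => ⊥ : ℤ → Submodule O (V O)) (e + 1) := by
  have k : ∀ y, f * y = 0 → y = 0 := fun y hy => (h.dom _ _ hy).resolve_left fun h0 =>
    h.n1_ne (hd.mul_left_eq_zero.1 (hf ▸ h0))
  refine (Submodule.mem_bot O).2 ?_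
  rcases cases4 h0 (by omega) with rfl | rfl | rfl | rfl
  · have : x 0 = 0 := k _ (congrFun ((Submodule.mem_bot O).1 (JV.zero_iff.1 hx)) 0)
    rw [wd_ty0, this, zero_smul]
  · obtain ⟨t, ht⟩ := jv1.1 hx
    have ht := (Submodule.mem_bot O).1 ht
    have h1 : x 1 = 0 := k _ (by simpa [e0] using congrFun ht 1)
    have h2 : x 2 = 0 := k _ (by simpa [e0] using congrFun ht 2)
    ext k
    fin_cases k <;> simp [wd, e0, h1, h2]
  · obtain ⟨y, hy⟩ := jv2.1 hx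
    have h1 : x 0 = 0 := k _ (by simpa [wd, e0] using congrFun ((Submodule.mem_bot O).1 hy) 0)
    ext k
    fin_cases k <;> simp [wd, e0, h1]
  · omega

omit h in
theorem kc1 {d : O} (hd : IsUnit d) (hf : f = n1 * d) (e : ℤ) (z : V O) (h0 : 0 ≤ e) (h3 : e ≤ 3) :
    z ∈ J2 n1 e ↔ Lm e z ∧ ∃ x, Lm e x ∧ JV (fun _ => ⊥) e0 e (z - f • x) := by
  have k : ∀ y, n1 ∣ y → ∃ t, y - f * t = 0 := fun y ⟨t, ht⟩ => by
    obtain ⟨d', hd'⟩ := hd.exists_right_inv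
    exact ⟨d' * t, by rw [ht, hf]; linear_combination (-n1 * t) * hd'⟩
  have k' : ∀ y t, y - f * t = 0 → n1 ∣ y := fun y t hy =>
    ⟨d * t, by rw [hf] at hy; linear_combination hy⟩
  rcases cases4 h0 h3 with rfl | rfl | rfl | rfl
  · rw [jf0, mem_i1, lm0]
    refine ⟨fun ⟨a, b⟩ => ⟨b, ?_⟩, fun ⟨b, x, _, hx⟩ => ⟨k' _ (x 0) ?_, b⟩⟩
    · obtain ⟨t, ht⟩ := k _ a
      refine ⟨t • e0, (lm_e0 0).smul t, JV.zero_iff.2 ((Submodule.mem_bot O).2 ?_)⟩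
      ext k
      fin_cases k <;> simp [e0, ht, b.1, b.2]
    · exact congrFun ((Submodule.mem_bot O).1 (JV.zero_iff.1 hx)) 0
  · rw [jf1, mem_i1, mem_i1]
    refine ⟨fun ⟨a, b⟩ => ⟨lm_one _, ?_⟩, fun ⟨_, x, _, hx⟩ => ?_⟩
    · obtain ⟨t, ht⟩ := k _ a
      obtain ⟨t', ht'⟩ := k _ b
      refine ⟨![0, t, t'], lm_one _, jv1.2 ⟨z 0, (Submodule.mem_bot O).2 ?_⟩⟩
      ext k
      fin_cases k <;> simp [e0, ht, ht', Matrix.vecHead, Matrix.vecTail]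
    · obtain ⟨t, ht⟩ := jv1.1 hx
      have ht := (Submodule.mem_bot O).1 ht
      exact ⟨k' _ (x 1) (by simpa [e0] using congrFun ht 1),
        k' _ (x 2) (by simpa [e0] using congrFun ht 2)⟩
  · rw [jf2, mem_i1]
    refine ⟨fun a => ⟨lm_two _, ?_⟩, fun ⟨_, x, _, hx⟩ => ?_⟩
    · obtain ⟨t, ht⟩ := k _ a
      refine ⟨t • e0, lm_two _, ka1 2 _ (by omega) (by omega) (lm_two _)
        ((Submodule.mem_bot O).2 ?_)⟩
      ext k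
      fin_cases k <;> simp [wd, e0, ht]
    · obtain ⟨y, hy⟩ := jv2.1 hx
      exact k' _ (x 0) (by simpa [wd, e0] using congrFun ((Submodule.mem_bot O).1 hy) 0)
  · refine ⟨fun a => ⟨lm3.2 (jf3.1 a), 0, Lm.zero _, ?_⟩, fun a => jf_top a.1⟩
    rw [smul_zero, sub_zero]
    exact ka1 3 _ (by omega) (by omega) (lm3.2 (jf3.1 a)) (by simp [wd])

theorem ka2 (hv : IsUnit (v 1)) (e : ℤ) (x : V O) (h0 : 0 ≤ e) (h3 : e ≤ 3) (l : Lm e x)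
    (hx : wd e v x ∈ J2 n1 (e + 1)) : JV (J2 n1) v e x := by
  obtain ⟨u, hu⟩ := hv.exists_right_inv
  rcases cases4 h0 h3 with rfl | rfl | rfl | rfl
  · refine JV.zero_iff.2 (jf0.2 ⟨mem_i1.2 (h.dvd_unit hv ?_), lm0.1 l⟩)
    rw [mul_comm]
    exact mem_i1.1 (jf1.1 hx).1
  · have := (mem_i1.1 (jf2.1 hx)).mul_right u
    refine jv1.2 ⟨x 1 * u, jf1.2 ⟨mem_i1.2 ?_, mem_i1.2 ?_⟩⟩
    · rw [show (x - (x 1 * u) • v) 1 = 0 by simp; linear_combination (-x 1) * hu]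
      exact dvd_zero _
    · rwa [show (x - (x 1 * u) • v) 2 = wd 1 v x 0 * u by
        simp [wd1_0]; linear_combination (-x 2) * hu]
  · refine jv2.2 ⟨![0, 0, x 0 * u], jf2.2 ?_⟩
    rw [show (x - wd 1 v ![0, 0, x 0 * u]) 0 = 0 by
      simp [wd1_0]; linear_combination (-x 0) * hu]
    exact zero_mem _
  · exact jv_of_mem (jf_top l)

theorem kb2 {d : O} (hd : IsUnit d) (hf : n1 ∣ f - d * n2) (e : ℤ) (x : V O) (h0 : 0 ≤ e)
    (h2 : e ≤ 2) (hx : JV (J2 n1) v e (f • x)) : wd e v x ∈ J2 n1 (e + 1) := by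
  have k : ∀ y, n1 ∣ f * y → n1 ∣ y := fun y hy => (h.prime1 _ _ hy).resolve_left fun h0 =>
    h.not_dvd (h.dvd_unit hd (by simpa using dvd_sub h0 hf))
  rcases cases4 h0 (by omega) with rfl | rfl | rfl | rfl
  · have := k _ (mem_i1.1 (jf0.1 (JV.zero_iff.1 hx)).1)
    exact jf1.2 ⟨mem_i1.2 (this.mul_right _), mem_i1.2 (this.mul_right _)⟩
  · obtain ⟨t, ht⟩ := jv1.1 hx
    have := dvd_sub ((mem_i1.1 (jf1.1 ht).2).mul_left (v 1)) ((mem_i1.1 (jf1.1 ht).1).mul_left (v 2))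
    refine jf2.2 (mem_i1.2 (k _ ?_))
    rwa [show f * wd 1 v x 0 = v 1 * (f • x - t • v) 2 - v 2 * (f • x - t • v) 1 by
      simp [wd1_0]; ring]
  · exact wd2_mem _ _
  · omega

theorem kc2 {d : O} (hd : IsUnit d) (hf : n1 ∣ f - d * n2) (hv : IsUnit (v 1))
    (hv' : v 2 ∈ mm n1 n2) (e : ℤ) (z : V O) (h0 : 0 ≤ e) (h3 : e ≤ 3) :
    z ∈ J3 n1 n2 e ↔ Lm e z ∧ ∃ x, Lm e x ∧ JV (J2 n1) v e (z - f • x) := by
  have fm : f ∈ mm n1 n2 := mm_iff.2 ⟨d, hf⟩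
  have k : ∀ y, y ∈ mm n1 n2 → ∃ t, n1 ∣ y - f * t := fun y hy => by
    obtain ⟨d', hd'⟩ := hd.exists_right_inv
    obtain ⟨t, ht⟩ := mm_iff.1 hy
    refine ⟨d' * t, ?_⟩
    have := dvd_sub ht (hf.mul_right (d' * t))
    rwa [show y - t * n2 - (f - d * n2) * (d' * t) = y - f * (d' * t) by
      linear_combination (t * n2) * hd'] at this
  rcases cases4 h0 h3 with rfl | rfl | rfl | rfl
  · rw [jf0, lm0]
    refine ⟨fun ⟨a, b⟩ => ⟨b, ?_⟩, fun ⟨b, x, _, hx⟩ => ⟨?_, b⟩⟩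
    · obtain ⟨t, ht⟩ := k _ a
      exact ⟨t • e0, (lm_e0 0).smul t, JV.zero_iff.2 (jf0.2 ⟨mem_i1.2 (by simpa [e0] using ht),
        by simp [e0, b.1], by simp [e0, b.2]⟩)⟩
    · have := mm_of_dvd (n2 := n2) (mem_i1.1 (jf0.1 (JV.zero_iff.1 hx)).1)
      simpa using add_mem this (Ideal.mul_mem_right (x 0) _ fm)
  · rw [jf1]
    refine ⟨fun ⟨_, b⟩ => ⟨lm_one _, ?_⟩, fun ⟨_, x, _, hx⟩ => ⟨trivial, ?_⟩⟩
    · obtain ⟨u, hu⟩ := hv.exists_right_inv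
      obtain ⟨t, ht⟩ := k _ (sub_mem b (Ideal.mul_mem_left _ (z 1 * u) hv'))
      refine ⟨![0, 0, t], lm_one _, jv1.2 ⟨z 1 * u, jf1.2 ⟨mem_i1.2 ?_, mem_i1.2 ?_⟩⟩⟩
      · rw [show (z - f • ![0, 0, t] - (z 1 * u) • v : V O) 1 = 0 by
          simp [Matrix.vecHead, Matrix.vecTail]; linear_combination (-z 1) * hu]
        exact dvd_zero _
      · rwa [show (z - f • ![0, 0, t] - (z 1 * u) • v : V O) 2 = z 2 - z 1 * u * v 2 - f * t by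
          simp [Matrix.vecHead, Matrix.vecTail]; ring]
    · obtain ⟨t, ht⟩ := jv1.1 hx
      have := add_mem (add_mem (mm_of_dvd (n2 := n2) (mem_i1.1 (jf1.1 ht).2))
        (Ideal.mul_mem_left _ t hv')) (Ideal.mul_mem_right (x 2) _ fm)
      simpa using this
  · refine ⟨fun _ => ⟨lm_two _, 0, lm_two _, ?_⟩, fun _ => jf2.2 trivial⟩
    exact h.ka2 hv 2 _ (by omega) (by omega) (lm_two _) (wd2_mem _ _)
  · refine ⟨fun a => ⟨lm3.2 (jf3.1 a), 0, Lm.zero _, ?_⟩, fun a => jf_top a.1⟩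
    rw [smul_zero, sub_zero]
    exact jv_of_mem (jf3.2 (jf3.1 a))

omit h in
theorem ka3 (hv : IsUnit (v 2)) (e : ℤ) (x : V O) (h0 : 0 ≤ e) (h3 : e ≤ 3) (l : Lm e x)
    (hx : wd e v x ∈ J3 n1 n2 (e + 1)) : JV (J3 n1 n2) v e x := by
  obtain ⟨u, hu⟩ := hv.exists_right_inv
  rcases cases4 h0 h3 with rfl | rfl | rfl | rfl
  · exact JV.zero_iff.2 (jf0.2 ⟨(Ideal.mul_unit_mem_iff_mem _ hv).1 (jf1.1 hx).2, lm0.1 l⟩)
  · refine jv1.2 ⟨x 2 * u, jf1.2 ⟨trivial, ?_⟩⟩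
    rw [show (x - (x 2 * u) • v) 2 = 0 by simp; linear_combination (-x 2) * hu]
    exact zero_mem _
  · exact jv_of_mem (jf2.2 trivial)
  · exact jv_of_mem (jf_top l)

omit h in
theorem kb3 (hf : IsUnit f) (e : ℤ) (x : V O) (h0 : 0 ≤ e) (h2 : e ≤ 2)
    (hx : JV (J3 n1 n2) v e (f • x)) : wd e v x ∈ J3 n1 n2 (e + 1) := by
  rcases cases4 h0 (by omega) with rfl | rfl | rfl | rfl
  · have := (Ideal.unit_mul_mem_iff_mem _ hf).1 (jf0.1 (JV.zero_iff.1 hx)).1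
    exact jf1.2 ⟨trivial, Ideal.mul_mem_right _ _ this⟩
  · exact jf2.2 trivial
  · exact wd2_mem _ _
  · omega

omit h in
theorem kc3 (hf : IsUnit f) (e : ℤ) (z : V O) (h0 : 0 ≤ e) (h3 : e ≤ 3) :
    z ∈ Jf ⊤ ⊤ ⊤ ⊤ e ↔ Lm e z ∧ ∃ x, Lm e x ∧ JV (J3 n1 n2) v e (z - f • x) := by
  obtain ⟨u, hu⟩ := hf.exists_right_inv
  have k : z ∈ Jf ⊤ ⊤ ⊤ ⊤ e ↔ Lm e z := by
    rcases cases4 h0 h3 with rfl | rfl | rfl | rfl
    · simp [jf0, lm0]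
    · simp [jf1, lm_one]
    · simp [jf2, lm_two]
    · simp [jf3, lm3]
  rw [k]
  refine ⟨fun l => ⟨l, u • z, l.smul u, jv_of_mem ?_⟩, fun l => l.1⟩
  rw [smul_smul, hu, one_smul, sub_self]
  exact zero_mem _

end OFacts

end Vale.Agent.P236Z.Force
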