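import Vale.Agent.P236Z.Force.Tw
import Vale.Agent.P236Z.Force.Alg

/-! The basis adapted to `eta`. -/

namespace Vale.Agent.P236Z.Force

universe u v

variable {O : Type u} [CommRing O] {D : ℤ → ℤ → Type v} [∀ n s, AddCommGroup (D n s)]
  {T : Tow O D}

open Crd

namespace Pre

variable {C : Crd T} {n1 n2 : O} (hP : Pre C n1 n2) {n s i e : ℤ} {x z : V O}
include hP

theorem perm_of_h (a : At n s i e) (l : Lm e x) (h : C.H n s 214 x z) : C.Perm n s x := by
  obtain ⟨y, b, -⟩ := h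
  rw [T.nil _ _ _ y (by omega)] at b
  exact (hP.ex_k (n - 1) (s - 1) n s i e x (by ring) (by ring) a l).1 b.symm

theorem perm_all (h0 : C.Perm 1 (-3) ![1, 0, 0]) (h1 : C.Perm 1 (-3) ![0, 1, 0])
    (h2 : C.Perm 1 (-3) ![0, 0, 1]) (n s e : ℤ) (x : V O) (a : At n s 0 e) (l : Lm e x) :
    C.Perm n s x := by
  have a1 : At 1 (-3) 0 1 := by unfold At; omega
  have t1 : ∀ n s x, At n s 0 1 → C.Perm n s x := by
    intro n s x a
    have a0 : At (n - 1) (s + 3) 0 0 := by unfold At at a ⊢; omega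
    have k : ∀ (w : V O) (c : O), C.Perm 1 (-3) w → C.H n s 214 (c • w) 0 := fun w c hw => by
      obtain ⟨b, -, h⟩ := hP.h_shift (n'' := n) (s'' := s) (r := 214) (by omega) (by ring)
        (by ring) a0 a1 ((lm_e0 0).smul c) (lm_one w)
        (hP.perm_h a0 (hP.perm0 _ _ _ a0 ((lm_e0 0).smul c)) _) (hP.perm_h a1 hw _)
      simpa [e0] using h
    have := ((k _ (x 0) h0).add (k _ (x 1) h1)).add (k _ (x 2) h2)
    rw [show x 0 • ![1, 0, 0] + x 1 • ![0, 1, 0] + x 2 • ![0, 0, 1] = x by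
      ext l; fin_cases l <;> simp] at this
    exact hP.perm_of_h a (lm_one x) this
  have k : ∀ n s e (w y : V O), At n s 0 (e + 1) → 0 ≤ e → C.Perm (n - 1) (s + 3) y →
      C.H n s 214 (wd e w y) 0 := fun n s e w y a he hy => by
    have a0 : At (n - 1) (s + 3) 0 e := by unfold At at a ⊢; omega
    obtain ⟨b, -, h⟩ := hP.h_mul1 (n'' := n) (s'' := s) (r := 214) (by omega) (by ring)
      (by ring) a1 a0 (by have := a.2.1; omega) (hP.perm_lm a0 hy) (Or.inl rfl)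
      (hP.perm_h a1 (t1 _ _ w a1) _) hy
    simpa using h
  have t2 : ∀ n s x, At n s 0 2 → C.Perm n s x := by
    intro n s x a
    have a0 : At (n - 1) (s + 3) 0 1 := by unfold At at a ⊢; omega
    have := (k n s 1 ![0, 1, 0] ![-x 2, 0, x 0] a (by omega) (t1 _ _ _ a0)).add
      (k n s 1 ![0, 0, 1] ![x 1, 0, 0] a (by omega) (t1 _ _ _ a0))
    rw [show wd 1 ![0, 1, 0] ![-x 2, 0, x 0] + wd 1 ![0, 0, 1] ![x 1, 0, 0] = x by
      ext l; fin_cases l <;> simp [wd]] at this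
    exact hP.perm_of_h a (lm_two x) this
  rcases cases4 a.1 a.2.1 with rfl | rfl | rfl | rfl
  · exact hP.perm0 n s x a l
  · exact t1 n s x a
  · exact t2 n s x a
  · have := k n s 2 e0 x a (by omega) (t2 _ _ _ (by unfold At at a ⊢; omega))
    rw [show wd 2 e0 x = x by
      ext l'; fin_cases l' <;> simp [wd, e0, (lm3.1 l).1, (lm3.1 l).2]] at this
    exact hP.perm_of_h a l this

theorem st_one : St C (fun _ => ⊥) 1 5 :=
  ⟨fun _ _ _ _ _ a _ l => hP.z_five a l,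
    fun _ _ _ _ _ _ _ => ⟨fun h => (Submodule.mem_bot O).2 (hP.b_five h),
      fun h => (Submodule.mem_bot O).1 h ▸ B.zero⟩,
    fun _ _ i _ _ _ b => absurd (Int.emod_one i) b, fun h => absurd rfl h, le_rfl⟩

end Pre

theorem Raw.unit {C : Crd T} {n1 n2 : O} (hR : Raw C n1 n2) {v : V O}
    (hv : C.H (2 * 1) (2 * 1) 5 e0 v) : ∃ l, IsUnit (v l) := by
  obtain ⟨n, s, i, z, a, ht, b, l, u⟩ := hR.alpha
  have hP := hR.toPre
  have b' : C.B n s (5 + 1) z := by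
    unfold Crd.B
    rwa [show s + (5 + 1) - 1 = s + 5 by ring]
  rcases hP.b_succ (by omega) b' with c | ⟨i', e', x, c1, c2, c3⟩
  · rw [hP.b_five c] at u
    exact absurd (zero_mem _) (hR.of.not_mem u)
  · have : e' = 0 ∧ n + 1 = 2 * (1 * i') ∧ s + 5 = 2 * (1 * i') := by unfold At at a c1; omega
    obtain ⟨rfl, h1, h2⟩ := this
    have h3 := hP.pow (Or.inl ⟨rfl, rfl, rfl, rfl⟩) hP.st_one hv i'
    rw [← h1] at h3
    nth_rewrite 2 [h1] at h3
    rw [← h2] at h3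
    obtain ⟨p, -, h4⟩ := hP.h_smul le_rfl c1 (lm_e0 0) h3 (x 0)
    rw [← c2.eq_e0] at h4
    have h5 := congrFun (sub_eq_zero.1 (hP.b_five (c3.diff h4 rfl rfl))) l
    refine ⟨l, isUnit_of_mul_isUnit_right (x := p * (x 0 * i')) ?_⟩
    rw [h5] at u
    simpa [mul_assoc] using u

theorem base : BASE.{u, v} := by
  intro O _ D _ T C n1 n2 hR
  have hP := hR.toPre
  have a1 : At 1 (-3) 0 1 := by unfold At; omega
  obtain ⟨y1, e1⟩ := T.sparse 1 (-1) 0 rfl (by omega) T.eta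
  obtain ⟨y2, e2'⟩ := T.sparse 1 (-2) (-1) rfl (by omega) y1
  obtain ⟨y, e3⟩ := T.sparse 1 (-3) (-2) rfl (by omega) y2
  have hy : T.I 1 (-3) 0 y = T.eta := by
    rw [← T.I_comp 1 (-3) (-1) 0 y (by omega) (by omega),
      ← T.I_comp 1 (-3) (-2) (-1) y (by omega) (by omega), e3, e2', e1]
  have jg : ∀ y, C.j 1 (-3) (T.g 1 (-3) y) = C.G 4 1 (C.j 1 (-3) y) := fun y =>
    hP.jg 1 (-3) 0 1 y a1
  set w := C.j 1 (-3) y with hw
  set N := w + C.G 4 1 w + C.G 4 1 (C.G 4 1 w) with hN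
  have jN : C.j 1 (-3) (y + T.g _ _ y + T.g _ _ (T.g _ _ y)) = N := by
    rw [map_add, map_add, jg, jg, jg]
  have d5 : C.Hit 1 (-3) 1 e0 N := by
    refine ⟨_, ?_, jN⟩
    rw [hP.k_one 1 1 (by unfold At; omega), ← hR.eta_rel, ← hy,
      ← T.I_comp 1 (-3) 0 1 _ (by omega) (by omega)]
    congr 1
    rw [map_add, map_add, T.Ig 1 (-3) 0 (T.g _ _ y) (by omega), T.Ig 1 (-3) 0 y (by omega)]
  let π := Ideal.Quotient.mk (mm n1 n2)
  have jo : ∀ t x, t = 4 ∨ t = 16 → π (C.G t 1 x 0) = π (x 0) ∧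
      π (C.G t 1 x 1) = π (x 0) + π (x 1) ∧ π (C.G t 1 x 2) = π (x 1) + π (x 2) := fun t x ht =>
    ⟨Ideal.Quotient.eq.2 (hR.jordan t x 0 ht), Ideal.Quotient.eq.2 (hR.jordan t x 1 ht),
      Ideal.Quotient.eq.2 (hR.jordan t x 2 ht)⟩
  have h3 : (3 : O ⧸ mm n1 n2) = 0 := by
    have := congrArg π hR.of.three
    rwa [map_ofNat, map_zero] at this
  obtain ⟨g0, g1, g2⟩ := jo 4 w (Or.inl rfl)
  obtain ⟨f0, f1, f2⟩ := jo 4 (C.G 4 1 w) (Or.inl rfl)
  have N0 : π (N 0) = 0 := by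
    simp only [hN, Pi.add_apply, map_add, f0, g0]
    linear_combination π (w 0) * h3
  have N1 : π (N 1) = 0 := by
    simp only [hN, Pi.add_apply, map_add, f1, g0, g1]
    linear_combination (π (w 0) + π (w 1)) * h3
  have N2 : π (N 2) = π (w 0) := by
    simp only [hN, Pi.add_apply, map_add, f2, g1, g2]
    linear_combination (π (w 1) + π (w 2)) * h3
  have uw : IsUnit (w 0) := by
    obtain ⟨l, u⟩ := hR.unit (v := N) d5
    fin_cases l
    · exact absurd (Ideal.Quotient.eq_zero_iff_mem.1 N0) (hR.of.not_mem u)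
    · exact absurd (Ideal.Quotient.eq_zero_iff_mem.1 N1) (hR.of.not_mem u)
    · exact hR.of.unit_of u (Ideal.Quotient.eq.1 N2)
  let A : Matrix (Fin 3) (Fin 3) O := Matrix.of fun r c => ![N, C.G 4 1 w - w, w] c r
  have A0 : ∀ r, A r 0 = N r := fun _ => rfl
  have A1 : ∀ r, A r 1 = C.G 4 1 w r - w r := fun _ => rfl
  have A2 : ∀ r, A r 2 = w r := fun _ => rfl
  have hA : IsUnit A.det := by
    refine hR.of.unit_of (uw.pow 3).neg (Ideal.Quotient.eq.1 ?_)
    change π _ = π _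
    simp only [Matrix.det_fin_three, A0, A1, A2, map_add, map_sub, map_mul, map_neg, map_pow, N0,
      N1, N2, g0, g1, g2]
    ring
  have hC := chg_ext A hA
  have P0 : exP A hA 1 ![1, 0, 0] = N := by ext l; simp [ext_one, A0]
  have P1 : exP A hA 1 ![0, 1, 0] = C.G 4 1 w - w := by ext l; simp [ext_one, A1]
  have P2 : exP A hA 1 ![0, 0, 1] = w := by ext l; simp [ext_one, A2]
  refine ⟨C.tw (exP A hA), hP.tw hC, (hP.tw hC).perm_all ?_ ?_ ?_, ?_, ?_, fun x => ?_, y, ?_, hy⟩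
  · rw [tw_perm, a1.tyB, P0]
    exact ⟨_, jN⟩
  · rw [tw_perm, a1.tyB, P1]
    exact ⟨T.g _ _ y - y, by rw [map_sub, jg]⟩
  · rw [tw_perm, a1.tyB, P2]
    exact ⟨y, rfl⟩
  · rw [tw_hit, a1.tyB, show tyB (1 + 1) (1 + 1) = 0 from rfl, hC.zero]
    exact P0 ▸ d5
  · rw [tw_G, LinearEquiv.symm_apply_eq, e0, P0, hN, map_add, map_add, hR.G_cube]
    abel
  · have k : exP A hA 1 ((C.tw (exP A hA)).G 16 1 x) = C.G 16 1 (exP A hA 1 x) := by
      rw [tw_G, LinearEquiv.apply_symm_apply]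
    generalize (C.tw (exP A hA)).G 16 1 x = z at k ⊢
    obtain ⟨k0, k1, -⟩ := jo 16 (exP A hA 1 x) (Or.inr rfl)
    rw [← k] at k0 k1
    simp only [ext_one, A0, A1, A2, map_add, map_sub, map_mul, N0, N1, g0, g1] at k0 k1
    have u := uw.map π
    have k2 : π (z 2) = π (x 2) := u.mul_left_cancel (by linear_combination k0)
    refine Ideal.Quotient.eq_zero_iff_mem.1 (u.mul_right_eq_zero.1 ?_)
    change π (w 0) * π _ = 0
    rw [map_sub, map_sub]
    linear_combination k1 - π (w 1) * k2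
  · rw [tw_j, a1.tyB, LinearEquiv.symm_apply_eq, e2, P2]

end Vale.Agent.P236Z.Force
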