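import Vale.Agent.P236Z.Force.Alg

/-! The three levels and the pattern of differentials. -/

namespace Vale.Agent.P236Z.Force

universe u v

variable {O : Type u} [CommRing O] {D : ℤ → ℤ → Type v} [∀ n s, AddCommGroup (D n s)]
  {T : Tow O D}

open Crd

theorem Sg.dvd {a : ℤ} (ha : Sg a) {n t : O} {z f : V O} (h : z - a • t • f ∈ J2 n 0) :
    ∃ u : O, IsUnit u ∧ n ∣ z 0 - u * (t * f 0) := by
  have := mem_i1.1 (jf0.1 h).1
  rcases ha with rfl | rfl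
  · exact ⟨1, isUnit_one, by simpa using this⟩
  · exact ⟨-1, isUnit_one.neg, by simpa using this⟩

namespace Adp

variable {C : Crd T} {n1 n2 : O} (hA : Adp C n1 n2)
include hA

theorem lev1 : Lev C (fun _ => ⊥) 1 3 5 9 e0 4 (-8) :=
  ⟨Or.inl ⟨rfl, rfl, rfl, rfl⟩, ⟨fun _ _ _ _ _ a _ l => hA.toPre.z_five a l,
    fun _ _ _ _ z _ _ => ⟨fun h => (Submodule.mem_bot O).2 (hA.toPre.b_five h),
      fun h => (Submodule.mem_bot O).1 h ▸ B.zero⟩,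
    fun _ _ i _ _ _ b => absurd (Int.emod_one i) b, fun h => absurd rfl h, le_rfl⟩,
    hA.d5, by unfold At; omega⟩

theorem val1 : ∃ F d, C.H (4 + 1) (-8 + 9) 9 e0 F ∧ IsUnit d ∧ F 0 = n1 * d := by
  have L := hA.lev1
  have h1 : C.B 4 (-8) (9 + 1) (n1 • e0) := by
    refine hA.toPre.gapB0 (r2 := 25) (by omega) (by omega) hA.nb1 fun r i e x b1 b2 a l h => ?_
    refine hA.toPre.perm_z a (B.perm (r := 5 + 1) ?_) _
    have : (i = 4 ∧ e = 1) ∨ (i = 3 ∧ e = 3) := by unfold At at a; omega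
    rcases this with ⟨rfl, rfl⟩ | ⟨rfl, rfl⟩
    · exact hA.pk1 L OFacts.ka1 a rfl l (h.anti (by omega) (by omega))
    · exact hA.b_ge L.lv L.st L.hv a rfl (by omega)
        (OFacts.ka1 3 x (by omega) le_rfl l (by simp [wd]))
  obtain ⟨x, hx⟩ := hA.bound L h1 fun h => hA.of.n1_ne (by
    simpa [e0] using congrFun ((Submodule.mem_bot O).1 h) 0)
  obtain ⟨F, hF⟩ := ((hA.src_z L (x := e0)).2 (by rw [wd_self]; exact zero_mem _)).h
  obtain ⟨t, ht⟩ := jv1.1 (OFacts.ka1 1 x (by omega) (by omega) (lm_one x)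
    ((hA.src_z L).1 hx.cyc))
  obtain ⟨a, -, ha⟩ := hA.val L hF hx t ht
  have h2 : n1 = (a * t) * F 0 := by
    have := congrFun ((Submodule.mem_bot O).1 ha) 0
    simp [e0] at this
    linear_combination this
  have h3 := (Submodule.mem_bot O).1 (hA.finv L (t := 12) rfl rfl hF)
  have h4 : ¬ IsUnit (F 0) := fun hu => hA.inv1 _ hu (by
    rw [← (hA.src_lm L.at0 hF).eq_e0]
    exact sub_eq_zero.1 (congrFun h3 0))
  have h5 : ∀ y z : O, n1 = n1 * y * z → IsUnit y ∧ IsUnit z := fun y z h => by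
    have : 1 - y * z = 0 := (hA.of.dom n1 _ (by linear_combination h)).resolve_left hA.of.n1_ne
    have : IsUnit (y * z) := by rw [show y * z = 1 by linear_combination -this]; exact isUnit_one
    exact ⟨isUnit_of_mul_isUnit_left this, isUnit_of_mul_isUnit_right this⟩
  rcases hA.of.prime1 (a * t) (F 0) ⟨1, by rw [← h2, mul_one]⟩ with ⟨c, hc⟩ | ⟨c, hc⟩
  · exact absurd (h5 c (F 0) (by rw [← hc, ← h2])).2 h4
  · exact ⟨F, c, hF, (h5 c (a * t) (by rw [← hc, mul_comm, ← h2])).1, hc⟩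

theorem st2 : St C (J2 n1) 3 (9 + 1) := by
  obtain ⟨F, d, hF, hd, h⟩ := hA.val1
  exact hA.next hA.lev1 hF OFacts.ka1 (fun e x a b l => hA.of.kb1 hd h e x a b l)
    (OFacts.kc1 hd h) fun _ => jf_top

theorem lev2 : ∃ v, Lev C (J2 n1) 3 9 17 33 v 16 (-32) := by
  have hL : Lv 3 9 17 33 := Or.inr (Or.inl ⟨rfl, rfl, rfl, rfl⟩)
  have S := hA.toPre.adv hL hA.st2 (by omega)
  obtain ⟨v, hv⟩ := (S.all (2 * 3) (2 * 3) 3 0 e0 (by unfold At; omega) rfl (lm_e0 0)).h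
  exact ⟨v, hL, S, hv, by unfold At; omega⟩

theorem far {J : ℤ → Submodule O (V O)} {p q ra rb n0 s0 R : ℤ} {v z : V O}
    (L : Lev C J p q ra rb v n0 s0) (hR : (p = 3 ∧ R = 69) ∨ (p = 9 ∧ R = 213))
    (h : C.B n0 s0 R z) : C.B n0 s0 (rb + 1) z := by
  have hL := L.lv
  have a0 := L.at0
  have h5 : ra + 1 ≤ rb ∧ 5 ≤ ra ∧ rb + 1 ≤ R := by unfold Lv at hL; omega
  refine hA.toPre.gapB0 (by omega) h5.2.2 h fun r i e x b1 b2 a l h => ?_
  refine hA.toPre.perm_z a (Pre.src_dead L.st a (fun c => ?_) l (by omega) h).perm _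
  have k1 : r + 2 = 6 * i - e := by unfold At at a a0; omega
  have k2 : r % 4 = 1 := by unfold At at a a0; omega
  have k3 : 0 ≤ e ∧ e ≤ 3 := ⟨a.1, a.2.1⟩
  obtain ⟨c', rfl⟩ := Int.dvd_of_emod_eq_zero c.1
  have k4 := c.2
  clear a a0 c h l L
  rcases hL with ⟨rfl, rfl, rfl, rfl⟩ | ⟨rfl, rfl, rfl, rfl⟩ | ⟨rfl, rfl, rfl, rfl⟩
  · omega
  · have : c' = 2 ∨ c' = 3 ∨ c' = 4 := by omega
    omega
  · have : c' = 2 ∨ c' = 3 ∨ c' = 4 := by omega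
    omega

theorem val2 {v : V O} (L : Lev C (J2 n1) 3 9 17 33 v 16 (-32)) :
    IsUnit (v 1) ∧ v 2 ∈ mm n1 n2 ∧
      ∃ F d, C.H (16 + 1) (-32 + 33) 33 v F ∧ IsUnit d ∧ n1 ∣ F 0 - d * n2 := by
  have hn : n2 • e0 ∉ J2 n1 0 := fun h => hA.of.not_dvd (by simpa [e0] using mem_i1.1 (jf0.1 h).1)
  obtain ⟨x, hx⟩ := hA.bound L (hA.far L (Or.inl ⟨rfl, rfl⟩) hA.nb2) hn
  obtain ⟨g, w, hg, h1, h2, h3, h4, h5⟩ := hA.of.prim (hA.v_not L hx hn)
  obtain ⟨f, hf⟩ := ((hA.src_z L).2 h2).h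
  obtain ⟨F, hF⟩ := ((hA.src_z L (x := v)).2 (by rw [wd_self]; exact zero_mem _)).h
  obtain ⟨t, ht⟩ := h3 x ((hA.src_z L).1 hx.cyc)
  obtain ⟨a, ha, k1⟩ := hA.val L hf hx t ht
  obtain ⟨a', ha', k2⟩ := hA.val L hf hF g h1
  obtain ⟨t1, -, k1⟩ := ha.dvd k1
  obtain ⟨t2, u2, k2⟩ := ha'.dvd k2
  rw [show (n2 • e0 : V O) 0 = n2 by simp [e0]] at k1
  obtain ⟨t3, k3⟩ := jv1.1 (hA.contr L hf)
  have k3 : n1 ∣ f 0 - t3 * g := h4 _ (by
    have := add_mem k3 (Submodule.smul_mem _ t3 h1)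
    rwa [show f 0 • w - t3 • v + t3 • (v - g • w) = (f 0 - t3 * g) • w by module] at this)
  have hi := hA.finv L (t := 48) rfl rfl hF
  have lF := hA.src_lm L.at0 hF
  have k4 : ¬ IsUnit (F 0) := fun hu => hA.inv2 _ hu (by
    rw [← lF.eq_e0]
    exact mem_i1.1 (jf0.1 hi).1)
  have k5 : ∀ b, IsUnit b → ¬ n1 ∣ F 0 - b * n2 ^ 2 := fun b hb h => hA.inv3 b hb (by
    have m : F - (b * n2 ^ 2) • e0 ∈ J2 n1 0 := jf0.2 ⟨mem_i1.2 (by simpa [e0] using h),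
      by simp [e0, (lm0.1 lF).1], by simp [e0, (lm0.1 lF).2]⟩
    have := mem_i1.1 (jf0.1 (add_mem (sub_mem hi (hA.jg0 L (t := 48) rfl m)) m)).1
    rwa [map_sub, show ∀ a b c d : V O, a - b - (a - c) + (b - d) = c - d by intros; abel,
      Pi.sub_apply, show ((b * n2 ^ 2) • e0 : V O) 0 = b * n2 ^ 2 by simp [e0]] at this)
  have k6 := hA.of.div (t := t1 * t) (f := f 0) (by rwa [mul_assoc])
  have k7 := hA.of.div (t := t1 * t * t3) (f := g) (by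
    have := dvd_add k1 (k3.mul_left (t1 * t))
    rwa [show n2 - t1 * (t * f 0) + t1 * t * (f 0 - t3 * g) = n2 - t1 * t * t3 * g by ring] at this)
  have k8 : IsUnit g ∧ ∃ d, IsUnit d ∧ n1 ∣ f 0 - d * n2 := by
    rcases k6 with k6 | ⟨d, hd, k6⟩
    · have ug : IsUnit g := isUnit_of_mul_isUnit_right (hA.of.unit_of k6 (mm_of_dvd k3))
      exact absurd (hA.of.unit_of (u2.mul (ug.mul k6)) (by
        simpa using neg_mem (mm_of_dvd (n2 := n2) k2))) k4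
    · refine ⟨k7.resolve_right fun ⟨d', hd', k7⟩ => k5 _ (u2.mul (hd'.mul hd)) ?_, d, hd, k6⟩
      have := dvd_add k2 (dvd_add (k7.mul_left (t2 * f 0)) (k6.mul_left (t2 * d' * n2)))
      rwa [show F 0 - t2 * (g * f 0) + (t2 * f 0 * (g - d' * n2) + t2 * d' * n2 * (f 0 - d * n2)) =
        F 0 - t2 * (d' * d) * n2 ^ 2 by ring] at this
  obtain ⟨ug, d, hd, k9⟩ := k8
  have m2 : v 2 ∈ mm n1 n2 := by
    have := sub_mem (mm_of_dvd (n2 := n2) (mem_i1.1 (jf1.1 (hA.ginv L (t := 16) rfl)).1)) (hA.G16 v)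
    simpa using this
  refine ⟨(hA.of.loc _).resolve_right fun m1 => ?_, m2, F, _, hF, u2.mul (ug.mul hd), ?_⟩
  · have : ∀ l, l = 1 ∨ l = 2 → w l ∈ mm n1 n2 := fun l hl => by
      refine (Ideal.unit_mul_mem_iff_mem _ ug).1 ?_
      rcases hl with rfl | rfl
      · simpa using sub_mem m1 (mm_of_dvd (mem_i1.1 (jf1.1 h1).1))
      · simpa using sub_mem m2 (mm_of_dvd (mem_i1.1 (jf1.1 h1).2))
    rcases h5 with h5 | h5
    · exact hA.of.ne_top (h5 ▸ this 1 (Or.inl rfl))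
    · exact hA.of.ne_top (h5 ▸ this 2 (Or.inr rfl))
  · have := dvd_add k2 (k9.mul_left (t2 * g))
    rwa [show F 0 - t2 * (g * f 0) + t2 * g * (f 0 - d * n2) = F 0 - t2 * (g * d) * n2 by ring]
      at this

theorem st3 : St C (J3 n1 n2) 9 (33 + 1) := by
  obtain ⟨v, L⟩ := hA.lev2
  obtain ⟨h1, h2, F, d, hF, hd, h⟩ := hA.val2 L
  exact hA.next L hF (hA.of.ka2 h1) (fun e x a b _ => hA.of.kb2 hd h e x a b)
    (hA.of.kc2 hd h h1 h2) fun _ => jf_top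

theorem lev3 : ∃ v, Lev C (J3 n1 n2) 9 27 53 105 v 0 0 := by
  have hL : Lv 9 27 53 105 := Or.inr (Or.inr ⟨rfl, rfl, rfl, rfl⟩)
  have S := hA.toPre.adv hL hA.st3 (by omega)
  obtain ⟨v, hv⟩ := (S.all (2 * 9) (2 * 9) 9 0 e0 (by unfold At; omega) rfl (lm_e0 0)).h
  exact ⟨v, hL, S, hv, by unfold At; omega⟩

theorem val3 {v : V O} (L : Lev C (J3 n1 n2) 9 27 53 105 v 0 0) :
    IsUnit (v 2) ∧ ∃ F, C.H (0 + 1) (0 + 105) 105 v F ∧ IsUnit (F 0) := by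
  have hn : e0 ∉ J3 n1 n2 0 := fun h => hA.of.ne_top (jf0.1 h).1
  obtain ⟨x, hx⟩ := hA.bound L (hA.far L (Or.inr ⟨rfl, rfl⟩) hA.nb3) hn
  have hv : IsUnit (v 2) := (hA.of.loc _).resolve_right fun m =>
    hA.v_not L hx hn (jf1.2 ⟨trivial, m⟩)
  obtain ⟨F, hF⟩ := ((hA.src_z L (x := v)).2 (by rw [wd_self]; exact zero_mem _)).h
  obtain ⟨t, ht⟩ := jv1.1 (OFacts.ka3 hv 1 x (by omega) (by omega) (lm_one x)
    ((hA.src_z L).1 hx.cyc))
  obtain ⟨a, -, ha⟩ := hA.val L hF hx t ht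
  refine ⟨hv, F, hF, isUnit_of_mul_isUnit_right (x := a * t) (hA.of.unit_of isUnit_one ?_)⟩
  simpa [e0, mul_assoc, mul_left_comm] using (jf0.1 ha).1

end Adp

theorem core : CORE.{u, v} := by
  intro O _ D _ T C n1 n2 hA
  have L1 := hA.lev1
  obtain ⟨F1, d1, hF1, hd1, h1⟩ := hA.val1
  obtain ⟨v2, L2⟩ := hA.lev2
  obtain ⟨u2, m2, F2, d2, hF2, hd2, h2⟩ := hA.val2 L2
  obtain ⟨v3, L3⟩ := hA.lev3
  obtain ⟨u3, F3, hF3, h3⟩ := hA.val3 L3
  have S4 := hA.next L3 hF3 (OFacts.ka3 u3) (fun e x a b _ => OFacts.kb3 h3 e x a b)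
    (OFacts.kc3 h3) fun _ => jf_top
  have cv : ∀ {n s : ℤ} (r K : ℤ) {x : V O}, C.B n s r x → K = s + r - 1 → C.Bd n s K x :=
    fun r K x h e => e ▸ h
  have p7 : ∀ n s i e x, At n s i e → i % 27 = 0 → Lm e x → C.Bd n s (s + 105) x :=
    fun n s i e x a b l => cv _ _ ((S4.bd n s i e x a b).2 ((OFacts.kc3 (n1 := n1) (n2 := n2)
      (v := v3) isUnit_one e x a.1 a.2.1).2 ⟨l, x, l, jv_of_mem (by simp)⟩)) (by ring)
  refine ⟨fun n s i e x a b h => ?_, fun n s i e x a b h => ?_, fun n s i e x a b h => ?_,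
    fun n s i e x a b h => ?_, fun n s i e x a b h => ?_, fun n s i e x a b h => ?_, p7,
    fun n s i e x a b c l => ?_, fun n s i x a b l m => ?_, fun n s i x a b m => ?_,
    fun n s i x a b h => ?_, fun n s i e x a b l => ?_⟩
  · exact (Submodule.mem_bot O).1 (hA.pk2 L1 hF1 OFacts.ka1
      (fun e x a b l => hA.of.kb1 hd1 h1 e x a b l) a b (hA.toPre.perm_lm a h)
      (hA.toPre.perm_z a h _))
  · exact cv _ _ (hA.pk1 L1 OFacts.ka1 a b (hA.toPre.perm_lm a h) (hA.toPre.perm_z a h _))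
      (by ring)
  · exact cv _ _ ((hA.st2.bd n s i e x a (by omega)).2 (hA.pk2 L2 hF2 (hA.of.ka2 u2)
      (fun e x a b _ => hA.of.kb2 hd2 h2 e x a b) a b (hA.toPre.perm_lm a h)
      (hA.toPre.perm_z a h _))) (by ring)
  · exact cv _ _ (hA.pk1 L2 (hA.of.ka2 u2) a b (hA.toPre.perm_lm a h) (hA.toPre.perm_z a h _))
      (by ring)
  · exact cv _ _ ((hA.st3.bd n s i e x a (by omega)).2 (hA.pk2 L3 hF3 (OFacts.ka3 u3)
      (fun e x a b _ => OFacts.kb3 h3 e x a b) a b (hA.toPre.perm_lm a h)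
      (hA.toPre.perm_z a h _))) (by ring)
  · exact cv _ _ (hA.pk1 L3 (OFacts.ka3 u3) a b (hA.toPre.perm_lm a h) (hA.toPre.perm_z a h _))
      (by ring)
  · refine cv _ _ (hA.b_ge L2.lv L2.st L2.hv a (by omega) (by omega)
      (hA.of.ka2 u2 e x a.1 a.2.1 l ?_)) (by ring)
    have : e = 2 ∨ e = 3 := by have := a.2.1; omega
    rcases this with rfl | rfl
    · exact wd2_mem _ _
    · simp [wd]
  · exact cv _ _ ((hA.st3.bd n s i 0 x a b).2 (jf0.2 ⟨m, lm0.1 l⟩)) (by ring)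
  · exact cv _ _ ((hA.st3.bd n s i 1 x a b).2 (jf1.2 ⟨trivial, m⟩)) (by ring)
  · have : C.B n s 105 x := by
      unfold Crd.B
      rwa [show s + 105 - 1 = s + 104 by ring]
    exact (jf0.1 (JV.zero_iff.1 (hA.b_rb L3 a (by omega) this).1)).1
  · obtain ⟨y, -, h⟩ := p7 n s i e x a b l
    exact ⟨y, h⟩

end Vale.Agent.P236Z.Force
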