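import Vale.Agent.P236Z.Force.RowA

/-! The rows `-1`, `0`, `4` and the periodicity classes. -/

namespace Vale.Agent.P236Z.Force

universe u v

variable {O : Type u} [CommRing O] {D : ℤ → ℤ → Type v} [∀ n s, AddCommGroup (D n s)]
  {T : Tow O D} {C : Crd T} {n1 n2 : O}

namespace RB

theorem unit_not (h : OFacts n1 n2) {a : O} (ha : IsUnit a) : a ∉ Ideal.span {n1, n2} := fun k =>
  h.ne_top ((Ideal.eq_top_iff_one _).1 (Ideal.eq_top_of_isUnit_mem _ k ha))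

theorem cast3 (h : OFacts n1 n2) {c : ℤ} (hc : 3 ∣ c) : (c : O) = 0 := by
  obtain ⟨d, rfl⟩ := hc
  rw [Int.cast_mul, Int.cast_ofNat, h.three, zero_mul]

theorem not3 (h : OFacts n1 n2) {a : O} (ha : IsUnit a) {c : ℤ}
    (hc : a - c ∈ Ideal.span {n1, n2}) : ¬ 3 ∣ c := fun k =>
  unit_not h ha (by rwa [cast3 h k, sub_zero] at hc)

theorem res2 (h : OFacts n1 n2) {w : O} (hw : IsUnit w) (a : O) :
    ∃ c : ℤ, a - c * w ∈ Ideal.span {n1, n2} := by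
  obtain ⟨p, hp⟩ := h.res a
  obtain ⟨q, hq⟩ := h.res w
  have h1 := not3 h hw hq
  have h2 : ((1 - q * q : ℤ) : O) = 0 := cast3 h (by
    obtain ⟨r, rfl | rfl⟩ : ∃ r, q = 3 * r + 1 ∨ q = 3 * r + 2 := ⟨q / 3, by omega⟩
    exacts [⟨-(3 * r * r + 2 * r), by ring⟩, ⟨-(3 * r * r + 4 * r + 1), by ring⟩])
  refine ⟨p * q, ?_⟩
  have h3 : a - (p * q : ℤ) * w = a - p - (p * q : ℤ) * (w - q) := by
    push_cast at h2 ⊢
    linear_combination (p : O) * h2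
  rw [h3]
  exact sub_mem hp (Ideal.mul_mem_left _ _ hq)

theorem dead (hA : Adp C n1 n2) (hP : Pat C n1 n2) {n s K : ℤ} (a : At n s 0 0) (h2 : s + 33 ≤ K)
    (h : ∀ s' i e, s' < s → At n s' i e → Side s' K i e) (y : D n s)
    (hy : C.j n s y 0 ∈ Ideal.span {n1, n2}) : T.I n s K y = 0 :=
  hP.dead1 hA.toPre (by omega) h y
    ((hP.p9 n s 0 _ a rfl (hA.j_mem n s 0 0 y a) hy).mono (by omega) h2)

end RB

open RB

variable (hA : Adp C n1 n2) (hP : Pat C n1 n2)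
include hA hP

theorem row2 (x : D (-1) 0) (hx : x + T.g (-1) 0 x + T.g (-1) 0 (T.g (-1) 0 x) = 0) :
    ∃ y, x = T.g (-1) 0 y - y := by
  have a : At (-1) (-1) 0 3 := by unfold At; omega
  have h1 : ∀ z : D (-1) (-1), C.j (-1) (-1) z = 0 ↔ T.I (-1) (-1) 0 z = 0 := fun z => by
    have h2 : ∀ y : D (-1) (-2), T.I (-1) (-1) 0 (z - T.I (-1) (-2) (-1) y) = T.I (-1) (-1) 0 z :=
      fun y => by
        rw [map_sub, T.I_comp _ _ _ _ y (by omega) (by omega),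
          hP.dead hA.toPre (by omega) (fun _ _ _ l a => side_win (-1) 0 (-105) (-1) (by decide)
            (by omega) (Or.inr (by omega)) (by omega) a) y, sub_zero]
    rw [hA.ex_j (-1) (-2) (-1) 0 z rfl rfl]
    simp only [h2, exists_const]
  have h3 : ∀ z, C.j (-1) (-1) (T.g (-1) (-1) z) = C.G 0 3 (C.j (-1) (-1) z) := fun z =>
    hA.jg (-1) (-1) 0 3 z a
  have h4 := fun z => T.Ig (-1) (-1) 0 z (by omega)
  obtain ⟨x, rfl⟩ := T.sparse (-1) (-1) 0 rfl (by omega) x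
  rw [← h4, ← h4, ← map_add, ← map_add, ← h1, map_add, map_add, h3, h3, h3] at hx
  obtain ⟨y, l, b⟩ := hA.acy _ (hA.j_mem _ _ _ _ x a) hx
  obtain ⟨y, rfl⟩ := hA.perm _ _ _ y a l
  refine ⟨T.I (-1) (-1) 0 y, ?_⟩
  rw [← h4, ← map_sub, ← sub_eq_zero, ← map_sub, ← h1, map_sub, map_sub, h3, ← b, sub_self]

theorem row3 (x o : D 0 0) (ho : T.c0 0 0 o = 1) : 3 • T.I 0 0 34 o = 0 ∧
    ∃ c : ℤ, T.I 0 0 34 x = c • T.I 0 0 34 o ∧ (IsUnit (T.c0 0 0 x) → ¬ 3 ∣ c) := by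
  have a : At 0 0 0 0 := by unfold At; omega
  have h1 := dead (K := 34) hA hP a (by omega) fun _ _ _ l a =>
    side_win 0 34 (-71) 0 (by decide) (by omega) (Or.inr (by omega)) l a
  have h2 : C.j 0 0 o 0 = 1 := by
    have h3 := (hA.link 0 0 0 o a).trans ho
    have h4 : (C.j 0 0 o 0 - 1) * ((C.j 0 0 o 0 - 1) * (C.j 0 0 o 0 - 1)) = 0 := by
      linear_combination h3 + (C.j 0 0 o 0 - C.j 0 0 o 0 ^ 2) * hA.of.three
    exact sub_eq_zero.1 ((hA.of.dom _ _ h4).elim id fun k => (hA.of.dom _ _ k).elim id id)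
  obtain ⟨c, hc⟩ := hA.of.res (C.j 0 0 x 0)
  refine ⟨?_, c, ?_, fun k => not3 hA.of ?_ hc⟩
  · rw [← map_nsmul]
    refine h1 _ ?_
    rw [map_nsmul, Pi.smul_apply, nsmul_eq_mul, Nat.cast_ofNat, hA.of.three, zero_mul]
    exact zero_mem _
  · rw [← map_zsmul, ← sub_eq_zero, ← map_sub]
    refine h1 _ ?_
    rwa [map_sub, map_zsmul, Pi.sub_apply, Pi.smul_apply, h2, zsmul_eq_mul, mul_one]
  · rwa [← hA.link 0 0 0 x a, isUnit_pow_iff (by norm_num)] at k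

theorem row3b (x : D 0 12) (o : D 0 0) (ho : T.c0 0 0 o = 1) :
    ∃ c : ℤ, T.I 0 12 44 x = c • T.I 0 0 44 o := by
  obtain ⟨y, b⟩ := hP.down hA.toPre (s1 := 0) (K := 44) (by omega) (by omega) (fun _ _ _ l l' a =>
    side_win 0 44 0 13 (by decide) (by omega) (Or.inl l) (by omega) a) x
  obtain ⟨-, c, hc, -⟩ := row3 hA hP y o ho
  exact ⟨c, by rw [← b, ← T.I_comp 0 0 34 44 y (by omega) (by omega), hc, map_zsmul,
    T.I_comp 0 0 34 44 o (by omega) (by omega)]⟩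

theorem row7 (w : D 4 (-8)) (hw : IsUnit (T.c0 4 (-8) w)) : T.I 4 (-8) 62 w ≠ 0 ∧
    3 • T.I 4 (-8) 62 w = 0 ∧ ∀ y : D 4 44, T.I 4 44 62 (T.g 4 44 y - y) = 0 ∧
      ∃ c : ℤ, T.I 4 44 62 y = c • T.I 4 (-8) 62 w := by
  have a : At 4 (-8) 0 0 := by unfold At; omega
  have h1 := dead (K := 62) hA hP a (by omega) fun _ _ _ l a =>
    side_win 4 62 (-43) (-8) (by decide) (by omega) (Or.inr (by omega)) l a
  rw [← hA.link 4 (-8) 0 w a, isUnit_pow_iff (by norm_num)] at hw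
  refine ⟨fun k => unit_not hA.of hw (hP.p11 4 (-8) 0 _ a rfl
    (Crd.Bd.mono ⟨w, k, rfl⟩ (by omega) (by omega))), ?_, fun y => ?_⟩
  · rw [← map_nsmul]
    refine h1 _ ?_
    rw [map_nsmul, Pi.smul_apply, nsmul_eq_mul, Nat.cast_ofNat, hA.of.three, zero_mul]
    exact zero_mem _
  obtain ⟨y', b⟩ := hP.down hA.toPre (s1 := -8) (K := 62) (by omega) (by omega) (fun _ _ _ l l' a =>
    side_win 4 62 (-8) 45 (by decide) (by omega) (Or.inl l) (by omega) a) y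
  have h2 : C.j 4 (-8) (T.g 4 (-8) y') = C.G 12 0 (C.j 4 (-8) y') := hA.jg 4 (-8) 0 0 y' a
  obtain ⟨c, hc⟩ := res2 hA.of hw (C.j 4 (-8) y' 0)
  refine ⟨?_, c, ?_⟩
  · rw [map_sub, T.Ig _ _ _ y (by omega), ← b, ← T.Ig _ _ _ y' (by omega), ← map_sub]
    refine h1 _ ?_
    rw [map_sub, h2]
    exact hA.G_res _ (hA.j_mem _ _ _ _ y' a)
  · rw [← b, ← map_zsmul, ← sub_eq_zero, ← map_sub]
    refine h1 _ ?_
    rwa [map_sub, map_zsmul, Pi.sub_apply, Pi.smul_apply, zsmul_eq_mul]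

theorem row8 : T.ku 53 = 0 := by
  have a : At (53 + 1) (53 + 1) 27 0 := by unfold At; omega
  have l : Lm 0 (e0 : V O) := fun _ => ⟨rfl, rfl⟩
  rw [← hA.k_one 53 27 a]
  exact (hA.ex_k 53 53 _ _ 27 0 e0 rfl rfl a l).2 (hP.p12 _ _ 27 0 e0 a rfl l)

theorem row9 (n k : ℤ) (hn : n = 12 * k) (hk : k % 27 = 0) : ∃ y : D n 0, T.c0 n 0 y = 1 := by
  have a : At n 0 (4 * k) 0 := by unfold At; omega
  obtain ⟨y, hy⟩ := hP.p12 n 0 _ 0 e0 a (by omega) fun _ => ⟨rfl, rfl⟩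
  exact ⟨y, by rw [← hA.link n 0 _ y a, hy]; exact one_pow 3⟩

omit hA hP in
theorem rows : ROWS.{u, v} := fun _ _ _ _ _ _ _ _ hA hP =>
  ⟨row1 hA hP, row2 hA hP, row3 hA hP, row3b hA hP, row4 hA hP, row5 hA hP, row6 hA hP, row7 hA hP,
    row8 hA hP, row9 hA hP⟩

end Vale.Agent.P236Z.Force
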