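import Vale.Agent.P236Z.Force.Glue
import Vale.Agent.P236Z.Force.Base
import Vale.Agent.P236Z.Force.Core
import Vale.Agent.P236Z.Force.RowB

/-! The forcing block. -/

namespace Vale.Agent.P236Z.Force

theorem force : FORCE := force_of glue base core rows

end Vale.Agent.P236Z.Force
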