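import Vale.Agent.P236Z.Force.Tate

/-!
P236, forcing block: cochain algebra of the periodic complex of `C₃` (coboundaries, cup products,
standard cocycles).
-/

namespace Vale.Agent.P236Z.Force

open SS

variable {R : Type} [CommRing R] {O : Type} [CommRing O]

/-- the first differential as an additive map -/
def dh (h : R ≃+* R) (s : ℤ) : R →+ R where
  toFun := d1 h s
  map_zero' := by unfold d1 tr; split_ifs <;> simp
  map_add' a b := by unfold d1 tr; split_ifs <;> simp only [map_add] <;> ring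

theorem dh_apply (h : R ≃+* R) (s : ℤ) (a : R) : dh h s a = d1 h s a := rfl

theorem d1_even (h : R ≃+* R) {s : ℤ} (hs : s % 2 = 0) (a : R) : d1 h s a = h a - a := by
  unfold d1; rw [if_pos (Int.even_iff.2 hs)]

theorem d1_odd (h : R ≃+* R) {s : ℤ} (hs : s % 2 = 1) (a : R) : d1 h s a = tr h a := by
  unfold d1; rw [if_neg (by rw [Int.even_iff]; omega)]

theorem d1_par (h : R ≃+* R) {s s' : ℤ} (hs : s % 2 = s' % 2) (a : R) :
    d1 h s a = d1 h s' a := by
  rcases Int.emod_two_eq_zero_or_one s with e | e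
  · rw [d1_even h e, d1_even h (hs ▸ e)]
  · rw [d1_odd h e, d1_odd h (hs ▸ e)]

theorem cup_odd (h : R ≃+* R) {s s' : ℤ} (hs : s % 2 = 1) (hs' : s' % 2 = 1) (a b : R) :
    cup h s s' a b = h a * b + h (h a) * (b + h b) := by
  unfold cup; rw [if_pos ⟨Int.odd_iff.2 hs, Int.odd_iff.2 hs'⟩]

theorem cup_evl (h : R ≃+* R) {s : ℤ} (s' : ℤ) (hs : s % 2 = 0) (a b : R) :
    cup h s s' a b = a * b := by
  unfold cup; rw [if_neg (by rw [Int.odd_iff]; omega)]

theorem cup_evr (h : R ≃+* R) (s : ℤ) {s' : ℤ} (hs : s' % 2 = 0) (a b : R) :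
    cup h s s' a b = a * b := by
  unfold cup; rw [if_neg (by rw [Int.odd_iff, Int.odd_iff]; omega)]

theorem cup_par (h : R ≃+* R) {s s' e e' : ℤ} (h1 : s % 2 = e % 2) (h2 : s' % 2 = e' % 2)
    (a b : R) : cup h s s' a b = cup h e e' a b := by
  rcases Int.emod_two_eq_zero_or_one s with p | p
  · rw [cup_evl h _ p, cup_evl h _ (h1 ▸ p)]
  rcases Int.emod_two_eq_zero_or_one s' with q | q
  · rw [cup_evr h _ q, cup_evr h _ (h2 ▸ q)]
  · rw [cup_odd h p q, cup_odd h (h1 ▸ p) (h2 ▸ q)]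

theorem cup_sub_left (h : R ≃+* R) (s s' : ℤ) (a a' b : R) :
    cup h s s' (a - a') b = cup h s s' a b - cup h s s' a' b := by
  unfold cup; split_ifs
  · simp only [map_sub]; ring
  · ring

theorem cup_sub_right (h : R ≃+* R) (s s' : ℤ) (a b b' : R) :
    cup h s s' a (b - b') = cup h s s' a b - cup h s s' a b' := by
  unfold cup; split_ifs
  · simp only [map_sub]; ring
  · ring

theorem cup_zero_right (h : R ≃+* R) (s s' : ℤ) (a : R) : cup h s s' a 0 = 0 := by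
  unfold cup; split_ifs <;> simp

theorem nm_mul (h : R ≃+* R) (a b : R) : nm h (a * b) = nm h a * nm h b := by
  unfold nm; simp only [map_mul]; ring

theorem nm_neg (h : R ≃+* R) (a : R) : nm h (-a) = -nm h a := by
  unfold nm; simp only [map_neg]; ring

theorem nm_zero (h : R ≃+* R) : nm h 0 = 0 := by unfold nm; simp

theorem nm_one (h : R ≃+* R) : nm h 1 = 1 := by unfold nm; simp

/-- coboundaries in degree `t` and type `e` -/
def Cob (deg : ℤ → AddSubgroup R) (h : R ≃+* R) (t e : ℤ) : AddSubgroup R :=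
  (deg t).map (dh h (e + 1))

/-- cocycles in degree `t` and type `e` -/
def Cyc (deg : ℤ → AddSubgroup R) (h : R ≃+* R) (t e : ℤ) : AddSubgroup R :=
  deg t ⊓ (dh h e).ker

variable {deg : ℤ → AddSubgroup R} {h g : R ≃+* R}

theorem mem_Cob {t e : ℤ} {a : R} : a ∈ Cob deg h t e ↔ ∃ f ∈ deg t, d1 h (e + 1) f = a :=
  Iff.rfl

theorem mem_Cyc {t e : ℤ} {a : R} : a ∈ Cyc deg h t e ↔ a ∈ deg t ∧ d1 h e a = 0 := Iff.rfl

theorem Cob_par {t e e' : ℤ} (he : e % 2 = e' % 2) {a : R} (ha : a ∈ Cob deg h t e) :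
    a ∈ Cob deg h t e' := by
  obtain ⟨f, hf, rfl⟩ := mem_Cob.1 ha
  exact mem_Cob.2 ⟨f, hf, d1_par h (by omega) f⟩

theorem Cyc_par {t e e' : ℤ} (he : e % 2 = e' % 2) {a : R} (ha : a ∈ Cyc deg h t e) :
    a ∈ Cyc deg h t e' :=
  mem_Cyc.2 ⟨ha.1, by rw [← d1_par h he]; exact ha.2⟩

theorem cob_ev {t e : ℤ} (he : e % 2 = 0) {f : R} (hf : f ∈ deg t) : tr h f ∈ Cob deg h t e :=
  mem_Cob.2 ⟨f, hf, d1_odd h (by omega) f⟩

theorem cob_odd {t e : ℤ} (he : e % 2 = 1) {f : R} (hf : f ∈ deg t) : h f - f ∈ Cob deg h t e :=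
  mem_Cob.2 ⟨f, hf, d1_even h (by omega) f⟩

/-- the basis cocycles -/
def bas (h : R ≃+* R) (x : Fin 3 → R) (e : ℤ) : Fin 3 → R :=
  if e = 0 then ![1, 0, 0] else if e = 1 then x
  else if e = 2 then ![cup h 1 1 (x 1) (x 2), cup h 1 1 (x 2) (x 0), cup h 1 1 (x 0) (x 1)]
  else if e = 3 then ![x 0 * cup h 1 1 (x 1) (x 2), 0, 0] else 0

theorem gen_eq (h : R ≃+* R) (x : Fin 3 → R) (e : ℤ) (c : Fin 3 → R) :
    gen h x e c = nm h (c 0) * bas h x e 0 + nm h (c 1) * bas h x e 1 + nm h (c 2) * bas h x e 2 := by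
  unfold gen bas
  split_ifs <;> simp

variable {σ : ℕ → R} {red : R →+* O} {x : Fin 3 → R}

namespace Tate

variable (hT : Tate deg h g σ red x)
include hT

theorem h_mem {t : ℤ} {a : R} (ha : a ∈ deg t) : h a ∈ deg t := by
  rw [← hT.g_cube]; exact hT.g_mem _ _ (hT.g_mem _ _ (hT.g_mem _ _ ha))

theorem gh (a : R) : g (h a) = h (g a) := by rw [← hT.g_cube, ← hT.g_cube]

theorem mul_mem' {s t u : ℤ} {a b : R} (ha : a ∈ deg s) (hb : b ∈ deg t) (e : s + t = u) :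
    a * b ∈ deg u := e ▸ hT.mul_mem s t a b ha hb

theorem nm_mem {m : ℤ} {c : R} (hc : c ∈ deg (4 * m)) : nm h c ∈ deg (12 * m) :=
  hT.mul_mem' (hT.mul_mem _ _ _ _ hc (hT.h_mem hc)) (hT.h_mem (hT.h_mem hc)) (by ring)

theorem h_nm (c : R) : h (nm h c) = nm h c := by
  unfold nm; simp only [map_mul, hT.h_cube]; ring

theorem nm_add (a b : R) : nm h (a + b) = nm h a + nm h b +
    tr h (a * h a * h (h b) + a * h b * h (h b)) := by
  unfold nm tr; simp only [map_mul, map_add, hT.h_cube]; ring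

theorem g_d1 (s : ℤ) (a : R) : g (d1 h s a) = d1 h s (g a) := by
  unfold d1 tr; split_ifs <;> simp only [map_sub, map_add, hT.gh]

theorem g_nm (a : R) : g (nm h a) = nm h (g a) := by
  unfold nm; simp only [map_mul, hT.gh]

theorem g_Cob {t e : ℤ} {a : R} (ha : a ∈ Cob deg h t e) : g a ∈ Cob deg h t e := by
  obtain ⟨f, hf, rfl⟩ := mem_Cob.1 ha
  exact mem_Cob.2 ⟨g f, hT.g_mem _ _ hf, (hT.g_d1 _ _).symm⟩

theorem g_Cyc {t e : ℤ} {a : R} (ha : a ∈ Cyc deg h t e) : g a ∈ Cyc deg h t e :=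
  mem_Cyc.2 ⟨hT.g_mem _ _ ha.1, by rw [← hT.g_d1, (mem_Cyc.1 ha).2, map_zero]⟩

theorem d1_mem {t : ℤ} (s : ℤ) {a : R} (ha : a ∈ deg t) : d1 h s a ∈ deg t := by
  unfold d1 tr; split_ifs
  · exact sub_mem (hT.h_mem ha) ha
  · exact add_mem (add_mem ha (hT.h_mem ha)) (hT.h_mem (hT.h_mem ha))

theorem Cob_le {t e : ℤ} {a : R} (ha : a ∈ Cob deg h t e) : a ∈ Cyc deg h t e := by
  obtain ⟨f, hf, rfl⟩ := mem_Cob.1 ha
  refine mem_Cyc.2 ⟨hT.d1_mem _ hf, ?_⟩
  rcases Int.emod_two_eq_zero_or_one e with p | p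
  · rw [d1_even h p, d1_odd h (by omega)]; unfold tr; simp only [map_add, hT.h_cube]; ring
  · rw [d1_odd h p, d1_even h (by omega)]; unfold tr; simp only [map_sub, hT.h_cube]; ring

theorem cup_mem {s s' t t' u : ℤ} {a b : R} (ha : a ∈ deg t) (hb : b ∈ deg t') (e : t + t' = u) :
    cup h s s' a b ∈ deg u := by
  unfold cup; split_ifs
  · exact add_mem (hT.mul_mem' (hT.h_mem ha) hb e)
      (hT.mul_mem' (hT.h_mem (hT.h_mem ha)) (add_mem hb (hT.h_mem hb)) e)
  · exact hT.mul_mem' ha hb e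

omit hT in
theorem hh_of {a : R} (ha : tr h a = 0) : h (h a) = -a - h a := by
  unfold tr at ha; linear_combination ha

theorem cup_Cyc {e e' t t' u w : ℤ} {a b : R} (ha : a ∈ Cyc deg h t e) (hb : b ∈ Cyc deg h t' e')
    (hu : t + t' = u) (hw : (e + e') % 2 = w % 2) : cup h e e' a b ∈ Cyc deg h u w := by
  refine mem_Cyc.2 ⟨hT.cup_mem ha.1 hb.1 hu, ?_⟩
  have h1 := (mem_Cyc.1 ha).2
  have h2 := (mem_Cyc.1 hb).2
  rcases Int.emod_two_eq_zero_or_one e with p | p <;>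
    rcases Int.emod_two_eq_zero_or_one e' with q | q
  · rw [d1_even h p, sub_eq_zero] at h1
    rw [d1_even h q, sub_eq_zero] at h2
    rw [d1_even h (by omega), cup_evl h _ p, map_mul, h1, h2, sub_self]
  · rw [d1_even h p, sub_eq_zero] at h1
    rw [d1_odd h q] at h2
    rw [d1_odd h (by omega), cup_evl h _ p]
    unfold tr at *; simp only [map_mul, h1]; linear_combination a * h2
  · rw [d1_even h q, sub_eq_zero] at h2
    rw [d1_odd h p] at h1
    rw [d1_odd h (by omega), cup_evr h _ q]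
    unfold tr at *; simp only [map_mul, h2]; linear_combination b * h1
  · rw [d1_odd h p] at h1
    rw [d1_odd h q] at h2
    rw [d1_even h (by omega), cup_odd h p q]
    simp only [map_mul, map_add, hT.h_cube]
    rw [hh_of h1, hh_of h2]; ring

theorem cup_Cob_left {e e' t t' u w : ℤ} {a b : R} (ha : a ∈ Cob deg h t e)
    (hb : b ∈ Cyc deg h t' e') (hu : t + t' = u) (hw : (e + e') % 2 = w % 2) :
    cup h e e' a b ∈ Cob deg h u w := by
  obtain ⟨f, hf, rfl⟩ := mem_Cob.1 ha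
  have h2 := (mem_Cyc.1 hb).2
  have hb1 := hb.1
  rcases Int.emod_two_eq_zero_or_one e with p | p <;>
    rcases Int.emod_two_eq_zero_or_one e' with q | q
  · rw [d1_even h q, sub_eq_zero] at h2
    refine mem_Cob.2 ⟨f * b, hT.mul_mem' hf hb1 hu, ?_⟩
    rw [d1_odd h (by omega), d1_odd h (by omega), cup_evl h _ p]
    unfold tr; simp only [map_mul, h2]; ring
  · rw [d1_odd h q] at h2
    refine mem_Cob.2 ⟨f * h (h b) + f * h b + h (f * h b), add_mem (add_mem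
      (hT.mul_mem' hf (hT.h_mem (hT.h_mem hb1)) hu) (hT.mul_mem' hf (hT.h_mem hb1) hu))
      (hT.h_mem (hT.mul_mem' hf (hT.h_mem hb1) hu)), ?_⟩
    rw [d1_even h (by omega), d1_odd h (by omega), cup_evl h _ p]
    unfold tr; simp only [map_mul, map_add, hT.h_cube]
    rw [hh_of h2]; ring
  · rw [d1_even h q, sub_eq_zero] at h2
    refine mem_Cob.2 ⟨f * b, hT.mul_mem' hf hb1 hu, ?_⟩
    rw [d1_even h (by omega), d1_even h (by omega), cup_evr h _ q, map_mul, h2]; ring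
  · rw [d1_odd h q] at h2
    refine mem_Cob.2 ⟨-(f * h (h b)), neg_mem (hT.mul_mem' hf (hT.h_mem (hT.h_mem hb1)) hu), ?_⟩
    rw [d1_odd h (by omega), d1_even h (by omega), cup_odd h p q]
    unfold tr; simp only [map_mul, map_neg, map_sub, hT.h_cube]
    rw [hh_of h2]; ring

theorem cup_Cob_right {e e' t t' u w : ℤ} {a b : R} (ha : a ∈ Cyc deg h t e)
    (hb : b ∈ Cob deg h t' e') (hu : t + t' = u) (hw : (e + e') % 2 = w % 2) :
    cup h e e' a b ∈ Cob deg h u w := by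
  by_cases hp : e % 2 = 1 ∧ e' % 2 = 1
  · obtain ⟨p, q⟩ := hp
    obtain ⟨f, hf, rfl⟩ := mem_Cob.1 hb
    have h2 := (mem_Cyc.1 ha).2
    rw [d1_odd h p] at h2
    refine mem_Cob.2 ⟨a * f, hT.mul_mem' ha.1 hf hu, ?_⟩
    rw [d1_odd h (by omega), d1_even h (by omega), cup_odd h p q]
    unfold tr; simp only [map_mul, map_sub]
    rw [hh_of h2]; ring
  · have key := hT.cup_Cob_left hb ha (u := u) (w := w) (by omega) (by omega)
    rcases Int.emod_two_eq_zero_or_one e with p | p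
    · rw [cup_evr h _ p, mul_comm] at key; rwa [cup_evl h _ p]
    · have q : e' % 2 = 0 := by omega
      rw [cup_evl h _ q, mul_comm] at key; rwa [cup_evr h _ q]

/-- the cup product respects cohomology classes -/
theorem cup_congr {e e' t t' u w : ℤ} {a a' b b' : R} (ha : a' ∈ Cyc deg h t e)
    (hb : b' ∈ Cyc deg h t' e') (h1 : a - a' ∈ Cob deg h t e) (h2 : b - b' ∈ Cob deg h t' e')
    (hu : t + t' = u) (hw : (e + e') % 2 = w % 2) :
    cup h e e' a b - cup h e e' a' b' ∈ Cob deg h u w := by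
  have hb' : b ∈ Cyc deg h t' e' := by simpa using add_mem (hT.Cob_le h2) hb
  have := add_mem (hT.cup_Cob_left h1 hb' hu hw) (hT.cup_Cob_right ha h2 hu hw)
  rw [cup_sub_left, cup_sub_right] at this
  simpa using this

theorem nm_Cyc {m : ℤ} {c : R} (hc : c ∈ deg (4 * m)) : nm h c ∈ Cyc deg h (12 * m) 0 :=
  mem_Cyc.2 ⟨hT.nm_mem hc, by rw [d1_even h rfl, hT.h_nm, sub_self]⟩

theorem x_Cyc (i : Fin 3) : x i ∈ Cyc deg h 4 1 :=
  mem_Cyc.2 ⟨hT.x_mem i, by rw [d1_odd h rfl, hT.x_tr]⟩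

theorem xx_Cyc (i l : Fin 3) : cup h 1 1 (x i) (x l) ∈ Cyc deg h 8 2 :=
  hT.cup_Cyc (hT.x_Cyc i) (hT.x_Cyc l) rfl rfl

theorem bas_Cyc (e : ℤ) (l : Fin 3) : bas h x e l ∈ Cyc deg h (4 * e) e := by
  unfold bas
  split_ifs with h0 h1 h2 h3
  · subst h0
    fin_cases l
    · exact mem_Cyc.2 ⟨hT.one_mem, by rw [d1_even h rfl]; simp⟩
    · exact zero_mem _
    · exact zero_mem _
  · subst h1; exact hT.x_Cyc l
  · subst h2
    fin_cases l <;> exact hT.xx_Cyc _ _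
  · subst h3
    fin_cases l
    · have := hT.cup_Cyc (hT.x_Cyc 0) (hT.xx_Cyc 1 2) (u := 4 * 3) (w := 3) rfl rfl
      rwa [cup_evr h _ rfl] at this
    · exact zero_mem _
    · exact zero_mem _
  · exact zero_mem _

theorem mul_Cyc {e t t' u : ℤ} {a b : R} (ha : a ∈ Cyc deg h t 0) (hb : b ∈ Cyc deg h t' e)
    (hu : t + t' = u) : a * b ∈ Cyc deg h u e := by
  have := hT.cup_Cyc ha hb hu (w := e) (by omega)
  rwa [cup_evl h _ rfl] at this

theorem mul_Cob {e t t' u : ℤ} {a b : R} (ha : a ∈ Cob deg h t 0) (hb : b ∈ Cyc deg h t' e)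
    (hu : t + t' = u) : a * b ∈ Cob deg h u e := by
  have := hT.cup_Cob_left ha hb hu (w := e) (by omega)
  rwa [cup_evl h _ rfl] at this

theorem mul_Cob' {e t t' u : ℤ} {a b : R} (ha : a ∈ Cyc deg h t 0) (hb : b ∈ Cob deg h t' e)
    (hu : t + t' = u) : a * b ∈ Cob deg h u e := by
  have := hT.cup_Cob_right ha hb hu (w := e) (by omega)
  rwa [cup_evl h _ rfl] at this

theorem gen_Cyc {m e t : ℤ} {c : Fin 3 → R} (hc : ∀ l, c l ∈ deg (4 * m))
    (ht : 12 * m + 4 * e = t) : gen h x e c ∈ Cyc deg h t e := by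
  rw [gen_eq]
  exact add_mem (add_mem (hT.mul_Cyc (hT.nm_Cyc (hc 0)) (hT.bas_Cyc e 0) ht)
    (hT.mul_Cyc (hT.nm_Cyc (hc 1)) (hT.bas_Cyc e 1) ht))
    (hT.mul_Cyc (hT.nm_Cyc (hc 2)) (hT.bas_Cyc e 2) ht)

theorem nm_add_Cob {m : ℤ} {a b : R} (ha : a ∈ deg (4 * m)) (hb : b ∈ deg (4 * m)) :
    nm h (a + b) - nm h a - nm h b ∈ Cob deg h (12 * m) 0 := by
  rw [hT.nm_add]
  have : a * h a * h (h b) + a * h b * h (h b) ∈ deg (12 * m) := add_mem
    (hT.mul_mem' (hT.mul_mem _ _ _ _ ha (hT.h_mem ha)) (hT.h_mem (hT.h_mem hb)) (by ring))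
    (hT.mul_mem' (hT.mul_mem _ _ _ _ ha (hT.h_mem hb)) (hT.h_mem (hT.h_mem hb)) (by ring))
  have k := cob_ev (h := h) (e := 0) rfl this
  rwa [show ∀ p q r : R, p + q + r - p - q = r from fun p q r => by ring]

theorem nm_sub_Cob {m : ℤ} {a b : R} (ha : a ∈ deg (4 * m)) (hb : b ∈ deg (4 * m)) :
    nm h (a - b) - (nm h a - nm h b) ∈ Cob deg h (12 * m) 0 := by
  have := hT.nm_add_Cob ha (neg_mem hb)
  rw [nm_neg, ← sub_eq_add_neg] at this
  have e : nm h (a - b) - (nm h a - nm h b) = nm h (a - b) - nm h a - -nm h b := by ring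
  rwa [e]

theorem gen_add {m e t : ℤ} {c c' : Fin 3 → R} (hc : ∀ l, c l ∈ deg (4 * m))
    (hc' : ∀ l, c' l ∈ deg (4 * m)) (ht : 12 * m + 4 * e = t) :
    gen h x e (c + c') - gen h x e c - gen h x e c' ∈ Cob deg h t e := by
  have k := fun l => hT.mul_Cob (hT.nm_add_Cob (hc l) (hc' l)) (hT.bas_Cyc e l) ht
  have := add_mem (add_mem (k 0) (k 1)) (k 2)
  simp only [gen_eq, Pi.add_apply]
  refine (congrArg (· ∈ Cob deg h t e) ?_).mp this
  ring

omit hT in
theorem gen_neg (e : ℤ) (c : Fin 3 → R) : gen h x e (-c) = -gen h x e c := by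
  simp only [gen_eq, Pi.neg_apply, nm_neg]; ring

omit hT in
theorem gen_smul (e : ℤ) (a : R) (c : Fin 3 → R) :
    gen h x e (a • c) = nm h a * gen h x e c := by
  simp only [gen_eq, Pi.smul_apply, smul_eq_mul, nm_mul]; ring

theorem gen_sub {m e t : ℤ} {c c' : Fin 3 → R} (hc : ∀ l, c l ∈ deg (4 * m))
    (hc' : ∀ l, c' l ∈ deg (4 * m)) (ht : 12 * m + 4 * e = t) :
    gen h x e (c - c') - (gen h x e c - gen h x e c') ∈ Cob deg h t e := by
  have := hT.gen_add (c' := -c') hc (fun l => neg_mem (hc' l)) ht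
  rw [gen_neg, ← sub_eq_add_neg] at this
  have e' : gen h x e (c - c') - (gen h x e c - gen h x e c') =
    gen h x e (c - c') - gen h x e c - -gen h x e c' := by ring
  rwa [e']

end Tate

end Vale.Agent.P236Z.Force
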