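import Vale.Agent.P236Z.Force.GlA

/-!
P236, forcing block: the products of the standard cocycles.
-/

namespace Vale.Agent.P236Z.Force

open SS

variable {R : Type} [CommRing R] {O : Type} [CommRing O]
variable {deg : ℤ → AddSubgroup R} {h g : R ≃+* R}
variable {σ : ℕ → R} {red : R →+* O} {x : Fin 3 → R}

theorem gen0 (c : Fin 3 → R) : gen h x 0 c = nm h (c 0) := by simp [gen]

theorem gen1 (c : Fin 3 → R) :
    gen h x 1 c = nm h (c 0) * x 0 + nm h (c 1) * x 1 + nm h (c 2) * x 2 := by simp [gen]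

theorem gen2 (c : Fin 3 → R) : gen h x 2 c = nm h (c 0) * cup h 1 1 (x 1) (x 2) +
    nm h (c 1) * cup h 1 1 (x 2) (x 0) + nm h (c 2) * cup h 1 1 (x 0) (x 1) := by simp [gen]

theorem gen3 (c : Fin 3 → R) :
    gen h x 3 c = nm h (c 0) * (x 0 * cup h 1 1 (x 1) (x 2)) := by simp [gen]

theorem wd0 (w c : V O) : wd 0 w c = c 0 • w := by simp [wd]

theorem wd1 (w c : V O) : wd 1 w c =
    ![w 1 * c 2 - w 2 * c 1, w 2 * c 0 - w 0 * c 2, w 0 * c 1 - w 1 * c 0] := by simp [wd]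

theorem wd2 (w c : V O) : wd 2 w c = ![w 0 * c 0 + w 1 * c 1 + w 2 * c 2, 0, 0] := by simp [wd]

theorem wd3 (w c : V O) : wd 3 w c = 0 := by simp [wd]

theorem wd_zero (e : ℤ) (c : V O) : wd e 0 c = 0 := by
  unfold wd; split_ifs <;> funext l <;> fin_cases l <;> simp

theorem red_wd (e : ℤ) (c c' : Fin 3 → R) :
    (fun l => red (wd e c c' l)) = wd e (fun l => red (c l)) (fun l => red (c' l)) := by
  unfold wd; split_ifs <;> funext l <;> fin_cases l <;> simp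

namespace Tate

variable (hT : Tate deg h g σ red x)
include hT

theorem cup_sym (i l : Fin 3) :
    cup h 1 1 (x i) (x l) + cup h 1 1 (x l) (x i) ∈ Cob deg h 8 2 := by
  refine mem_Cob.2 ⟨x i * h (x l) + x l * h (x i), add_mem
    (hT.mul_mem' (hT.x_mem i) (hT.h_mem (hT.x_mem l)) rfl)
    (hT.mul_mem' (hT.x_mem l) (hT.h_mem (hT.x_mem i)) rfl), ?_⟩
  rw [d1_odd h rfl, cup_odd h rfl rfl, cup_odd h rfl rfl]
  unfold tr; simp only [map_mul, map_add, hT.h_cube]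
  rw [hh_of (hT.x_tr i), hh_of (hT.x_tr l)]; ring

theorem cup_self (i : Fin 3) : cup h 1 1 (x i) (x i) ∈ Cob deg h 8 2 := by
  refine mem_Cob.2 ⟨x i * h (x i), hT.mul_mem' (hT.x_mem i) (hT.h_mem (hT.x_mem i)) rfl, ?_⟩
  rw [d1_odd h rfl, cup_odd h rfl rfl]
  unfold tr; simp only [map_mul, hT.h_cube]
  rw [hh_of (hT.x_tr i)]; ring

theorem trip_cyc (a b c : Fin 3) :
    x a * cup h 1 1 (x b) (x c) - x c * cup h 1 1 (x a) (x b) ∈ Cob deg h 12 3 := by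
  refine mem_Cob.2 ⟨-((x a + h (x a)) * h (x b) * x c), neg_mem (hT.mul_mem' (hT.mul_mem _ _ _ _
    (add_mem (hT.x_mem a) (hT.h_mem (hT.x_mem a))) (hT.h_mem (hT.x_mem b))) (hT.x_mem c) rfl), ?_⟩
  rw [d1_even h rfl, cup_odd h rfl rfl, cup_odd h rfl rfl]
  simp only [map_mul, map_add, map_neg]
  rw [hh_of (hT.x_tr a), hh_of (hT.x_tr b)]; ring

theorem trip_abb (a b : Fin 3) : x a * cup h 1 1 (x b) (x b) ∈ Cob deg h 12 3 := by
  have := hT.cup_Cob_right (hT.x_Cyc a) (hT.cup_self b) (u := 12) (w := 3) rfl rfl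
  rwa [cup_evr h _ rfl] at this

theorem trip_aab (a b : Fin 3) : x a * cup h 1 1 (x a) (x b) ∈ Cob deg h 12 3 := by
  simpa using add_mem (hT.trip_cyc a a b) (hT.trip_abb b a)

theorem trip_aba (a b : Fin 3) : x a * cup h 1 1 (x b) (x a) ∈ Cob deg h 12 3 := by
  simpa using add_mem (hT.trip_cyc a b a) (hT.trip_aab a b)

theorem wd_mem {m m' u : ℤ} (e : ℤ) {c c' : Fin 3 → R} (hc : ∀ l, c l ∈ deg (4 * m))
    (hc' : ∀ l, c' l ∈ deg (4 * m')) (hu : m + m' = u) (l : Fin 3) :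
    wd e c c' l ∈ deg (4 * u) := by
  have k : ∀ i l, c i * c' l ∈ deg (4 * u) := fun i l => hT.mul_mem' (hc i) (hc' l) (by omega)
  unfold wd; split_ifs
  · simpa [mul_comm] using k l 0
  · fin_cases l
    · exact sub_mem (k 1 2) (k 2 1)
    · exact sub_mem (k 2 0) (k 0 2)
    · exact sub_mem (k 0 1) (k 1 0)
  · fin_cases l
    · exact add_mem (add_mem (k 0 0) (k 1 1)) (k 2 2)
    · exact zero_mem _
    · exact zero_mem _
  · exact zero_mem _

theorem prod1 {m m' t : ℤ} {c c' : Fin 3 → R} (hc : ∀ l, c l ∈ deg (4 * m))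
    (hc' : ∀ l, c' l ∈ deg (4 * m')) (ht : 12 * (m + m') + 8 = t) :
    cup h 1 1 (gen h x 1 c) (gen h x 1 c') - gen h x 2 (wd 1 c c') ∈ Cob deg h t 2 := by
  have k : ∀ i l, c i * c' l ∈ deg (4 * (m + m')) :=
    fun i l => hT.mul_mem' (hc i) (hc' l) (by ring)
  have a := fun i l p q => hT.mul_Cob' (hT.nm_Cyc (k i l)) (hT.cup_sym p q) ht
  have b := fun i => hT.mul_Cob' (hT.nm_Cyc (k i i)) (hT.cup_self i) ht
  have d := fun i l p q => hT.mul_Cob (hT.nm_sub_Cob (k i l) (k l i)) (hT.xx_Cyc p q) ht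
  have := sub_mem (add_mem (add_mem (add_mem (a 2 1 1 2) (a 0 2 2 0)) (a 1 0 0 1))
    (add_mem (add_mem (b 0) (b 1)) (b 2)))
    (add_mem (add_mem (d 1 2 1 2) (d 2 0 2 0)) (d 0 1 0 1))
  refine (congrArg (· ∈ Cob deg h t 2) ?_).mp this
  rw [gen2, wd1, gen1, gen1]
  simp only [Matrix.cons_val_zero, Matrix.cons_val_one, Matrix.cons_val, nm_mul,
    cup_odd h (s := 1) (s' := 1) rfl rfl, map_add, map_mul, hT.h_nm]
  ring

theorem prod2 {m m' t : ℤ} {c c' : Fin 3 → R} (hc : ∀ l, c l ∈ deg (4 * m))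
    (hc' : ∀ l, c' l ∈ deg (4 * m')) (ht : 12 * (m + m') + 12 = t) :
    gen h x 1 c * gen h x 2 c' - gen h x 3 (wd 2 c c') ∈ Cob deg h t 3 := by
  have k : ∀ i l, c i * c' l ∈ deg (4 * (m + m')) :=
    fun i l => hT.mul_mem' (hc i) (hc' l) (by ring)
  have a : ∀ i l {z}, z ∈ Cob deg h 12 3 → nm h (c i * c' l) * z ∈ Cob deg h t 3 :=
    fun i l _ hz => hT.mul_Cob' (hT.nm_Cyc (k i l)) hz ht
  have z : x 0 * cup h 1 1 (x 1) (x 2) ∈ Cyc deg h 12 3 := by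
    simpa [bas] using hT.bas_Cyc 3 0
  have d1 := hT.mul_Cob (hT.nm_add_Cob (k 0 0) (k 1 1)) z ht
  have d2 := hT.mul_Cob (hT.nm_add_Cob (add_mem (k 0 0) (k 1 1)) (k 2 2)) z ht
  have := sub_mem (add_mem (add_mem (add_mem (add_mem (a 0 1 (hT.trip_aba 0 2))
    (a 0 2 (hT.trip_aab 0 1))) (add_mem (a 1 0 (hT.trip_aab 1 2)) (a 1 2 (hT.trip_aba 1 0))))
    (add_mem (a 2 0 (hT.trip_aba 2 1)) (a 2 1 (hT.trip_aab 2 0))))
    (sub_mem (a 1 1 (hT.trip_cyc 1 2 0)) (a 2 2 (hT.trip_cyc 0 1 2)))) (add_mem d1 d2)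
  refine (congrArg (· ∈ Cob deg h t 3) ?_).mp this
  rw [gen3, wd2, gen1, gen2]
  simp only [Matrix.cons_val_zero, nm_mul]
  ring

/-- the product of a one form with a form of type `e` -/
theorem prod {m m' e t : ℤ} {c c' : Fin 3 → R} (hc : ∀ l, c l ∈ deg (4 * m))
    (hc' : ∀ l, c' l ∈ deg (4 * m')) (h0 : 0 ≤ e) (h2 : e ≤ 2)
    (ht : 12 * (m + m') + 4 * (e + 1) = t) :
    cup h 1 e (gen h x 1 c) (gen h x e c') - gen h x (e + 1) (wd e c c') ∈
      Cob deg h t (e + 1) := by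
  obtain rfl | rfl | rfl : e = 0 ∨ e = 1 ∨ e = 2 := by omega
  · rw [cup_evr h _ rfl, wd0, gen_smul, gen0, zero_add, mul_comm, sub_self]; exact zero_mem _
  · exact hT.prod1 hc hc' (by omega)
  · rw [cup_evr h _ rfl]; exact hT.prod2 hc hc' (by omega)

end Tate

end Vale.Agent.P236Z.Force
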