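import Vale.Agent.P236Z.Force.GlB

/-!
P236, forcing block: coordinates of cohomology classes.
-/

namespace Vale.Agent.P236Z.Force

open SS

variable {R : Type} [CommRing R] {O : Type} [CommRing O]

/-- the coordinates which count in type `e` -/
def proj (e : ℤ) (v : V O) : V O := if e = 0 ∨ e = 3 then ![v 0, 0, 0] else v

theorem proj_Lm (e : ℤ) (v : V O) : Lm e (proj e v) := by
  intro he; simp [proj, he]

theorem proj_of {e : ℤ} {v : V O} (hv : Lm e v) : proj e v = v := by
  unfold proj; split_ifs with he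
  · funext l; fin_cases l <;> simp [(hv he).1, (hv he).2]
  · rfl

theorem proj_zero' (e : ℤ) (v : V O) : proj e v 0 = v 0 := by
  unfold proj; split_ifs <;> simp

theorem proj_add (e : ℤ) (v w : V O) : proj e (v + w) = proj e v + proj e w := by
  unfold proj; split_ifs
  · funext l; fin_cases l <;> simp
  · rfl

theorem proj_neg (e : ℤ) (v : V O) : proj e (-v) = -proj e v := by
  unfold proj; split_ifs
  · funext l; fin_cases l <;> simp
  · rfl

theorem proj_smul (e : ℤ) (a : O) (v : V O) : proj e (a • v) = a • proj e v := by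
  unfold proj; split_ifs
  · funext l; fin_cases l <;> simp
  · rfl

theorem proj_one (v : V O) : proj 1 v = v := by simp [proj]

theorem wd_Lm (e : ℤ) (he : 0 ≤ e) (w v : V O) : Lm (e + 1) (wd e w v) := by
  intro h3
  obtain rfl : e = 2 := by omega
  simp [wd2]

theorem wd_proj (e : ℤ) (w v : V O) : wd e w (proj e v) = wd e w v := by
  unfold proj; split_ifs with he
  · rcases he with rfl | rfl
    · simp [wd0]
    · simp [wd3]
  · rfl

variable {deg : ℤ → AddSubgroup R} {h g : R ≃+* R}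

/-- `v` is the coordinate vector of the class of `a` -/
def Rep (deg : ℤ → AddSubgroup R) (h : R ≃+* R) (red : R →+* O) (x : Fin 3 → R) (t e : ℤ) (a : R)
    (v : V O) : Prop :=
  ∃ (m : ℤ) (c : Fin 3 → R), 12 * m + 4 * e = t ∧ (∀ l, c l ∈ deg (4 * m)) ∧
    a - gen h x e c ∈ Cob deg h t e ∧ v = proj e fun l => red (c l)

open Classical in
/-- the coordinate vector -/
noncomputable def cr (deg : ℤ → AddSubgroup R) (h : R ≃+* R) (red : R →+* O) (x : Fin 3 → R)
    (t e : ℤ) (a : R) : V O :=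
  if H : ∃ v, Rep deg h red x t e a v then H.choose else 0

/-- the type of a position -/
def ty (n s : ℤ) : ℤ := (-(2 * n + s)) % 6

/-- positions which carry cohomology -/
def Good (n s : ℤ) : Prop := (n - s) % 4 = 0 ∧ ty n s ≤ 3

theorem At.ty {n s i e : ℤ} (H : At n s i e) : ty n s = e := by
  unfold At at H; unfold Force.ty; omega

theorem At.good {n s i e : ℤ} (H : At n s i e) : Good n s :=
  ⟨H.2.2.2, by rw [H.ty]; exact H.2.1⟩

theorem Good.at {n s : ℤ} (H : Good n s) : At n s ((2 * n + s + ty n s) / 6) (ty n s) := by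
  unfold Good at H; unfold At; unfold Force.ty at *; omega

theorem At.par {n s i e : ℤ} (H : At n s i e) : s % 2 = e % 2 := by
  unfold At at H; omega

theorem At.dg {n s i e : ℤ} (H : At n s i e) : ∃ m, 12 * m + 4 * e = n - s :=
  ⟨(n - s - 4 * e) / 12, by unfold At at H; omega⟩

variable {σ : ℕ → R} {red : R →+* O} {x : Fin 3 → R}

theorem Rep.lm {t e : ℤ} {a : R} {v : V O} (H : Rep deg h red x t e a v) : Lm e v := by
  obtain ⟨m, c, -, -, -, rfl⟩ := H; exact proj_Lm _ _

theorem Rep.congr {t e : ℤ} {a a' : R} {v : V O} (H : Rep deg h red x t e a v)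
    (ha : a' - a ∈ Cob deg h t e) : Rep deg h red x t e a' v := by
  obtain ⟨m, c, h1, h2, h3, h4⟩ := H
  exact ⟨m, c, h1, h2, by simpa using add_mem ha h3, h4⟩

theorem Rep.of_gen {m t e : ℤ} {c : Fin 3 → R} (ht : 12 * m + 4 * e = t)
    (hc : ∀ l, c l ∈ deg (4 * m)) :
    Rep deg h red x t e (gen h x e c) (proj e fun l => red (c l)) :=
  ⟨m, c, ht, hc, by rw [sub_self]; exact zero_mem _, rfl⟩

theorem Rep.neg {t e : ℤ} {a : R} {v : V O} (H : Rep deg h red x t e a v) :
    Rep deg h red x t e (-a) (-v) := by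
  obtain ⟨m, c, h1, h2, h3, rfl⟩ := H
  refine ⟨m, -c, h1, fun l => neg_mem (h2 l), ?_, ?_⟩
  · rw [Tate.gen_neg]
    refine (congrArg (· ∈ Cob deg h t e) ?_).mp (neg_mem h3)
    ring
  · rw [← proj_neg]; congr 1; funext l; simp

theorem Rep.sg {t e b : ℤ} {a : R} {v : V O} (H : Rep deg h red x t e a v) (hb : SS.Sg b) :
    Rep deg h red x t e (b • a) (b • v) := by
  rcases hb with rfl | rfl
  · simpa using H
  · simpa using H.neg

theorem cr_Lm (t e : ℤ) (a : R) : Lm e (cr deg h red x t e a) := by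
  unfold cr; split_ifs with H
  · exact H.choose_spec.lm
  · intro _; simp

namespace Tate

variable (hT : Tate deg h g σ red x)
include hT

theorem rep_cyc {t e : ℤ} {a : R} {v : V O} (H : Rep deg h red x t e a v) :
    a ∈ Cyc deg h t e := by
  obtain ⟨m, c, h1, h2, h3, -⟩ := H
  simpa using add_mem (hT.Cob_le h3) (hT.gen_Cyc h2 h1)

theorem rep_add {t e : ℤ} {a a' : R} {v v' : V O} (H : Rep deg h red x t e a v)
    (H' : Rep deg h red x t e a' v') : Rep deg h red x t e (a + a') (v + v') := by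
  obtain ⟨m, c, h1, h2, h3, rfl⟩ := H
  obtain ⟨m', c', h1', h2', h3', rfl⟩ := H'
  obtain rfl : m = m' := by omega
  refine ⟨m, c + c', h1, fun l => add_mem (h2 l) (h2' l), ?_, ?_⟩
  · refine (congrArg (· ∈ Cob deg h t e) ?_).mp
      (sub_mem (add_mem h3 h3') (hT.gen_add h2 h2' h1))
    ring
  · rw [← proj_add]; congr 1; funext l; simp

theorem rep_sub {t e : ℤ} {a a' : R} {v v' : V O} (H : Rep deg h red x t e a v)
    (H' : Rep deg h red x t e a' v') : Rep deg h red x t e (a - a') (v - v') := by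
  simpa [sub_eq_add_neg] using hT.rep_add H H'.neg

theorem rep_eq_zero {t e : ℤ} (h0 : 0 ≤ e) (h3 : e ≤ 3) {a : R} {v : V O}
    (H : Rep deg h red x t e a v) (ha : a ∈ Cob deg h t e) : v = 0 := by
  obtain ⟨m, c, rfl, h2, h4, rfl⟩ := H
  obtain ⟨f, hf, hf'⟩ := mem_Cob.1 (sub_mem ha h4)
  have := hT.ind m e c f h0 h3 h2 hf (by rw [hf']; ring)
  unfold proj; split_ifs with he
  · funext l; fin_cases l <;> simp [this.1]
  · have k := this.2 (by omega)
    funext l; fin_cases l <;> simp [this.1, k.1, k.2]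

theorem rep_unique {t e : ℤ} (h0 : 0 ≤ e) (h3 : e ≤ 3) {a : R} {v v' : V O}
    (H : Rep deg h red x t e a v) (H' : Rep deg h red x t e a v') : v = v' :=
  sub_eq_zero.1 (hT.rep_eq_zero h0 h3 (hT.rep_sub H H') (by rw [sub_self]; exact zero_mem _))

theorem cob_of_rep {t e : ℤ} {a : R} (H : Rep deg h red x t e a 0) : a ∈ Cob deg h t e := by
  obtain ⟨m, c, h1, h2, h4, h5⟩ := H
  have k : ∀ l, red (c l) = 0 → nm h (c l) * bas h x e l ∈ Cob deg h t e := fun l hl => by
    obtain ⟨f, hf, hf'⟩ := hT.ker m _ (h2 l) hl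
    rw [hf']; exact hT.mul_Cob (cob_ev rfl hf) (hT.bas_Cyc e l) h1
  have k0 : red (c 0) = 0 := by
    have := congrFun h5 0; rw [proj_zero'] at this; exact this.symm
  have : gen h x e c ∈ Cob deg h t e := by
    rw [gen_eq]
    by_cases he : e = 0 ∨ e = 3
    · have e1 : bas h x e 1 = 0 := by rcases he with rfl | rfl <;> simp [bas]
      have e2 : bas h x e 2 = 0 := by rcases he with rfl | rfl <;> simp [bas]
      simpa [e1, e2] using k 0 k0
    · rw [proj, if_neg he] at h5
      exact add_mem (add_mem (k 0 k0) (k 1 (congrFun h5 1).symm)) (k 2 (congrFun h5 2).symm)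
  simpa using add_mem h4 this

theorem cob_of_reps {t e : ℤ} {a a' : R} {v : V O} (H : Rep deg h red x t e a v)
    (H' : Rep deg h red x t e a' v) : a - a' ∈ Cob deg h t e :=
  hT.cob_of_rep (by simpa using hT.rep_sub H H')

theorem rep_exists {m t e : ℤ} (h0 : 0 ≤ e) (h5 : e ≤ 5) (ht : 12 * m + 4 * e = t) {a : R}
    (ha : a ∈ Cyc deg h t e) : ∃ v, Rep deg h red x t e a v := by
  subst ht
  obtain ⟨c, f, hc, hf, h1⟩ := hT.span m e a h0 h5 ha.1 (mem_Cyc.1 ha).2
  exact ⟨_, m, c, rfl, hc, mem_Cob.2 ⟨f, hf, by rw [h1]; ring⟩, rfl⟩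

theorem cr_eq {t e : ℤ} (h0 : 0 ≤ e) (h3 : e ≤ 3) {a : R} {v : V O}
    (H : Rep deg h red x t e a v) : cr deg h red x t e a = v := by
  unfold cr; rw [dif_pos ⟨v, H⟩]
  exact hT.rep_unique h0 h3 (Exists.choose_spec ⟨v, H⟩) H

theorem rep_cr {m t e : ℤ} (h0 : 0 ≤ e) (h3 : e ≤ 3) (ht : 12 * m + 4 * e = t) {a : R}
    (ha : a ∈ Cyc deg h t e) : Rep deg h red x t e a (cr deg h red x t e a) := by
  obtain ⟨v, hv⟩ := hT.rep_exists h0 (by omega) ht ha
  rwa [hT.cr_eq h0 h3 hv]

/-- away from the good positions every cocycle is a coboundary -/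
theorem cob_of_bad {n s : ℤ} (H : ¬ Good n s) {a : R} (ha : a ∈ Cyc deg h (n - s) s) :
    a ∈ Cob deg h (n - s) s := by
  by_cases h4 : (n - s) % 4 = 0
  · have h1 : 3 < ty n s := by unfold Good at H; omega
    have h2 : ty n s ≤ 5 := by unfold ty; omega
    have h3 : s % 2 = ty n s % 2 := by unfold ty; omega
    obtain ⟨v, m, c, -, -, h5, -⟩ := hT.rep_exists (m := (n - s - 4 * ty n s) / 12) (by omega) h2
      (by unfold ty; omega) (Cyc_par h3 ha)
    have : gen h x (ty n s) c = 0 := by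
      unfold gen; rw [if_neg (by omega), if_neg (by omega), if_neg (by omega), if_neg (by omega)]
    rw [this, sub_zero] at h5
    exact Cob_par h3.symm h5
  · rw [hT.sparse _ _ h4 ha.1]; exact zero_mem _

/-- a cocycle with given coordinates -/
noncomputable def lf (t e : ℤ) (v : V O) : R :=
  gen h x e fun l => (hT.surj ((t - 4 * e) / 12) (v l)).choose

theorem rep_lf {m t e : ℤ} (ht : 12 * m + 4 * e = t) (v : V O) :
    Rep deg h red x t e (hT.lf t e v) (proj e v) := by
  have := Rep.of_gen (deg := deg) (h := h) (red := red) (x := x) (m := (t - 4 * e) / 12) (t := t)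
    (e := e) (by omega) fun l => (hT.surj ((t - 4 * e) / 12) (v l)).choose_spec.1
  have e1 : (fun l => red (hT.surj ((t - 4 * e) / 12) (v l)).choose) = v :=
    funext fun l => (hT.surj ((t - 4 * e) / 12) (v l)).choose_spec.2
  rwa [e1] at this

theorem rep_mul0 {t t' u e : ℤ} {a b : R} {v w : V O} (H : Rep deg h red x t 0 a v)
    (H' : Rep deg h red x t' e b w) (hu : t + t' = u) :
    Rep deg h red x u e (a * b) (v 0 • w) := by
  obtain ⟨m, c, h1, h2, h3, rfl⟩ := H
  obtain ⟨m', c', h1', h2', h3', rfl⟩ := H'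
  refine ⟨m + m', c 0 • c', by omega, fun l => hT.mul_mem' (h2 0) (h2' l) (by ring), ?_, ?_⟩
  · have := hT.cup_congr (hT.gen_Cyc h2 h1) (hT.gen_Cyc h2' h1') h3 h3' hu (w := e) (by omega)
    rwa [cup_evl h _ rfl, cup_evl h _ rfl, gen0, ← gen_smul] at this
  · rw [proj_zero', ← proj_smul]; congr 1; funext l; simp

theorem rep_mul1 {t t' u e : ℤ} (h0 : 0 ≤ e) (h2 : e ≤ 2) {a b : R} {v w : V O}
    (H : Rep deg h red x t 1 a v) (H' : Rep deg h red x t' e b w) (hu : t + t' = u) :
    Rep deg h red x u (e + 1) (cup h 1 e a b) (wd e v w) := by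
  obtain ⟨m, c, h1, h4, h3, rfl⟩ := H
  obtain ⟨m', c', h1', h4', h3', rfl⟩ := H'
  refine ⟨m + m', wd e c c', by omega, hT.wd_mem e h4 h4' rfl, ?_, ?_⟩
  · have := hT.cup_congr (hT.gen_Cyc h4 h1) (hT.gen_Cyc h4' h1') h3 h3' hu (w := e + 1) (by omega)
    simpa using add_mem this (hT.prod h4 h4' h0 h2 (t := u) (by omega))
  · rw [red_wd, proj_of (wd_Lm e h0 _ _), wd_proj, proj_one]

omit hT in
theorem rep_nm {m t : ℤ} {c : R} (hc : c ∈ deg (4 * m)) (ht : 12 * m = t) :
    Rep deg h red x t 0 (nm h c) (red c • e0) := by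
  have := Rep.of_gen (deg := deg) (h := h) (red := red) (x := x) (m := m) (t := t) (e := 0)
    (c := fun _ => c) (by omega) fun _ => hc
  rw [gen0] at this
  refine (congrArg _ ?_).mp this
  funext l; fin_cases l <;> simp [proj, e0]

theorem rep_one : Rep deg h red x 0 0 1 (e0 : V O) := by
  simpa [nm_one] using rep_nm (h := h) (red := red) (x := x) (m := 0) (t := 0) (c := 1)
    hT.one_mem rfl

theorem rep_link {t : ℤ} {a : R} {v : V O} (H : Rep deg h red x t 0 a v) : v 0 ^ 3 = red a := by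
  obtain ⟨m, c, -, -, h3, rfl⟩ := H
  obtain ⟨f, -, hf⟩ := mem_Cob.1 h3
  rw [d1_odd h rfl, gen0] at hf
  have : a = tr h f + nm h (c 0) := by rw [hf]; ring
  rw [this, proj_zero']
  unfold tr nm
  simp only [map_add, map_mul, hT.red_h]
  linear_combination (-red f) * hT.of.three

end Tate

end Vale.Agent.P236Z.Force
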