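import Vale.Agent.P236Z.Force.GlC

/-!
P236, forcing block: the coordinates on a couple.
-/

namespace Vale.Agent.P236Z.Force

open SS

variable {R : Type} [CommRing R] {O : Type} [CommRing O]
variable {deg : ℤ → AddSubgroup R} {h g : R ≃+* R}
variable {σ : ℕ → R} {red : R →+* O} {x : Fin 3 → R}

open Classical in
/-- the boundary map on all elements -/
noncomputable def kk (C : Cpl R deg h g) (n s : ℤ) (a : R) : C.D (-s) n :=
  if H : a ∈ deg (-s + n) then C.k (-s) n ⟨a, H⟩ else 0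

theorem deg_sw {n s : ℤ} {a : R} : a ∈ deg (-s + n) ↔ a ∈ deg (n - s) := by
  rw [show -s + n = n - s by ring]

section Cp

variable (C : Cpl R deg h g)

theorem kk_eq {n s : ℤ} {a : R} (H : a ∈ deg (-s + n)) : kk C n s a = C.k (-s) n ⟨a, H⟩ := by
  unfold kk; rw [dif_pos H]

theorem kk_add {n s : ℤ} {a b : R} (ha : a ∈ deg (n - s)) (hb : b ∈ deg (n - s)) :
    kk C n s (a + b) = kk C n s a + kk C n s b := by
  rw [kk_eq C (deg_sw.2 ha), kk_eq C (deg_sw.2 hb), kk_eq C (deg_sw.2 (add_mem ha hb)), ← map_add]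
  rfl

theorem sg_smul_eq {e : ℤ} (he : SS.Sg e) {A : Type} [AddCommGroup A] (a : A) : e • e • a = a := by
  rcases he with rfl | rfl <;> simp

theorem j_kk (n s : ℤ) : ∃ e, SS.Sg e ∧ ∀ a ∈ deg (n - s),
    C.j (-s) n (kk C n s a) = e • d1 h (s + 1) a := by
  obtain ⟨e, he, H⟩ := C.dif1 (-s - 1) (-s) n (by ring)
  exact ⟨e, he, fun a ha => by
    rw [kk_eq C (deg_sw.2 ha), H, d1_par h (s := -s - 1) (s' := s + 1) (by omega)]⟩

theorem kk_j {n s n' s' : ℤ} (h1 : n + 1 = n') (h2 : s + 1 = s') (y : C.D (-s') n') :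
    kk C n s (C.j (-s') n' y) = 0 := by
  have H : C.j (-s') n' y ∈ deg (-s + n) := by
    have := C.j_mem (-s') n' y
    rwa [show -s' + n' = -s + n by omega] at this
  rw [kk_eq C H]
  exact (C.ex_k (s₀ := -s') (t₁ := n') _ (by omega) h1).2 ⟨y, rfl⟩

theorem j_cyc (n s : ℤ) (y : C.D (-s) n) : C.j (-s) n y ∈ Cyc deg h (n - s) s := by
  have H := deg_sw.1 (C.j_mem (-s) n y)
  refine mem_Cyc.2 ⟨H, ?_⟩
  obtain ⟨e, he, K⟩ := j_kk C (n - 1) (s - 1)
  have := K _ (by rwa [show n - 1 - (s - 1) = n - s by ring])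
  rw [kk_j C (n' := n) (s' := s) (by ring) (by ring), map_zero, sub_add_cancel] at this
  rw [← sg_smul_eq he (d1 h s _), ← this, smul_zero]

theorem cob_iff (n s : ℤ) (a : R) :
    a ∈ Cob deg h (n - s) s ↔ ∃ f ∈ deg (n - s), C.j (-s) n (kk C n s f) = a := by
  obtain ⟨e, he, K⟩ := j_kk C n s
  constructor
  · rintro ⟨f, hf, rfl⟩
    refine ⟨e • f, zsmul_mem hf _, ?_⟩
    rw [K _ (zsmul_mem hf _), ← dh_apply, map_zsmul, sg_smul_eq he]
  · rintro ⟨f, hf, rfl⟩
    rw [K _ hf]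
    exact zsmul_mem (mem_Cob.2 ⟨f, hf, rfl⟩) _

theorem kk_cob {n s : ℤ} {a : R} (ha : a ∈ Cob deg h (n - s) (s + 1)) : kk C n s a = 0 := by
  rw [show n - s = n + 1 - (s + 1) by ring] at ha
  obtain ⟨f, -, rfl⟩ := (cob_iff C _ _ _).1 ha
  exact kk_j C rfl rfl _

theorem I_kk {n s s' : ℤ} (h2 : s + 1 = s') (a : R) : C.I (-s') (-s) n (kk C n s a) = 0 := by
  unfold kk; split_ifs
  · exact (C.ex_I n _ (by omega)).2 ⟨_, rfl⟩
  · exact map_zero _

theorem j_I {n s s' : ℤ} (hs : s < s') (y : C.D (-s) n) :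
    C.j (-s') n (C.I (-s') (-s) n y) = 0 :=
  (C.ex_j n _ rfl).2 ⟨C.I (-s' + 1) (-s) n y, C.I_I n y (by omega) (by omega)⟩

theorem exists_kk {n s s' : ℤ} (h2 : s + 1 = s') (y : C.D (-s) n) (hy : C.I (-s') (-s) n y = 0) :
    ∃ a ∈ deg (n - s), kk C n s a = y := by
  obtain ⟨a, ha⟩ := (C.ex_I n y (by omega)).1 hy
  exact ⟨a, deg_sw.1 a.2, by rw [kk_eq C a.2]; exact ha⟩

theorem dif_iff' {n s K : ℤ} {a b : R} : C.toCpl0.Dif (-K - 1) (-s) n a b ↔
    a ∈ deg (n - K) ∧ ∃ y : C.D (-s) n, C.I (-K) (-s) n y = kk C n K a ∧ C.j (-s) n y = b := by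
  rw [C.toCpl0.dif_iff (s₁ := -K) (by ring)]
  constructor
  · rintro ⟨hx, y, h1, h2⟩
    exact ⟨deg_sw.1 hx, y, by rw [kk_eq C hx, h1], h2⟩
  · rintro ⟨hx, y, h1, h2⟩
    exact ⟨deg_sw.2 hx, y, by rw [h1, kk_eq C (deg_sw.2 hx)], h2⟩

end Cp

open Classical in
/-- coordinates at a position -/
noncomputable def jj (deg : ℤ → AddSubgroup R) (h : R ≃+* R) (red : R →+* O) (x : Fin 3 → R)
    (n s : ℤ) (a : R) : V O :=
  if Good n s then cr deg h red x (n - s) (ty n s) a else 0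

namespace Tate

variable (hT : Tate deg h g σ red x)
include hT

theorem kk_congr (C : Cpl R deg h g) {n s : ℤ} {a b : R} (hb : b ∈ deg (n - s))
    (ha : a - b ∈ Cob deg h (n - s) (s + 1)) : kk C n s a = kk C n s b := by
  have := kk_add C (hT.Cob_le ha).1 hb
  rwa [sub_add_cancel, kk_cob C ha, zero_add] at this

theorem jj_eq {n s i e : ℤ} (H : At n s i e) {a : R} {v : V O}
    (hr : Rep deg h red x (n - s) e a v) : jj deg h red x n s a = v := by
  unfold jj; rw [if_pos H.good, H.ty, hT.cr_eq H.1 H.2.1 hr]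

theorem rep_jj {n s i e : ℤ} (H : At n s i e) {a : R} (ha : a ∈ Cyc deg h (n - s) s) :
    Rep deg h red x (n - s) e a (jj deg h red x n s a) := by
  obtain ⟨m, hm⟩ := H.dg
  have := hT.rep_cr H.1 H.2.1 hm (Cyc_par H.par ha)
  rwa [hT.jj_eq H this]

omit hT in
theorem jj_bad {n s : ℤ} (H : ¬ Good n s) (a : R) : jj deg h red x n s a = 0 := by
  unfold jj; rw [if_neg H]

theorem jj_add {n s : ℤ} {a b : R} (ha : a ∈ Cyc deg h (n - s) s) (hb : b ∈ Cyc deg h (n - s) s) :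
    jj deg h red x n s (a + b) = jj deg h red x n s a + jj deg h red x n s b := by
  by_cases H : Good n s
  · exact hT.jj_eq H.at (hT.rep_add (hT.rep_jj H.at ha) (hT.rep_jj H.at hb))
  · simp [jj_bad H]

theorem jj_sg {n s e : ℤ} (he : SS.Sg e) {a : R} (ha : a ∈ Cyc deg h (n - s) s) :
    jj deg h red x n s (e • a) = e • jj deg h red x n s a := by
  by_cases H : Good n s
  · exact hT.jj_eq H.at ((hT.rep_jj H.at ha).sg he)
  · simp [jj_bad H]

theorem jj_zero_iff {n s : ℤ} {a : R} (ha : a ∈ Cyc deg h (n - s) s) :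
    jj deg h red x n s a = 0 ↔ a ∈ Cob deg h (n - s) s := by
  by_cases H : Good n s
  · have r := hT.rep_jj H.at ha
    exact ⟨fun k => Cob_par H.at.par.symm (hT.cob_of_rep (k ▸ r)),
      fun k => hT.rep_eq_zero H.at.1 H.at.2.1 r (Cob_par H.at.par k)⟩
  · exact ⟨fun _ => hT.cob_of_bad H ha, fun _ => jj_bad H a⟩

/-- multiplication by a class of type zero -/
theorem jj_mul0 {n s n' s' n'' s'' i : ℤ} (H : At n s i 0) (h1 : n'' = n + n') (h2 : s'' = s + s')
    {a b : R} {v : V O} (hr : Rep deg h red x (n - s) 0 a v) (hb : b ∈ Cyc deg h (n' - s') s') :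
    jj deg h red x n'' s'' (a * b) = v 0 • jj deg h red x n' s' b := by
  by_cases G : Good n' s'
  · have G' := G.at
    have : At n'' s'' (i + (2 * n' + s' + ty n' s') / 6) (ty n' s') := by
      unfold At at *; omega
    exact hT.jj_eq this (hT.rep_mul0 hr (hT.rep_jj G' hb) (by omega))
  · have : ¬ Good n'' s'' := fun G2 => G (At.good (i := (2 * n'' + s'' + ty n'' s'') / 6 - i)
      (e := ty n'' s'') (by have := G2.at; unfold At at *; omega))
    rw [jj_bad G, jj_bad this, smul_zero]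

/-- multiplication by a class of type one -/
theorem jj_mul1 {n s n' s' n'' s'' i i' e' : ℤ} (H : At n s i 1) (H' : At n' s' i' e')
    (h1 : n'' = n + n') (h2 : s'' = s + s') {a b : R} {v w : V O}
    (hr : Rep deg h red x (n - s) 1 a v) (hb : Rep deg h red x (n' - s') e' b w) :
    jj deg h red x n'' s'' (cup h 1 e' a b) = wd e' v w := by
  by_cases h3 : e' ≤ 2
  · have : At n'' s'' (i + i') (e' + 1) := by unfold At at *; omega
    exact hT.jj_eq this (hT.rep_mul1 H'.1 h3 hr hb (by omega))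
  · obtain rfl : e' = 3 := by have := H'.2.1; omega
    have : ¬ Good n'' s'' := by
      unfold At at H H'; unfold Good ty; omega
    rw [jj_bad this, wd3]

open Classical in
/-- the action on coordinates -/
noncomputable def GG (t e : ℤ) (v : V O) : V O :=
  if 0 ≤ e ∧ e ≤ 3 ∧ (t - 4 * e) % 12 = 0 then cr deg h red x t e (g (hT.lf t e v)) else 0

theorem rep_g {m t e : ℤ} (h0 : 0 ≤ e) (h3 : e ≤ 3) (ht : 12 * m + 4 * e = t) {a : R} {v : V O}
    (hr : Rep deg h red x t e a (proj e v)) : Rep deg h red x t e (g a) (hT.GG t e v) := by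
  unfold GG; rw [if_pos ⟨h0, h3, by omega⟩]
  refine (hT.rep_cr h0 h3 ht (hT.g_Cyc (hT.rep_cyc (hT.rep_lf ht v)))).congr ?_
  rw [← map_sub]
  exact hT.g_Cob (hT.cob_of_reps hr (hT.rep_lf ht v))

theorem rep_g' {t e : ℤ} (h0 : 0 ≤ e) (h3 : e ≤ 3) {a : R} {v : V O}
    (hr : Rep deg h red x t e a v) : Rep deg h red x t e (g a) (hT.GG t e v) := by
  obtain ⟨m, -, ht, -⟩ := id hr
  exact hT.rep_g h0 h3 ht (by rwa [proj_of hr.lm])

theorem GG_add (t e : ℤ) (v w : V O) : hT.GG t e (v + w) = hT.GG t e v + hT.GG t e w := by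
  by_cases H : 0 ≤ e ∧ e ≤ 3 ∧ (t - 4 * e) % 12 = 0
  · have ht : 12 * ((t - 4 * e) / 12) + 4 * e = t := by omega
    have h1 := hT.rep_add (hT.rep_lf ht v) (hT.rep_lf ht w)
    rw [← proj_add] at h1
    have h2 := hT.rep_g H.1 H.2.1 ht h1
    rw [map_add] at h2
    exact hT.rep_unique H.1 H.2.1 h2 (hT.rep_add (hT.rep_g H.1 H.2.1 ht (hT.rep_lf ht v))
      (hT.rep_g H.1 H.2.1 ht (hT.rep_lf ht w)))
  · unfold GG; rw [if_neg H, if_neg H, if_neg H, add_zero]

theorem GG_Lm (t e : ℤ) (v : V O) : Lm e (hT.GG t e v) := by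
  unfold GG; split_ifs
  · exact cr_Lm _ _ _
  · intro _; simp

theorem GG_nm {m t : ℤ} {c : R} (hc : c ∈ deg (4 * m)) (ht : 12 * m = t) :
    hT.GG t 0 (red c • e0) 0 = red (g c) := by
  have h1 := hT.rep_g' le_rfl (by norm_num) (rep_nm (h := h) (red := red) (x := x) hc ht)
  rw [hT.g_nm] at h1
  rw [hT.rep_unique le_rfl (by norm_num) h1 (rep_nm (hT.g_mem _ _ hc) ht)]
  simp [e0]

open Classical in
/-- the boundary map in coordinates -/
noncomputable def kc (C : Cpl R deg h g) (n s : ℤ) (v : V O) : C.D (-s) n :=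
  if Good (n + 1) (s + 1) then kk C n s (hT.lf (n - s) (ty (n + 1) (s + 1)) v) else 0

theorem kc_eq (C : Cpl R deg h g) {n s i e : ℤ} (H : At (n + 1) (s + 1) i e) {a : R} {v : V O}
    (hr : Rep deg h red x (n - s) e a (proj e v)) : hT.kc C n s v = kk C n s a := by
  unfold kc; rw [if_pos H.good, H.ty]
  obtain ⟨m, -, ht, -⟩ := id hr
  exact hT.kk_congr C (hT.rep_cyc hr).1
    (Cob_par H.par.symm (hT.cob_of_reps (hT.rep_lf ht v) hr))

theorem rep_lf' {n s i e : ℤ} (H : At (n + 1) (s + 1) i e) (v : V O) :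
    Rep deg h red x (n - s) e (hT.lf (n - s) e v) (proj e v) := by
  obtain ⟨m, hm⟩ := H.dg
  exact hT.rep_lf (m := m) (by omega) v

theorem kc_add (C : Cpl R deg h g) (n s : ℤ) (v w : V O) :
    hT.kc C n s (v + w) = hT.kc C n s v + hT.kc C n s w := by
  by_cases H : Good (n + 1) (s + 1)
  · have h1 := hT.rep_lf' H.at v
    have h2 := hT.rep_lf' H.at w
    have h3 := hT.rep_add h1 h2
    rw [← proj_add] at h3
    rw [hT.kc_eq C H.at h1, hT.kc_eq C H.at h2, hT.kc_eq C H.at h3,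
      kk_add C (hT.rep_cyc h1).1 (hT.rep_cyc h2).1]
  · unfold kc; simp [if_neg H]

/-- the coordinates -/
noncomputable def crd (C : Cpl R deg h g) (hN : C.NB σ) (η : C.D 0 1) (e : ℤ) :
    Crd (tow C hT hN η e) where
  j n s := AddMonoidHom.mk' (fun y : C.D (-s) n => jj deg h red x n s (C.j (-s) n y))
    fun y y' => by rw [map_add, hT.jj_add (j_cyc C n s y) (j_cyc C n s y')]
  k n s := AddMonoidHom.mk' (hT.kc C n s) (hT.kc_add C n s)
  G t e := AddMonoidHom.mk' (hT.GG t e) (hT.GG_add t e)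

end Tate

end Vale.Agent.P236Z.Force
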