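import Vale.Agent.P236Z.Force.GlD

/-!
P236, forcing block: the couple in coordinates is a model.
-/

namespace Vale.Agent.P236Z.Force

open SS

variable {R : Type} [CommRing R] {O : Type} [CommRing O]
variable {deg : ℤ → AddSubgroup R} {h g : R ≃+* R}
variable {σ : ℕ → R} {red : R →+* O} {x : Fin 3 → R}

theorem Rep.pr {t e : ℤ} {a : R} {v : V O} (H : Rep deg h red x t e a v) :
    Rep deg h red x t e a (proj e v) := by rwa [proj_of H.lm]

namespace Tate

variable (hT : Tate deg h g σ red x) (C : Cpl R deg h g) (hN : C.NB σ) (η : C.D 0 1) (ε : ℤ)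

theorem hit_iff {n s K i e : ℤ} (H : At (n + 1) (K + 1) i e) {a : R} {v z : V O}
    (hr : Rep deg h red x (n - K) e a (proj e v)) : (hT.crd C hN η ε).Hit n s K v z ↔
      ∃ b, C.toCpl0.Dif (-K - 1) (-s) n a b ∧ jj deg h red x n s b = z := by
  constructor
  · rintro ⟨y, h1, h2⟩
    exact ⟨_, (dif_iff' C).2 ⟨(hT.rep_cyc hr).1, y, h1.trans (hT.kc_eq C H hr), rfl⟩, h2⟩
  · rintro ⟨b, hb, h2⟩
    obtain ⟨-, y, h1, rfl⟩ := (dif_iff' C).1 hb
    exact ⟨y, h1.trans (hT.kc_eq C H hr).symm, h2⟩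

omit hT in
theorem dif_cyc {n s K : ℤ} {a b : R} (H : C.toCpl0.Dif (-K - 1) (-s) n a b) :
    b ∈ Cyc deg h (n - s) s := by
  obtain ⟨-, y, -, rfl⟩ := (dif_iff' C).1 H
  exact j_cyc C n s y

theorem leib0' (n s K n' s' K' n'' s'' K'' i i' e' : ℤ) (v z v' z' : V O)
    (h1 : s + 4 ≤ K) (h2 : K - s = K' - s') (h3 : n'' = n + n' + 1) (h4 : K'' = K + K' + 1)
    (h5 : s'' = s + K' + 1) (A : At (n + 1) (K + 1) i 0) (A' : At (n' + 1) (K' + 1) i' e')
    (L : Lm 0 v) (L' : Lm e' v') (hz : z = 0 ∨ ∃ i1, At n s i1 1)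
    (H : (hT.crd C hN η ε).Hit n s K v z) (H' : (hT.crd C hN η ε).Hit n' s' K' v' z') :
    ∃ a b : ℤ, Sg a ∧ Sg b ∧ (e' = 0 → a = 1 ∧ b = 1) ∧
      (hT.crd C hN η ε).Hit n'' s'' K'' (v 0 • v') (a • wd e' z v' + b • v 0 • z') := by
  have r := hT.rep_lf' A v
  have r' := hT.rep_lf' A' v'
  obtain ⟨Z, hZ, rfl⟩ := (hT.hit_iff C hN η ε A r).1 H
  obtain ⟨Z', hZ', rfl⟩ := (hT.hit_iff C hN η ε A' r').1 H'
  rw [proj_of L] at r
  rw [proj_of L'] at r'
  have p := A.par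
  have p' := A'.par
  obtain ⟨a, b, ha, hb, hab, key⟩ := C.leib (K + 1 - s) (-K - 1) (-s) n (-K' - 1) (-s') n'
    (-K'' - 1) (-s'') n'' (by omega) (by omega) (by omega) (by omega) (by omega) (by omega)
  refine ⟨a, b, ha, hb, fun he => hab (Int.even_iff.2 (by omega)) (Int.even_iff.2 (by omega)), ?_⟩
  have k := key _ _ _ _ hZ hZ'
  rw [cup_evl h _ (show (-K - 1) % 2 = 0 by omega), cup_evl h _ (show (-K - 1) % 2 = 0 by omega),
    cup_par h (s := -s) (s' := -K' - 1) (e := s) (e' := e') (by omega) (by omega)] at k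
  have A'' : At (n'' + 1) (K'' + 1) (i + i') e' := by unfold At at *; omega
  have r'' := hT.rep_mul0 r r' (u := n'' - K'') (by omega)
  refine (hT.hit_iff C hN η ε A'' r''.pr).2 ⟨_, k, ?_⟩
  have cZ := dif_cyc C hZ
  have cZ' := dif_cyc C hZ'
  have c1 : cup h s e' Z (hT.lf (n' - K') e' v') ∈ Cyc deg h (n'' - s'') s'' :=
    hT.cup_Cyc cZ (hT.rep_cyc r') (by omega) (by omega)
  have c2 : hT.lf (n - K) 0 v * Z' ∈ Cyc deg h (n'' - s'') s'' :=
    Cyc_par (by omega) (hT.mul_Cyc (hT.rep_cyc r) cZ' (by omega))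
  rw [hT.jj_add (zsmul_mem c1 _) (zsmul_mem c2 _), hT.jj_sg ha c1, hT.jj_sg hb c2,
    hT.jj_mul0 A (n' := n') (s' := s') (by omega) (by omega)
      (by rwa [show n + 1 - (K + 1) = n - K by ring]) cZ']
  congr 2
  rcases hz with hz | ⟨i1, A1⟩
  · rw [hz, wd_zero]
    exact (hT.jj_zero_iff c1).2 (hT.cup_Cob_left ((hT.jj_zero_iff cZ).1 hz) (hT.rep_cyc r')
      (by omega) (by omega))
  · rw [cup_par h (e := 1) (e' := e') A1.par rfl]
    exact hT.jj_mul1 A1 A' (by omega) (by omega) (hT.rep_jj A1 cZ)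
      (by rwa [show n' + 1 - (K' + 1) = n' - K' by ring])

theorem leib1' (n s K n' s' n'' s'' K'' i i' e' : ℤ) (v z w : V O)
    (h1 : s + 4 ≤ K) (h3 : n'' = n + n') (h4 : K'' = K + s') (h5 : s'' = s + s')
    (A : At (n + 1) (K + 1) i 1) (A' : At n' s' i' e') (h2 : e' ≤ 2)
    (hz : z = 0 ∨ ∃ i1, At n s i1 0)
    (H : (hT.crd C hN η ε).Hit n s K v z) (H' : (hT.crd C hN η ε).Perm n' s' w) :
    ∃ a : ℤ, Sg a ∧ (hT.crd C hN η ε).Hit n'' s'' K'' (wd e' v w) (a • z 0 • w) := by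
  have r := hT.rep_lf' A v
  obtain ⟨Z, hZ, rfl⟩ := (hT.hit_iff C hN η ε A r).1 H
  obtain ⟨y, rfl⟩ := H'
  rw [proj_one] at r
  have p := A.par
  have p' := A'.par
  have cW := j_cyc C n' s' y
  have r' := hT.rep_jj A' cW
  have hW : C.toCpl0.Dif (-(s' - 1) - 1) (-(s' - (K + 1 - s))) (n' - 1) (C.j (-s') n' y) 0 :=
    (dif_iff' C).2 ⟨by rw [show n' - 1 - (s' - 1) = n' - s' by ring]; exact cW.1, 0,
      by rw [map_zero, kk_j C (by ring) (by ring)], map_zero _⟩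
  obtain ⟨a, b, ha, -, -, key⟩ := C.leib (K + 1 - s) (-K - 1) (-s) n (-(s' - 1) - 1)
    (-(s' - (K + 1 - s))) (n' - 1) (-K'' - 1) (-s'') n'' (by omega) (by omega) (by omega)
    (by omega) (by omega) (by omega)
  refine ⟨a, ha, ?_⟩
  have k := key _ _ _ _ hZ hW
  rw [cup_zero_right, smul_zero, add_zero,
    cup_par h (s := -K - 1) (s' := -(s' - 1) - 1) (e := 1) (e' := e') (by omega) (by omega),
    cup_par h (s := -s) (s' := -(s' - 1) - 1) (e := s) (e' := s') (by omega) (by omega)] at k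
  have A'' : At (n'' + 1) (K'' + 1) (i + i') (e' + 1) := by unfold At at *; omega
  have r'' := hT.rep_mul1 A'.1 h2 r r' (u := n'' - K'') (by omega)
  refine (hT.hit_iff C hN η ε A'' r''.pr).2 ⟨_, k, ?_⟩
  have cZ := dif_cyc C hZ
  have c1 : cup h s s' Z (C.j (-s') n' y) ∈ Cyc deg h (n'' - s'') s'' :=
    hT.cup_Cyc cZ cW (by omega) (by omega)
  rw [hT.jj_sg ha c1]
  congr 1
  rcases hz with hz | ⟨i1, A1⟩
  · rw [hz, Pi.zero_apply, zero_smul]
    exact (hT.jj_zero_iff c1).2 (hT.cup_Cob_left ((hT.jj_zero_iff cZ).1 hz) cW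
      (by omega) (by omega))
  · rw [cup_evl h _ A1.par]
    exact hT.jj_mul0 A1 h3 h5 (hT.rep_jj A1 cZ) cW

theorem bd_of {n s K K₀ m : ℤ} (A : At n s 0 0) (hm : 12 * m = n - s) {c : R}
    (hc : c ∈ deg (4 * m)) (y : C.D (-s) n) (hy : C.j (-s) n y = nm h c)
    (h0 : C.I (-K₀) (-s) n y = 0) (h1 : s ≤ K₀) (h2 : K₀ ≤ K) :
    (hT.crd C hN η ε).Bd n s K (red c • e0) := by
  refine ⟨y, ?_, ?_⟩
  · change C.I (-K) (-s) n y = 0
    rw [← C.I_I (s' := -K₀) n y (by omega) (by omega), h0, map_zero]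
  · change jj deg h red x n s (C.j (-s) n y) = _
    rw [hy]; exact hT.jj_eq A (rep_nm hc hm)

theorem pre : Pre (hT.crd C hN η ε) (red (σ 3)) (red (σ 9)) where
  of := hT.of
  j_mem n s i e y A := (hT.rep_jj A (j_cyc C n s y)).lm
  j_zero n s y H := jj_bad (fun G => H _ _ G.at) _
  ex_j n s' s s'' y h1 h2 := by
    refine (hT.jj_zero_iff (j_cyc C n s y)).trans ((cob_iff C n s _).trans ⟨?_, ?_⟩)
    · rintro ⟨f, -, hf⟩
      obtain ⟨y', hy'⟩ := (C.ex_j (s₁ := -s') n (y - kk C n s f) (by omega)).1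
        (by rw [map_sub, hf, sub_self])
      refine ⟨y', ?_⟩
      change C.I (-s'') (-s) n (y - C.I (-s) (-s') n y') = 0
      rw [hy', sub_sub_cancel, I_kk C h2]
    · rintro ⟨y', hy'⟩
      obtain ⟨a, ha, k⟩ := exists_kk C h2 _ hy'
      refine ⟨a, ha, ?_⟩
      rw [k]
      change C.j (-s) n (y - C.I (-s) (-s') n y') = _
      rw [map_sub, j_I C (by omega), sub_zero]
  ex_k n s n' s' i e v h1 h2 A L := by
    subst h1 h2
    have r := hT.rep_lf' A v
    have q : n + 1 - (s + 1) = n - s := by ring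
    constructor
    · intro H
      have H' : kk C n s (hT.lf (n - s) e v) = 0 := (hT.kc_eq C A r).symm.trans H
      rw [kk_eq C (deg_sw.2 (hT.rep_cyc r).1)] at H'
      obtain ⟨y, hy⟩ := (C.ex_k (s₀ := -(s + 1)) (t₁ := n + 1) _ (by ring) rfl).1 H'
      refine ⟨y, ?_⟩
      change jj deg h red x (n + 1) (s + 1) (C.j _ _ y) = v
      rw [hy]
      rw [proj_of L] at r
      exact hT.jj_eq A (by rw [q]; exact r)
    · rintro ⟨y, rfl⟩
      have r2 := hT.rep_jj A (j_cyc C _ _ y)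
      rw [q] at r2
      exact (hT.kc_eq C A r2.pr).trans (kk_j C rfl rfl y)
  ex_i n s K K' y h1 h2 H := by
    subst h2
    have H' : C.I (-(K + 1)) (-K) n (C.I (-K) (-s) n y) = 0 :=
      (C.I_I n y (by omega) (by omega)).trans H
    obtain ⟨a, ha, k⟩ := exists_kk C rfl _ H'
    obtain ⟨e, he, K1⟩ := j_kk C n K
    have c : a ∈ Cyc deg h (n + 1 - (K + 1)) (K + 1) := by
      refine mem_Cyc.2 ⟨by rwa [show n + 1 - (K + 1) = n - K by ring], ?_⟩
      have := K1 a ha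
      rw [k, j_I C h1] at this
      rw [← sg_smul_eq he (d1 h _ _), ← this, smul_zero]
    by_cases G : Good (n + 1) (K + 1)
    · have r := hT.rep_jj G.at c
      rw [show n + 1 - (K + 1) = n - K by ring] at r
      exact Or.inr ⟨_, _, _, G.at, r.lm, (hT.kc_eq C G.at r.pr).trans k⟩
    · have := hT.cob_of_bad G c
      rw [show n + 1 - (K + 1) = n - K by ring] at this
      exact Or.inl (k.symm.trans (kk_cob C this))
  ik n s s' i e v h1 A _ := by
    subst h1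
    change C.I _ _ n (hT.kc C n s v) = 0
    rw [hT.kc_eq C A (hT.rep_lf' A v), I_kk C rfl]
  k_two n s' s i e v h1 A _ := by
    have r := hT.rep_lf' A v
    obtain ⟨b, hb, K1⟩ := j_kk C n s
    refine (C.ex_j (s₁ := -s') n (hT.kc C n s v) (by omega)).1 ?_
    rw [hT.kc_eq C A r, K1 _ (hT.rep_cyc r).1, d1_par h A.par, (mem_Cyc.1 (hT.rep_cyc r)).2,
      smul_zero]
  leib0 := hT.leib0' C hN η ε
  leib1 n s K n' s' n'' s'' K'' i i' e' v z w h1 h3 h4 h5 A A' h2 _ :=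
    hT.leib1' C hN η ε n s K n' s' n'' s'' K'' i i' e' v z w h1 h3 h4 h5 A A' h2
  perm0 n s v A L := by
    obtain ⟨c, hc, hc'⟩ := hT.surj (n / 4) (v 0)
    obtain ⟨y, hy⟩ := hN.norm (n / 4) (-s) n (by unfold At at A; omega) (by unfold At at A; omega)
      c hc
    refine ⟨y, ?_⟩
    change jj deg h red x n s (C.j _ _ y) = v
    rw [hy, hT.jj_eq A (rep_nm hc (by unfold At at A; omega)), hc']
    funext l; fin_cases l <;> simp [e0, (L (Or.inl rfl)).1, (L (Or.inl rfl)).2]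
  jg n s i e y A := by
    change jj deg h red x n s (C.j _ _ (C.G _ _ y)) = hT.GG (n - s) e _
    rw [C.G_j]
    exact hT.jj_eq A (hT.rep_g' A.1 A.2.1 (hT.rep_jj A (j_cyc C n s y)))
  kg n s i e v A L := by
    have r := hT.rep_lf' A v
    have r2 := hT.rep_g' A.1 A.2.1 (by rwa [proj_of L] at r)
    change hT.kc C n s (hT.GG (n - s) e v) = C.G _ _ (hT.kc C n s v)
    rw [hT.kc_eq C A r, hT.kc_eq C A r2.pr,
      kk_eq C (deg_sw.2 (hT.rep_cyc r).1), kk_eq C (deg_sw.2 (hT.rep_cyc r2).1)]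
    exact (C.G_k _ _ _ _ rfl).symm
  G_mem t e v _ := hT.GG_Lm t e v
  G_one := by
    have := hT.rep_g' le_rfl (by norm_num) hT.rep_one
    rw [map_one] at this
    exact hT.rep_unique le_rfl (by norm_num) this hT.rep_one
  G_res v L := by
    obtain ⟨c, hc, hc'⟩ := hT.surj 1 (v 0)
    have : v = red c • e0 := by
      funext l; fin_cases l <;> simp [e0, hc', (L (Or.inl rfl)).1, (L (Or.inl rfl)).2]
    change hT.GG 12 0 v 0 - v 0 ∈ _
    rw [← hc', this, hT.GG_nm (t := 12) hc rfl]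
    exact hT.g_res 1 c hc
  inv1 b hb := by
    obtain ⟨c, hc, rfl⟩ := hT.surj 1 b
    change hT.GG 12 0 _ 0 ≠ _
    rw [hT.GG_nm (t := 12) hc rfl]
    exact hT.inv1 c hc hb
  inv2 b hb := by
    obtain ⟨c, hc, rfl⟩ := hT.surj 4 b
    change ¬ _ ∣ hT.GG 48 0 _ 0 - _
    rw [hT.GG_nm (t := 48) hc rfl]
    exact hT.inv2 c hc hb
  inv3 b hb := by
    obtain ⟨c, hc, hc'⟩ := hT.surj 4 (b * red (σ 9) ^ 2)
    change ¬ _ ∣ hT.GG 48 0 _ 0 - _
    rw [← hc', hT.GG_nm (t := 48) hc rfl]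
    exact hT.inv3 c hc b hb hc'
  acy v L H := by
    have r := hT.rep_lf (m := -1) (t := 0) (e := 3) rfl v
    rw [proj_of L] at r
    have r1 := hT.rep_g' (by norm_num) le_rfl r
    have r2 := hT.rep_g' (by norm_num) le_rfl r1
    have r3 := hT.rep_add (hT.rep_add r r1) r2
    rw [show v + hT.GG 0 3 v + hT.GG 0 3 (hT.GG 0 3 v) = 0 from H] at r3
    obtain ⟨f, hf, hf'⟩ := mem_Cob.1 (hT.cob_of_rep r3)
    have c := hT.rep_cyc r
    obtain ⟨b, hb, f', hf2, h1, h2⟩ := hT.acy _ c.1 f hf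
      (by rw [← d1_odd h (s := 3) rfl]; exact (mem_Cyc.1 c).2) (by rw [← hf', d1_even h rfl])
    have rb := hT.rep_cr (m := -1) (t := 0) (e := 3) (by norm_num) le_rfl rfl
      (mem_Cyc.2 ⟨hb, by rw [d1_odd h rfl, h1]⟩)
    refine ⟨_, rb.lm, hT.rep_unique (by norm_num) le_rfl r
      ((hT.rep_sub (hT.rep_g' (by norm_num) le_rfl rb) rb).congr ?_)⟩
    rw [h2, add_sub_cancel_left]
    exact cob_odd rfl hf2
  nb1 := by
    obtain ⟨y, h1, h2⟩ := hN.bd3
    exact hT.bd_of C hN η ε (K₀ := 12) (m := 1) (by unfold At; omega) rfl hT.s3_mem y h1 h2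
      (by norm_num) (by norm_num)
  nb2 := by
    obtain ⟨y, h1, h2⟩ := hN.bd9
    exact hT.bd_of C hN η ε (K₀ := 24) (m := 4) (by unfold At; omega) rfl hT.s9_mem y h1 h2
      (by norm_num) (by norm_num)
  nb3 := by
    obtain ⟨y, h1⟩ := hN.norm 0 (-0) 0 rfl rfl 1 hT.one_mem
    simpa using hT.bd_of C hN η ε (n := 0) (s := 0) (K := 212) (K₀ := 212) (m := 0)
      (by unfold At; omega) rfl hT.one_mem y h1 (hN.nil _ _ _ _ (by norm_num)) (by norm_num) le_rfl
  link n s i y A := hT.rep_link (hT.rep_jj A (j_cyc C n s y))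
  k_one n i A := by
    have r : Rep deg h red x (n - n) 0 1 (proj 0 (e0 : V O)) := by
      rw [sub_self, proj_of hT.rep_one.lm]; exact hT.rep_one
    exact (hT.kc_eq C A r).trans (kk_eq C _)

omit hN η ε C in
theorem jordan' {m t : ℤ} (ht : 12 * m + 4 * 1 = t) (v : V O) (l : Fin 3) :
    hT.GG t 1 v l - (![v 0, v 0 + v 1, v 1 + v 2] : V O) l ∈
      Ideal.span {red (σ 3), red (σ 9)} := by
  choose c hc hc' using fun i => hT.surj m (v i)
  choose d f hd hf h1 h2 using hT.jordan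
  have r : Rep deg h red x t 1 (gen h x 1 c) v := by
    have := Rep.of_gen (h := h) (red := red) (x := x) ht hc
    rwa [proj_one, show (fun l => red (c l)) = v from funext hc'] at this
  have r1 := hT.rep_g' (by norm_num) (by norm_num) r
  have q : ∀ i, Rep deg h red x t 1 (nm h (g (c i)) * g (x i))
      (red (g (c i)) • fun l => red (d i l)) := fun i => by
    have a1 := Rep.of_gen (h := h) (red := red) (x := x) (m := 0) (t := 4) (e := 1) rfl (hd i)
    rw [proj_one] at a1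
    have a2 := hT.rep_mul0 (rep_nm (hT.g_mem _ _ (hc i)) rfl)
      (a1.congr (a' := g (x i)) (by rw [h1 i, add_sub_cancel_left]; exact cob_odd rfl (hf i))) ht
    simpa [e0] using a2
  have r2 := hT.rep_add (hT.rep_add (q 0) (q 1)) (q 2)
  rw [gen1] at r1
  simp only [map_add, map_mul, hT.g_nm] at r1
  rw [hT.rep_unique (by norm_num) (by norm_num) r1 r2]
  have k : ∀ i, red (g (c i)) * red (d i l) - v i *
      (![![1, 1, 0], ![0, 1, 1], ![0, 0, 1]] : Fin 3 → Fin 3 → O) i l ∈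
        Ideal.span {red (σ 3), red (σ 9)} := fun i => by
    have := add_mem (Ideal.mul_mem_right (red (d i l)) _ (hT.g_res m _ (hc i)))
      (Ideal.mul_mem_left _ (v i) (h2 i l))
    rw [hc'] at this
    refine (congrArg (· ∈ Ideal.span {red (σ 3), red (σ 9)}) ?_).mp this
    ring
  refine (congrArg (· ∈ Ideal.span {red (σ 3), red (σ 9)}) ?_).mp
    (add_mem (add_mem (k 0) (k 1)) (k 2))
  fin_cases l <;> simp <;> ring

theorem raw (hη : IsEta C η ε) : Raw (hT.crd C hN η ε) (red (σ 3)) (red (σ 9)) where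
  toPre := hT.pre C hN η ε
  eta_rel := by
    obtain ⟨y, he, hy, H⟩ := hη
    change C.I (-1) 0 1 (ε • η + C.G 0 1 (ε • η) + C.G 0 1 (C.G 0 1 (ε • η))) = C.k (-1) 1 _
    rw [map_zsmul, map_zsmul, ← smul_add, ← smul_add, map_zsmul, H, sg_smul_eq he]
    congr 1
    exact Subtype.ext hy
  alpha := by
    obtain ⟨α, e, he, h1, h2⟩ := hN.alpha
    obtain ⟨c, f, hc, hf, h3, l, hl⟩ := hT.s3
    have A : At 3 (-1) 1 1 := by unfold At; omega
    have a1 := Rep.of_gen (h := h) (red := red) (x := x) (m := 0) (t := 3 - -1) (e := 1) rfl hc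
    rw [proj_one] at a1
    have a2 := (a1.congr (a' := σ 3)
      (by rw [h3, add_sub_cancel_left]; exact cob_odd rfl hf)).sg he
    refine ⟨3, -1, 1, e • fun l => red (c l), A, rfl, ⟨α, h2, ?_⟩, l, ?_⟩
    · change jj deg h red x 3 (-1) (C.j 1 3 α) = _
      rw [h1]; exact hT.jj_eq A a2
    · rcases he with rfl | rfl <;> simpa using hl
  jordan t v l ht := by
    rcases ht with rfl | rfl
    · exact hT.jordan' (m := 0) rfl v l
    · exact hT.jordan' (m := 1) rfl v l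
  G_cube v := by
    have r := hT.rep_lf (m := 0) (t := 4) (e := 1) rfl v
    rw [proj_one] at r
    have r3 := hT.rep_g' (by norm_num) (by norm_num) (hT.rep_g' (by norm_num) (by norm_num)
      (hT.rep_g' (by norm_num) (by norm_num) r))
    rw [hT.g_cube] at r3
    exact hT.rep_unique (by norm_num) (by norm_num) r3
      (r.congr (cob_odd rfl (hT.rep_cyc r).1))

end Tate

theorem glue : GLUE := fun _ _ _ _ _ _ _ C _ _ _ hT hN η e he =>
  ⟨hT.crd C hN η e, hT.raw C hN η e he⟩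

end Vale.Agent.P236Z.Force
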