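import Vale.Agent.P236Z.Force.Page

/-! One level of the forcing argument: the first differential. -/

namespace Vale.Agent.P236Z.Force

universe u v

variable {O : Type u} [CommRing O] {D : ℤ → ℤ → Type v} [∀ n s, AddCommGroup (D n s)]
  {T : Tow O D}

open Crd

/-- the state of the spectral sequence at the beginning of a level -/
structure St (C : Crd T) (J : ℤ → Submodule O (V O)) (p r : ℤ) : Prop where
  all : ∀ n s i e x, At n s i e → i % p = 0 → Lm e x → C.Z n s r x
  bd : ∀ n s i e z, At n s i e → i % p = 0 → (C.B n s r z ↔ z ∈ J e)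
  dead : ∀ n s i e x, At n s i e → i % p ≠ 0 → Lm e x → C.Z n s r x → C.B n s r x
  top : p ≠ 1 → ∀ x, Lm 3 x → x ∈ J 3
  five : 5 ≤ r

/-- the numbers of a level -/
def Lv (p q ra rb : ℤ) : Prop :=
  (p = 1 ∧ q = 3 ∧ ra = 5 ∧ rb = 9) ∨ (p = 3 ∧ q = 9 ∧ ra = 17 ∧ rb = 33) ∨
    (p = 9 ∧ q = 27 ∧ ra = 53 ∧ rb = 105)

/-- positions that are alive -/
def Al (p i e : ℤ) : Prop := i % p = 0 ∧ (p = 1 ∨ e ≠ 3)

/-- the boundaries after the first differential -/
def JV (J : ℤ → Submodule O (V O)) (v : V O) (e : ℤ) (z : V O) : Prop :=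
  ∃ x, Lm (e - 1) x ∧ z - wd (e - 1) v x ∈ J e

theorem ar_gap {p q ra rb n s n' s' r i e i' e' : ℤ} (hL : Lv p q ra rb) (h5 : 5 ≤ r)
    (h1 : r ≠ ra) (h2 : r < rb) (a : At n s i e) (a' : At n' s' i' e') (e1 : n' = n - 1)
    (e2 : s' = s - r) (b : Al p i e) (b' : Al p i' e') : False := by
  have k1 : r + 2 = 6 * (i - i') - e + e' := by unfold At at a a'; omega
  have k2 : r % 4 = 1 := by unfold At at a a'; omega
  have k3 : 0 ≤ e ∧ e ≤ 3 ∧ 0 ≤ e' ∧ e' ≤ 3 := ⟨a.1, a.2.1, a'.1, a'.2.1⟩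
  obtain ⟨c, rfl⟩ := Int.dvd_of_emod_eq_zero b.1
  obtain ⟨c', rfl⟩ := Int.dvd_of_emod_eq_zero b'.1
  have b1 := b.2
  have b2 := b'.2
  rw [← mul_sub] at k1
  generalize c - c' = d at k1
  clear a a' b b' e1 e2
  rcases hL with ⟨rfl, rfl, rfl, rfl⟩ | ⟨rfl, rfl, rfl, rfl⟩ | ⟨rfl, rfl, rfl, rfl⟩
  · omega
  · have : d = 1 ∨ d = 2 := by omega
    omega
  · have : d = 1 ∨ d = 2 := by omega
    omega

theorem zsmul_three (h : (3 : O) = 0) (c : ℤ) (v : V O) :
    (c % 3 = 0 → c • v = 0) ∧ (c % 3 ≠ 0 → ∃ a, Sg a ∧ c • v = a • v) := by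
  have h3 : ∀ k : ℤ, (k * 3) • v = 0 := fun k => by
    rw [mul_smul, ← Int.cast_smul_eq_zsmul O 3 v]
    simp [h]
  refine ⟨fun h0 => ?_, fun h0 => ?_⟩
  · rw [show c = c / 3 * 3 by omega, h3]
  · by_cases h1 : c % 3 = 1
    · exact ⟨1, Or.inl rfl, by rw [show c = c / 3 * 3 + 1 by omega, add_smul, h3, zero_add]⟩
    · exact ⟨-1, Or.inr rfl,
        by rw [show c = (c / 3 + 1) * 3 + -1 by omega, add_smul, h3, zero_add]⟩

namespace Pre

variable {C : Crd T} {n1 n2 : O} (hP : Pre C n1 n2) {J : ℤ → Submodule O (V O)}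
  {p q ra rb r0 r r1 r2 n s i e : ℤ} {x z v : V O}
include hP

theorem gapB0 (h2 : 2 ≤ r1) (h12 : r1 ≤ r2) (h : C.B n s r2 z)
    (hs : ∀ r i e x, r1 ≤ r → r < r2 → At (n + 1) (s + r) i e → Lm e x →
      C.Z (n + 1) (s + r) r x → C.Z (n + 1) (s + r) (r + 1) x) : C.B n s r1 z := by
  induction r2, h12 using Int.leInduction with
  | base => exact h
  | succ m hm ih =>
    refine ih ?_ (fun r i e x a b => hs r i e x a (by omega))
    rcases hP.b_succ (by omega) h with c | ⟨i, e, x, c1, c2, c3⟩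
    · exact c
    · have := c3.diff (hP.h_zero (by omega) (hs m i e x hm (by omega) c1 c2 c3.cyc))
        (n' := n) (s' := s) (by ring) (by ring)
      rwa [sub_zero] at this

omit hP in
theorem src_dead (S : St C J p r0) (a : At n s i e) (b : ¬ Al p i e) (l : Lm e x) (h0 : r0 ≤ r)
    (h : C.Z n s r x) : C.B n s r0 x := by
  by_cases c : i % p = 0
  · have d : p ≠ 1 ∧ e = 3 := by
      unfold Al at b
      omega
    obtain ⟨d, rfl⟩ := d
    exact (S.bd n s i 3 x a c).2 (S.top d x l)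
  · exact S.dead n s i e x a c l (h.anti (by have := S.five; omega) h0)

theorem tgt_dead (S : St C J p r0) (b : ∀ i e, At n s i e → ¬ Al p i e) (h : C.Perm n s z) :
    C.B n s r0 z := by
  by_cases c : ∃ i e, At n s i e
  · obtain ⟨i, e, a⟩ := c
    exact src_dead S a (b i e a) (hP.perm_lm a h) le_rfl (hP.perm_z a h r0)
  · rw [hP.perm_zero (fun i e a => c ⟨i, e, a⟩) h]
    exact B.zero

theorem gapZ (hL : Lv p q ra rb) (S : St C J p r0) (a : At n s i e) (l : Lm e x) (h01 : r0 ≤ r1)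
    (h12 : r1 ≤ r2) (hb : r2 ≤ rb) (ha : r2 ≤ ra ∨ ra < r1) (h : C.Z n s r1 x) :
    C.Z n s r2 x := by
  have h5 := S.five
  by_cases c : Al p i e
  · induction r2, h12 using Int.leInduction with
    | base => exact h
    | succ m hm ih =>
      obtain ⟨z, d⟩ := (ih (by omega) (by omega)).h
      refine hP.z_succ (by omega) d ?_ rfl rfl
      refine (hP.tgt_dead S (fun i' e' a' b' => ?_) d.perm).mono (by omega) (by omega)
      exact ar_gap hL (r := m) (by omega) (by omega) (by omega) a a' rfl rfl c b'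
  · exact hP.perm_z a (src_dead S a c l h01 h).perm r2

theorem gapB (hL : Lv p q ra rb) (S : St C J p r0) (a : At n s i e) (c : Al p i e) (h01 : r0 ≤ r1)
    (h12 : r1 ≤ r2) (hb : r2 ≤ rb) (ha : r2 ≤ ra ∨ ra < r1) (h : C.B n s r2 z) :
    C.B n s r1 z := by
  have h5 := S.five
  refine hP.gapB0 (by omega) h12 h (fun r i' e' x b1 b2 a' l hz => ?_)
  refine hP.perm_z a' (src_dead S a' (fun c' => ?_) l (by omega) hz).perm _
  exact ar_gap hL (r := r) (by omega) (by omega) (by omega) a' a (by ring) (by ring) c' c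

theorem adv (hL : Lv p q ra rb) (S : St C J p r0) (h : r0 ≤ ra) : St C J p ra := by
  have h5 := S.five
  have hab : ra ≤ rb := by unfold Lv at hL; omega
  refine ⟨fun n s i e x a b l => ?_, fun n s i e z a b => ⟨fun c => ?_, fun c => ?_⟩,
    fun n s i e x a b l c => ?_, S.top, by omega⟩
  · exact hP.gapZ hL S a l le_rfl h hab (Or.inl le_rfl) (S.all n s i e x a b l)
  · by_cases d : Al p i e
    · exact (S.bd n s i e z a b).1 (hP.gapB hL S a d le_rfl h hab (Or.inl le_rfl) c)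
    · exact (S.bd n s i e z a b).1
        (src_dead S a d (hP.perm_lm a c.perm) le_rfl (hP.perm_z a c.perm r0))
  · exact ((S.bd n s i e z a b).2 c).mono (by omega) h
  · exact (S.dead n s i e x a b l (c.anti (by omega) h)).mono (by omega) h

theorem pow_step (hL : Lv p q ra rb) {a b c : ℤ} {z z' : V O} (hc : c = a + b)
    (h : C.H (2 * a) (2 * a) ra e0 z) (h' : C.H (2 * b) (2 * b) ra e0 z') :
    C.H (2 * c) (2 * c) ra e0 (z + z') := by
  obtain ⟨a', b', -, -, h1, h2⟩ := hP.h_mul0 (r := ra) (n'' := 2 * c) (s'' := 2 * c) (i := a)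
    (i' := b) (e' := 0) (by unfold Lv at hL; omega) (by omega) (by omega)
    (by unfold At; omega) (by unfold At; omega) (lm_e0 0) (lm_e0 0)
    (Or.inr ⟨a - p, by unfold At; unfold Lv at hL; omega⟩) h h'
  obtain ⟨rfl, rfl⟩ := h1 rfl
  simpa [wd_e0, e0_zero] using h2

theorem pow (hL : Lv p q ra rb) (S : St C J p ra) (hv : C.H (2 * p) (2 * p) ra e0 v) (c : ℤ) :
    C.H (2 * (p * c)) (2 * (p * c)) ra e0 (c • v) := by
  have a0 : At 0 0 0 0 := by unfold At; omega
  have h0 : C.H (2 * 0) (2 * 0) ra e0 0 := hP.perm_h a0 (hP.perm0 0 0 _ a0 (lm_e0 0)) ra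
  have hn : C.H (2 * -p) (2 * -p) ra e0 (-v) := by
    obtain ⟨z, hz⟩ := (S.all (2 * -p) (2 * -p) (-p) 0 e0 (by unfold At; omega) (by simp)
      (lm_e0 0)).h
    have h1 := (hP.pow_step hL (by ring : (0 : ℤ) = p + -p) hv hz).diff h0 rfl rfl
    have h2 := (S.bd _ _ (-p) 1 _ (by unfold At; unfold Lv at hL; omega) (by simp)).1 h1
    have h3 := (S.bd (2 * -p - 1) (2 * -p - ra) (-p - p) 1 _
      (by unfold At; unfold Lv at hL; omega) (by simp)).2 h2
    have h4 := hz.sub ((h_zero_iff rfl rfl).2 h3)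
    simpa using h4
  induction c using Int.induction_on with
  | zero => simpa using h0
  | succ k ih =>
    have := hP.pow_step hL (c := p * (k + 1)) (by ring) hv ih
    rwa [add_smul, one_smul, add_comm _ v]
  | pred k ih =>
    have := hP.pow_step hL (c := p * (-k - 1)) (by ring) hn ih
    rwa [sub_smul, one_smul, sub_eq_neg_add _ v]

end Pre

namespace Adp

variable {C : Crd T} {n1 n2 : O} (hA : Adp C n1 n2) {J : ℤ → Submodule O (V O)}
  {p q ra rb r n s i e : ℤ} {x z v : V O}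
include hA

/-- multiplication of a power of `u` by a permanent form -/
theorem u_mul (h5 : 5 ≤ r) (a : At n s i e) (l : Lm e x)
    (hz : z = 0 ∨ ∃ i1, At (2 * i - 1) (2 * i - r) i1 1) (h : C.H (2 * i) (2 * i) r e0 z) :
    ∃ a, Sg a ∧ C.H n s r x (a • wd e z x) := by
  have a' : At (n - 2 * i) (s - 2 * i) 0 e := by unfold At at a ⊢; omega
  obtain ⟨a1, b1, h1, -, -, h2⟩ := hA.toPre.h_mul0 (n'' := n) (s'' := s) (i := i) h5 (by ring)
    (by ring) (by unfold At; omega) a' (lm_e0 0) l hz h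
    (hA.toPre.perm_h a' (hA.perm _ _ e x a' l) r)
  exact ⟨a1, h1, by simpa [e0_zero] using h2⟩

theorem dA (hL : Lv p q ra rb) (S : St C J p ra) (hv : C.H (2 * p) (2 * p) ra e0 v)
    (a : At n s i e) (b : i % p = 0) (l : Lm e x) :
    (i % q = 0 → C.H n s ra x 0) ∧ (i % q ≠ 0 → ∃ a, Sg a ∧ C.H n s ra x (a • wd e v x)) := by
  obtain ⟨c, rfl⟩ := Int.dvd_of_emod_eq_zero b
  obtain ⟨a1, h1, h2⟩ := hA.u_mul S.five a l (Or.inr ⟨p * c - p, by
    unfold At; unfold Lv at hL; omega⟩) (hA.toPre.pow hL S hv c)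
  have h3 := zsmul_three hA.of.three c v
  refine ⟨fun d => ?_, fun d => ?_⟩
  · have : c % 3 = 0 := by
      rcases hL with ⟨rfl, rfl, -⟩ | ⟨rfl, rfl, -⟩ | ⟨rfl, rfl, -⟩ <;> omega
    rwa [h3.1 this, wd_zero_left, smul_zero] at h2
  · have : c % 3 ≠ 0 := by
      rcases hL with ⟨rfl, rfl, -⟩ | ⟨rfl, rfl, -⟩ | ⟨rfl, rfl, -⟩ <;> omega
    obtain ⟨a2, h4, h5⟩ := h3.2 this
    rw [h5, wd_zsmul_left, smul_smul] at h2
    exact ⟨_, h1.mul h4, h2⟩

/-- cycles after the first differential -/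
theorem z_iff (hL : Lv p q ra rb) (S : St C J p ra) (hv : C.H (2 * p) (2 * p) ra e0 v)
    (a : At n s i e) (b : i % p = 0) (c : i % q ≠ 0) (l : Lm e x) :
    C.Z n s (ra + 1) x ↔ wd e v x ∈ J (e + 1) := by
  have h5 := S.five
  obtain ⟨a1, h1, h2⟩ := (hA.dA hL S hv a b l).2 c
  by_cases e3 : e = 3
  · subst e3
    have : wd 3 v x = 0 := by simp [wd]
    rw [this] at h2 ⊢
    exact ⟨fun _ => zero_mem _, fun _ => hA.toPre.z_succ0 (by omega) (by simpa using h2)⟩
  · have a' : At (n - 1) (s - ra) (i - p) (e + 1) := by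
      unfold At at a ⊢; unfold Lv at hL; omega
    have b' : (i - p) % p = 0 := by simpa using b
    rw [← S.bd _ _ _ _ _ a' b']
    refine ⟨fun d => ?_, fun d => hA.toPre.z_succ (by omega) h2 (d.zsmul a1) rfl rfl⟩
    have := h2.diff (hA.toPre.h_zero (by omega) d) rfl rfl
    rw [sub_zero] at this
    exact this.of_sg h1

/-- boundaries after the first differential, upper bound -/
theorem b_le (hL : Lv p q ra rb) (S : St C J p ra) (hv : C.H (2 * p) (2 * p) ra e0 v)
    (a : At n s i e) (b : i % p = 0) (h : C.B n s (ra + 1) z) :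
    JV J v e z ∧ ((i + p) % q = 0 → z ∈ J e) := by
  have h5 := S.five
  have key : z ∈ J e → JV J v e z := fun d => ⟨0, Lm.zero _, by rwa [wd_zero_right, sub_zero]⟩
  rcases hA.toPre.b_succ (by omega) h with d | ⟨i', e', x, d1, d2, d3⟩
  · have := (S.bd n s i e z a b).1 d
    exact ⟨key this, fun _ => this⟩
  · have : i' = i + p ∧ e' = e - 1 := by
      unfold At at a d1; unfold Lv at hL; omega
    obtain ⟨rfl, rfl⟩ := this
    have f := hA.dA hL S hv d1 (by simpa using b) d2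
    by_cases c : (i + p) % q = 0
    · have := d3.diff (f.1 c) (n' := n) (s' := s) (by ring) (by ring)
      rw [sub_zero, S.bd n s i e z a b] at this
      exact ⟨key this, fun _ => this⟩
    · obtain ⟨a1, -, h2⟩ := f.2 c
      have := d3.diff h2 (n' := n) (s' := s) (by ring) (by ring)
      rw [S.bd n s i e _ a b] at this
      exact ⟨⟨a1 • x, d2.zsmul a1, by rwa [wd_zsmul_right]⟩, fun d => absurd d c⟩

/-- boundaries after the first differential, lower bound -/
theorem b_ge (hL : Lv p q ra rb) (S : St C J p ra) (hv : C.H (2 * p) (2 * p) ra e0 v)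
    (a : At n s i e) (b : i % p = 0) (c : (i + p) % q ≠ 0) (h : JV J v e z) :
    C.B n s (ra + 1) z := by
  have h5 := S.five
  obtain ⟨x, l, h⟩ := h
  have h1 := ((S.bd n s i e _ a b).2 h).mono (r' := ra + 1) (by omega) (by omega)
  have h2 : C.B n s (ra + 1) (wd (e - 1) v x) := by
    by_cases e0 : e = 0
    · subst e0
      have : wd (0 - 1) v x = 0 := by simp [wd]
      rw [this]
      exact B.zero
    · have a' : At (n + 1) (s + ra) (i + p) (e - 1) := by
        unfold At at a ⊢; unfold Lv at hL; omega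
      obtain ⟨a1, h3, h4⟩ := (hA.dA hL S hv a' (by simpa using b) l).2 c
      exact (hA.toPre.b_of_h (by omega) a' l h4 (by ring) (by ring)).of_sg h3
  simpa using h1.add h2

/-- if `u ^ i` reaches the second differential of the level, so does everything above it -/
theorem u_top (hL : Lv p q ra rb) (S : St C J p ra) (a : At n s i e) (l : Lm e x)
    (h : C.Z (2 * i) (2 * i) (ra + 1) e0) : C.H n s rb x 0 := by
  have h5 := S.five
  have hab : ra + 1 ≤ rb := by unfold Lv at hL; omega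
  obtain ⟨z, h1⟩ := (hA.toPre.gapZ hL S (i := i) (e := 0) (by unfold At; omega) (lm_e0 0)
    (by omega) hab le_rfl (Or.inr (by omega)) h).h
  have : z = 0 := hA.toPre.perm_zero (fun i' e' a' => by
    unfold At at a'; unfold Lv at hL; omega) h1.perm
  obtain ⟨a1, -, h2⟩ := hA.u_mul (by omega) a l (Or.inl this) h1
  rwa [this, wd_zero_left, smul_zero] at h2

end Adp

end Vale.Agent.P236Z.Force
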