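import Vale.Agent.P236Z.Force.LevA

/-! One level of the forcing argument: the second differential. -/

namespace Vale.Agent.P236Z.Force

universe u v

variable {O : Type u} [CommRing O] {D : ℤ → ℤ → Type v} [∀ n s, AddCommGroup (D n s)]
  {T : Tow O D}

open Crd

theorem JV.zero_iff {J : ℤ → Submodule O (V O)} {v z : V O} : JV J v 0 z ↔ z ∈ J 0 := by
  have : ∀ x, wd (0 - 1) v x = 0 := fun x => by simp [wd]
  refine ⟨fun ⟨x, _, h⟩ => by rwa [this, sub_zero] at h, fun h => ⟨0, Lm.zero _, ?_⟩⟩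
  rwa [this, sub_zero]

theorem JV.zsmul {J : ℤ → Submodule O (V O)} {v z : V O} {e : ℤ} (h : JV J v e z) (a : ℤ) :
    JV J v e (a • z) := by
  obtain ⟨x, l, h⟩ := h
  exact ⟨a • x, l.zsmul a, by
    rw [wd_zsmul_right, ← smul_sub]
    exact zsmul_mem h a⟩

theorem JV.of_sg {J : ℤ → Submodule O (V O)} {v z : V O} {e a : ℤ} (ha : Sg a)
    (h : JV J v e (a • z)) : JV J v e z := by
  have := h.zsmul a
  rwa [smul_smul, ha.mul_self, one_smul] at this

section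
variable {p q ra rb i : ℤ} (hL : Lv p q ra rb)
include hL

theorem Lv.m1 (h : i % q = 0) :
    i % p = 0 ∧ (i + p) % q ≠ 0 ∧ (i + 2 * p) % p = 0 ∧ (i + 2 * p) % q ≠ 0 := by
  rcases hL with ⟨rfl, rfl, -⟩ | ⟨rfl, rfl, -⟩ | ⟨rfl, rfl, -⟩ <;> omega

theorem Lv.m2 (h : i % q = p) : i % p = 0 ∧ i % q ≠ 0 ∧ (i + p) % q ≠ 0 := by
  rcases hL with ⟨rfl, rfl, -⟩ | ⟨rfl, rfl, -⟩ | ⟨rfl, rfl, -⟩ <;> omega

theorem Lv.m3 (h : i % q = 2 * p) :
    i % p = 0 ∧ i % q ≠ 0 ∧ (i - 2 * p) % q = 0 ∧ (i - 2 * p) % p = 0 := by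
  rcases hL with ⟨rfl, rfl, -⟩ | ⟨rfl, rfl, -⟩ | ⟨rfl, rfl, -⟩ <;> omega

theorem Lv.m4 : 2 * p % q ≠ 0 := by
  rcases hL with ⟨rfl, rfl, -⟩ | ⟨rfl, rfl, -⟩ | ⟨rfl, rfl, -⟩ <;> omega

theorem Lv.m6 (h : i % p = 0) (h1 : i % q ≠ 0) (h2 : i % q ≠ p) : i % q = 2 * p := by
  rcases hL with ⟨rfl, rfl, -⟩ | ⟨rfl, rfl, -⟩ | ⟨rfl, rfl, -⟩ <;> omega

end

/-- the data of a level -/
structure Lev (C : Crd T) (J : ℤ → Submodule O (V O)) (p q ra rb : ℤ) (v : V O) (n0 s0 : ℤ) :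
    Prop where
  lv : Lv p q ra rb
  st : St C J p ra
  hv : C.H (2 * p) (2 * p) ra e0 v
  at0 : At n0 s0 0 0

namespace Adp

variable {C : Crd T} {n1 n2 : O} (hA : Adp C n1 n2) {J : ℤ → Submodule O (V O)}
  {p q ra rb r n s i e n0 s0 : ℤ} {x z v w f F : V O} (L : Lev C J p q ra rb v n0 s0)
include hA L

omit hA in
theorem src_at : At (n0 + 1) (s0 + rb) (2 * p) 1 := by
  have a := L.at0
  have b := L.lv
  unfold At at a ⊢; unfold Lv at b; omega

omit hA in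
theorem j_perm (a : At n s i e) (b : i % p = 0) (h : x ∈ J e) : C.Perm n s x :=
  ((L.st.bd n s i e x a b).2 h).perm

theorem b_rb (a : At n s i e) (b : i % p = 0) (h : C.B n s rb z) :
    JV J v e z ∧ ((i + p) % q = 0 → z ∈ J e) := by
  have hL := L.lv
  by_cases c : Al p i e
  · exact hA.b_le L.lv L.st L.hv a b (hA.toPre.gapB L.lv L.st a c (by omega)
      (by unfold Lv at hL; omega) le_rfl (Or.inr (by omega)) h)
  · have := (L.st.bd n s i e z a b).1 (Pre.src_dead L.st a c (hA.toPre.perm_lm a h.perm) le_rfl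
      (hA.toPre.perm_z a h.perm ra))
    exact ⟨⟨0, Lm.zero _, by rwa [wd_zero_right, sub_zero]⟩, fun _ => this⟩

theorem z_rb (a : At n s i e) (b : i % p = 0) (c : i % q ≠ 0) (l : Lm e x) :
    C.Z n s rb x ↔ wd e v x ∈ J (e + 1) := by
  have hL := L.lv
  have hab : ra + 1 ≤ rb ∧ 1 ≤ ra := by unfold Lv at hL; omega
  rw [← hA.z_iff L.lv L.st L.hv a b c l]
  exact ⟨fun h => h.anti (by omega) hab.1, fun h => hA.toPre.gapZ L.lv L.st a l (by omega) hab.1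
    le_rfl (Or.inr (by omega)) h⟩

theorem b0_rb (h : C.B n0 s0 rb z) : z ∈ J 0 :=
  JV.zero_iff.1 (hA.b_rb L L.at0 (by simp) h).1

theorem bound (h : C.B n0 s0 (rb + 1) z) (hz : z ∉ J 0) :
    ∃ x, C.H (n0 + 1) (s0 + rb) rb x z := by
  have hL := L.lv
  have a := L.at0
  rcases hA.toPre.b_succ (by unfold Lv at hL; omega) h with d | ⟨i, e, x, -, -, d⟩
  · exact absurd (hA.b0_rb L d) hz
  · exact ⟨x, d⟩

theorem src_z : C.Z (n0 + 1) (s0 + rb) rb x ↔ wd 1 v x ∈ J 2 := by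
  have hL := L.lv
  exact hA.z_rb L (src_at L) (by simp) hL.m4 (lm_one x)

theorem v_not (h : C.H (n0 + 1) (s0 + rb) rb x z) (hz : z ∉ J 0) : v ∉ J 1 := fun hv => by
  have hL := L.lv
  have h1 := (hA.z_iff L.lv L.st L.hv (n := 2 * (2 * p)) (s := 2 * (2 * p)) (i := 2 * p) (e := 0)
    (by unfold At; omega) (by simp) hL.m4 (lm_e0 0)).2 (by rwa [wd_e0])
  have h2 := h.diff (hA.u_top L.lv L.st (src_at L) (lm_one x) h1) (n' := n0) (s' := s0)
    (by ring) (by ring)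
  rw [sub_zero] at h2
  exact hz (hA.b0_rb L h2)

omit L in
theorem src_lm (a : At n0 s0 0 0) (h : C.H (n0 + 1) (s0 + rb) rb x z) : Lm 0 z :=
  hA.toPre.perm_lm a (by simpa using h.perm)

theorem val (h : C.H (n0 + 1) (s0 + rb) rb w f) (h' : C.H (n0 + 1) (s0 + rb) rb x z) (b : O)
    (hb : x - b • w ∈ J 1) : ∃ a : ℤ, Sg a ∧ z - a • b • f ∈ J 0 := by
  have hL := L.lv
  obtain ⟨a, ha, h1⟩ := hA.toPre.h_smul (by unfold Lv at hL; omega) (src_at L) (lm_one w) h b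
  have h2 := h1.add (hA.toPre.perm_h (src_at L) (j_perm L (src_at L) (by simp) hb) rb)
  rw [add_sub_cancel, add_zero] at h2
  exact ⟨a, ha, hA.b0_rb L (h'.diff h2 (by ring) (by ring))⟩

theorem contr (h : C.H (n0 + 1) (s0 + rb) rb w f) : JV J v 1 (f 0 • w) := by
  have hL := L.lv
  have a0 := L.at0
  have a1 : At 1 (-3) 0 1 := by unfold At; omega
  obtain ⟨a, ha, h1⟩ := hA.toPre.h_mul1 (n'' := n0 + 2) (s'' := s0 + rb - 3)
    (by unfold Lv at hL; omega) (by ring) (by ring) (src_at L) a1 (by omega) (lm_one w)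
    (Or.inr ⟨0, by simpa using a0⟩) h (hA.perm _ _ 1 w a1 (lm_one w))
  rw [wd_self, h_zero_iff (n' := n0 + 1) (s' := s0 - 3) (by ring) (by ring)] at h1
  exact (hA.b_rb L (i := 0) (e := 1) (by unfold At at a0 ⊢; omega) (by simp) h1).1.of_sg ha

theorem ginv {t : ℤ} (ht : t = 6 * p - 2) : C.G t 1 v - v ∈ J 1 := by
  have hL := L.lv
  have a1 : At (2 * p - 1) (2 * p - ra) 0 1 := by unfold At; unfold Lv at hL; omega
  have h1 := hA.toPre.h_g (t := 0) (t' := t) (i := p) (e := 0) (by unfold Lv at hL; omega)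
    (by unfold At; omega) a1 (lm_e0 0) L.hv (by ring) (by unfold Lv at hL; omega)
  rw [hA.G_one] at h1
  exact (L.st.bd _ _ 0 1 _ a1 (by simp)).1 (h1.diff L.hv rfl rfl)

theorem finv {t : ℤ} (ht : t = n0 - s0) (h0 : n0 - s0 = 18 * p - 6)
    (h : C.H (n0 + 1) (s0 + rb) rb v F) : C.G t 0 F - F ∈ J 0 := by
  have hL := L.lv
  have h1 := hA.toPre.h_g (t := 6 * p - 2) (t' := t) (i' := 0) (e' := 0)
    (by unfold Lv at hL; omega) (src_at L) (by simpa using L.at0) (lm_one v) h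
    (by unfold Lv at hL; omega) (by omega)
  have h2 := h.add (hA.toPre.perm_h (src_at L) (j_perm L (src_at L) (by simp)
    (hA.ginv L rfl)) rb)
  rw [add_sub_cancel, add_zero] at h2
  exact hA.b0_rb L (h1.diff h2 (by ring) (by ring))

theorem jg0 {t : ℤ} (ht : t = n0 - s0) (h : z ∈ J 0) : C.G t 0 z ∈ J 0 :=
  (L.st.bd _ _ 0 0 _ L.at0 (by simp)).1 (hA.toPre.b_g (by have := L.st.five; omega) L.at0
    ((L.st.bd _ _ 0 0 _ L.at0 (by simp)).2 h) ht)

theorem top_h (a : At n s i e) (b : i % q = 0) (l : Lm e x) : C.H n s rb x 0 := by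
  have hL := L.lv
  have h5 := L.st.five
  refine hA.u_top L.lv L.st a l (hA.toPre.z_succ0 (by omega) ?_)
  exact (hA.dA L.lv L.st L.hv (e := 0) (by unfold At; omega) (hL.m1 b).1 (lm_e0 0)).1 b

theorem dB (h : C.H (n0 + 1) (s0 + rb) rb v F) (a : At n s i (e + 1)) (he : 0 ≤ e)
    (b : (i - 2 * p) % q = 0) (l : Lm e x) :
    ∃ a, Sg a ∧ C.H n s rb (wd e v x) (a • F 0 • x) := by
  have hL := L.lv
  have a0 := L.at0
  have h5 : 5 ≤ rb := by unfold Lv at hL; omega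
  have a1 : At (n - e - (n0 + 1)) (s + 3 * e - (s0 + rb)) (i - 2 * p) 0 := by
    unfold At at a a0 ⊢; unfold Lv at hL; omega
  obtain ⟨b1, h1, h2⟩ := hA.toPre.h_shift (n'' := n - e) (s'' := s + 3 * e) h5 (by ring) (by ring)
    a1 (src_at L) (lm_e0 0) (lm_one v) (hA.top_h L a1 b (lm_e0 0)) h
  rw [e0_zero, one_smul, one_smul] at h2
  have a2 : At e (-3 * e) 0 e := by unfold At at a ⊢; omega
  obtain ⟨b2, h3, h4⟩ := hA.toPre.h_mul1 (n'' := n) (s'' := s) (i := i) h5 (by ring) (by ring)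
    (by unfold At at a ⊢; omega) a2 (by unfold At at a; omega) l
    (Or.inr ⟨i - 2 * p, by unfold At at a ⊢; unfold Lv at hL; omega⟩) h2 (hA.perm _ _ e x a2 l)
  refine ⟨b2 * b1, h3.mul h1, ?_⟩
  rwa [Pi.smul_apply, smul_assoc, smul_smul] at h4

theorem pk1 (KA : ∀ e x, 0 ≤ e → e ≤ 3 → Lm e x → wd e v x ∈ J (e + 1) → JV J v e x)
    (a : At n s i e) (b : i % q = p) (l : Lm e x) (h : C.Z n s (ra + 1) x) :
    C.B n s (ra + 1) x := by
  have hL := L.lv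
  have b1 := hL.m2 b
  exact hA.b_ge L.lv L.st L.hv a b1.1 b1.2.2 (KA e x a.1 a.2.1 l
    ((hA.z_iff L.lv L.st L.hv a b1.1 b1.2.1 l).1 h))

theorem pk2 (hF : C.H (n0 + 1) (s0 + rb) rb v F)
    (KA : ∀ e x, 0 ≤ e → e ≤ 3 → Lm e x → wd e v x ∈ J (e + 1) → JV J v e x)
    (KB : ∀ e x, 0 ≤ e → e ≤ 2 → Lm e x → JV J v e (F 0 • x) → wd e v x ∈ J (e + 1))
    (a : At n s i e) (b : i % q = 2 * p) (l : Lm e x) (h : C.Z n s (rb + 1) x) : x ∈ J e := by
  have hL := L.lv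
  have h5 : 5 ≤ rb := by unfold Lv at hL; omega
  obtain ⟨b1, b2, b3, b4⟩ := hL.m3 b
  have k := KA e x a.1 a.2.1 l ((hA.z_rb L a b1 b2 l).1
    (h.anti (by omega) (by omega)))
  by_cases e0 : e = 0
  · subst e0
    exact JV.zero_iff.1 k
  · obtain ⟨y, ly, hy⟩ := k
    have he : 0 ≤ e - 1 := by have := a.1; omega
    obtain ⟨a1, h1, h2⟩ := hA.dB L hF (by simpa using a) he (i := i) (n := n) (s := s) b3 ly
    have h3 := h2.add (hA.toPre.perm_h a (j_perm L a b1 hy) rb)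
    rw [add_sub_cancel, add_zero] at h3
    have h4 := h3.diff (hA.toPre.h_zero (by omega) h) rfl rfl
    rw [sub_zero] at h4
    have h6 := (hA.b_rb L (i := i - 2 * p) (e := e - 1) (by
      unfold At at a ⊢; unfold Lv at hL; omega) b4 h4).1.of_sg h1
    have h7 := KB (e - 1) y he (by have := a.2.1; omega) ly h6
    rw [sub_add_cancel] at h7
    simpa using add_mem hy h7

theorem next {J' : ℤ → Submodule O (V O)} (hF : C.H (n0 + 1) (s0 + rb) rb v F)
    (KA : ∀ e x, 0 ≤ e → e ≤ 3 → Lm e x → wd e v x ∈ J (e + 1) → JV J v e x)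
    (KB : ∀ e x, 0 ≤ e → e ≤ 2 → Lm e x → JV J v e (F 0 • x) → wd e v x ∈ J (e + 1))
    (KC : ∀ e z, 0 ≤ e → e ≤ 3 → (z ∈ J' e ↔ Lm e z ∧ ∃ x, Lm e x ∧ JV J v e (z - F 0 • x)))
    (K3 : ∀ x, Lm 3 x → x ∈ J' 3) : St C J' q (rb + 1) := by
  have hL := L.lv
  have h5 : 5 ≤ ra ∧ ra + 1 ≤ rb := by unfold Lv at hL; omega
  refine ⟨fun n s i e x a b l => hA.toPre.z_succ0 (by omega) (hA.top_h L a b l),
    fun n s i e z a b => ?_, fun n s i e x a b l h => ?_, fun _ => K3, by omega⟩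
  · obtain ⟨b1, b3, b2, b4⟩ := hL.m1 b
    have up : ∀ y, JV J v e y → C.B n s (rb + 1) y := fun y hy =>
      (hA.b_ge L.lv L.st L.hv a b1 b3 hy).mono (by omega) (by omega)
    rw [KC e z a.1 a.2.1]
    refine ⟨fun h => ⟨hA.toPre.perm_lm a h.perm, ?_⟩, fun ⟨l, x, lx, h⟩ => ?_⟩
    · rcases hA.toPre.b_succ (by omega) h with d | ⟨i', e', x, d1, d2, d3⟩
      · exact ⟨0, Lm.zero _, by simpa using (hA.b_rb L a b1 d).1⟩
      · have : i' = i + 2 * p ∧ e' = e + 1 := by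
          unfold At at a d1; unfold Lv at hL; omega
        obtain ⟨rfl, rfl⟩ := this
        obtain ⟨y, ly, hy⟩ := KA _ x d1.1 d1.2.1 d2 ((hA.z_rb L d1 b2 b4 d2).1 d3.cyc)
        rw [add_sub_cancel_right] at ly hy
        obtain ⟨a1, -, h2⟩ := hA.dB L hF d1 a.1 (by simpa using b) ly
        have h3 := h2.add (hA.toPre.perm_h d1 (j_perm L d1 b2 hy) rb)
        rw [add_sub_cancel, add_zero] at h3
        refine ⟨a1 • y, ly.zsmul a1, ?_⟩
        rw [smul_comm]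
        exact (hA.b_rb L a b1 (d3.diff h3 (by ring) (by ring))).1
    · by_cases e3 : e = 3
      · subst e3
        exact up z (KA 3 z a.1 a.2.1 l (by simp [wd]))
      · have a' : At (n + 1) (s + rb) (i + 2 * p) (e + 1) := by
          unfold At at a ⊢; unfold Lv at hL; omega
        obtain ⟨a1, h1, h2⟩ := hA.dB L hF a' a.1 (by simpa using b) lx
        have h3 := (hA.toPre.b_of_h (by omega) a' (lm_wd a.1 v x) h2 (n' := n) (s' := s)
          (by ring) (by ring)).of_sg h1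
        simpa using (up _ h).add h3
  · by_cases b1 : i % p = 0
    · by_cases b2 : i % q = p
      · exact (hA.pk1 L KA a b2 l (h.anti (by omega) (by omega))).mono (by omega) (by omega)
      · have := hA.pk2 L hF KA KB a (hL.m6 b1 b b2) l h
        exact ((L.st.bd n s i e x a b1).2 this).mono (by omega) (by omega)
    · exact (L.st.dead n s i e x a b1 l (h.anti (by omega) (by omega))).mono (by omega) (by omega)

end Adp

end Vale.Agent.P236Z.Force
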