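import Vale.Agent.P236Z.Force.Defs

/-! Pages of the couple in coordinates. -/

namespace Vale.Agent.P236Z.Force

universe u v

variable {O : Type u} [CommRing O] {D : ℤ → ℤ → Type v} [∀ n s, AddCommGroup (D n s)]
  {T : Tow O D}

theorem Lm.zero (e : ℤ) : Lm e (0 : V O) := fun _ => ⟨rfl, rfl⟩

theorem Lm.smul {e : ℤ} {x : V O} (h : Lm e x) (b : O) : Lm e (b • x) := fun he => by
  simp [(h he).1, (h he).2]

theorem Lm.zsmul {e : ℤ} {x : V O} (h : Lm e x) (b : ℤ) : Lm e (b • x) := fun he => by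
  simp [(h he).1, (h he).2]

theorem Lm.sub {e : ℤ} {x y : V O} (h : Lm e x) (h' : Lm e y) : Lm e (x - y) := fun he => by
  simp [(h he).1, (h he).2, (h' he).1, (h' he).2]

theorem lm_e0 (e : ℤ) : Lm e (e0 : V O) := fun _ => ⟨rfl, rfl⟩

theorem lm_one (x : V O) : Lm 1 x := fun h => by omega

theorem lm_wd {e : ℤ} (h0 : 0 ≤ e) (w x : V O) : Lm (e + 1) (wd e w x) := fun h => by
  have : e = 2 := by omega
  subst this
  simp [wd]

theorem Lm.eq_e0 {x : V O} (h : Lm 0 x) : x = x 0 • e0 := by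
  ext l
  fin_cases l <;> simp [e0, (h (Or.inl rfl)).1, (h (Or.inl rfl)).2]

theorem e0_zero : (e0 : V O) 0 = 1 := rfl

theorem wd_zero_left (e : ℤ) (x : V O) : wd e 0 x = 0 := by
  unfold wd
  split_ifs <;> simp

theorem wd_zero_right (e : ℤ) (w : V O) : wd e w 0 = 0 := by
  unfold wd
  split_ifs <;> simp

theorem wd_zsmul_left (e c : ℤ) (w x : V O) : wd e (c • w) x = c • wd e w x := by
  unfold wd
  split_ifs
  · rw [smul_comm]
  · ext l
    fin_cases l <;> simp <;> ring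
  · ext l
    fin_cases l <;> simp
    ring
  · simp

theorem wd_zsmul_right (e c : ℤ) (w x : V O) : wd e w (c • x) = c • wd e w x := by
  unfold wd
  split_ifs
  · ext l
    simp
    ring
  · ext l
    fin_cases l <;> simp <;> ring
  · ext l
    fin_cases l <;> simp
    ring
  · simp

theorem wd_e0 (w : V O) : wd 0 w e0 = w := by simp [wd, e0]

theorem wd_self (w : V O) : wd 1 w w = 0 := by
  ext l
  fin_cases l <;> simp [wd] <;> ring

theorem Sg.mul_self {a : ℤ} (h : Sg a) : a * a = 1 := by rcases h with rfl | rfl <;> rfl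

theorem Sg.mul {a b : ℤ} (h : Sg a) (h' : Sg b) : Sg (a * b) := by
  rcases h with rfl | rfl <;> rcases h' with rfl | rfl <;> simp [Sg]

namespace Crd

variable (C : Crd T)

/-- `r`-cycles -/
def Z (n s r : ℤ) (x : V O) : Prop :=
  ∃ y : D (n - 1) (s - r), T.I (n - 1) (s - r) (s - 1) y = C.k (n - 1) (s - 1) x

/-- `r`-boundaries -/
def B (n s r : ℤ) (z : V O) : Prop := C.Bd n s (s + r - 1) z

/-- the differential `d_r` from `(n,s)` -/
def H (n s r : ℤ) (x z : V O) : Prop := C.Hit (n - 1) (s - r) (s - 1) x z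

variable {C} {n s r : ℤ} {x x' z z' : V O}

theorem H.cyc (h : C.H n s r x z) : C.Z n s r x := let ⟨y, h1, _⟩ := h; ⟨y, h1⟩

theorem Z.h (h : C.Z n s r x) : ∃ z, C.H n s r x z := let ⟨y, h1⟩ := h; ⟨_, y, h1, rfl⟩

theorem H.perm (h : C.H n s r x z) : C.Perm (n - 1) (s - r) z := let ⟨y, _, h2⟩ := h; ⟨y, h2⟩

theorem H.add (h : C.H n s r x z) (h' : C.H n s r x' z') : C.H n s r (x + x') (z + z') := by
  obtain ⟨y, h1, h2⟩ := h
  obtain ⟨y', h1', h2'⟩ := h'
  exact ⟨y + y', by rw [map_add, map_add, h1, h1'], by rw [map_add, h2, h2']⟩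

theorem H.zsmul (h : C.H n s r x z) (c : ℤ) : C.H n s r (c • x) (c • z) := by
  obtain ⟨y, h1, h2⟩ := h
  exact ⟨c • y, by rw [map_zsmul, map_zsmul, h1], by rw [map_zsmul, h2]⟩

theorem H.sub (h : C.H n s r x z) (h' : C.H n s r x' z') : C.H n s r (x - x') (z - z') := by
  obtain ⟨y, h1, h2⟩ := h
  obtain ⟨y', h1', h2'⟩ := h'
  exact ⟨y - y', by rw [map_sub, map_sub, h1, h1'], by rw [map_sub, h2, h2']⟩

theorem h_zero_iff {n' s' : ℤ} (e1 : n' = n - 1) (e2 : s' = s - r) :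
    C.H n s r 0 z ↔ C.B n' s' r z := by
  subst e1 e2
  unfold H B Hit Bd
  rw [map_zero, show s - r + r - 1 = s - 1 by ring]

theorem B.zero : C.B n s r 0 := ⟨0, map_zero _, map_zero _⟩

theorem B.add (h : C.B n s r z) (h' : C.B n s r z') : C.B n s r (z + z') := by
  obtain ⟨y, h1, h2⟩ := h
  obtain ⟨y', h1', h2'⟩ := h'
  exact ⟨y + y', by rw [map_add, h1, h1', add_zero], by rw [map_add, h2, h2']⟩

theorem B.zsmul (h : C.B n s r z) (c : ℤ) : C.B n s r (c • z) := by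
  obtain ⟨y, h1, h2⟩ := h
  exact ⟨c • y, by rw [map_zsmul, h1, smul_zero], by rw [map_zsmul, h2]⟩

theorem B.of_sg {a : ℤ} (ha : Sg a) (h : C.B n s r (a • z)) : C.B n s r z := by
  have := h.zsmul a
  rwa [smul_smul, ha.mul_self, one_smul] at this

theorem B.perm (h : C.B n s r z) : C.Perm n s z := let ⟨y, _, h2⟩ := h; ⟨y, h2⟩

theorem B.mono {r' : ℤ} (h : C.B n s r z) (h1 : 1 ≤ r) (h2 : r ≤ r') : C.B n s r' z := by
  obtain ⟨y, a, b⟩ := h
  refine ⟨y, ?_, b⟩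
  rw [← T.I_comp n s (s + r - 1) _ y (by omega) (by omega), a, map_zero]

theorem Z.anti {r' : ℤ} (h : C.Z n s r x) (h1 : 1 ≤ r') (h2 : r' ≤ r) : C.Z n s r' x := by
  obtain ⟨y, a⟩ := h
  exact ⟨T.I _ (s - r) (s - r') y, by rw [T.I_comp _ _ _ _ y (by omega) (by omega), a]⟩

theorem H.diff {n' s' : ℤ} (h : C.H n s r x z) (h' : C.H n s r x z') (e1 : n' = n - 1)
    (e2 : s' = s - r) : C.B n' s' r (z - z') := by
  have := h.sub h'
  rw [sub_self] at this
  exact (h_zero_iff e1 e2).1 this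

end Crd

namespace Pre

open Crd

variable {C : Crd T} {n1 n2 : O} (hP : Pre C n1 n2) {n s r i e : ℤ} {x x' z z' : V O}
include hP

theorem perm_lm (a : At n s i e) (h : C.Perm n s x) : Lm e x := by
  obtain ⟨y, rfl⟩ := h
  exact hP.j_mem _ _ _ _ y a

theorem perm_zero (a : ∀ i e, ¬ At n s i e) (h : C.Perm n s x) : x = 0 := by
  obtain ⟨y, rfl⟩ := h
  exact hP.j_zero _ _ y a

theorem z_two (a : At n s i e) (l : Lm e x) : C.Z n s 2 x :=
  hP.k_two (n - 1) (s - 2) (s - 1) i e x (by ring) (by simpa using a) l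

theorem z_succ {n' s' : ℤ} (h2 : 2 ≤ r) (h : C.H n s r x z) (b : C.B n' s' r z)
    (e1 : n' = n - 1) (e2 : s' = s - r) : C.Z n s (r + 1) x := by
  have h0 := h.sub ((h_zero_iff e1 e2).2 b)
  rw [sub_zero, sub_self] at h0
  obtain ⟨y, a, b⟩ := h0
  obtain ⟨y', c⟩ := (hP.ex_j (n - 1) (s - (r + 1)) (s - r) (s - r + 1) y (by ring) rfl).1 b
  refine ⟨y', ?_⟩
  have d := T.I_comp (n - 1) (s - r) (s - r + 1) (s - 1) (y - T.I _ (s - (r + 1)) _ y')
    (by omega) (by omega)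
  rw [c, map_zero, map_sub, T.I_comp _ _ _ _ y' (by omega) (by omega), a] at d
  exact (sub_eq_zero.1 d.symm).symm

theorem z_succ0 (h2 : 2 ≤ r) (h : C.H n s r x 0) : C.Z n s (r + 1) x :=
  hP.z_succ h2 h B.zero rfl rfl

theorem h_zero (h1 : 1 ≤ r) (h : C.Z n s (r + 1) x) : C.H n s r x 0 := by
  obtain ⟨y, a⟩ := h
  refine ⟨T.I _ (s - (r + 1)) (s - r) y, ?_, ?_⟩
  · rw [T.I_comp _ _ _ _ y (by omega) (by omega), a]
  · exact (hP.ex_j (n - 1) (s - (r + 1)) (s - r) (s - r + 1) _ (by ring) rfl).2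
      ⟨y, by rw [sub_self, map_zero]⟩

theorem b_succ (h2 : 2 ≤ r) (h : C.B n s (r + 1) z) : C.B n s r z ∨
    ∃ i e x, At (n + 1) (s + r) i e ∧ Lm e x ∧ C.H (n + 1) (s + r) r x z := by
  obtain ⟨y, a, b⟩ := h
  rw [show s + (r + 1) - 1 = s + r by ring] at a
  rcases hP.ex_i n s (s + r - 1) (s + r) y (by omega) (by ring) a with c | ⟨i, e, x, c1, c2, c3⟩
  · exact Or.inl ⟨y, c, b⟩
  · refine Or.inr ⟨i, e, x, c1, c2, ?_⟩
    unfold H
    rw [show n + 1 - 1 = n by ring, show s + r - r = s by ring]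
    exact ⟨y, c3.symm, b⟩

theorem b_of_h {n' s' : ℤ} (h1 : 1 ≤ r) (a : At n s i e) (l : Lm e x) (h : C.H n s r x z)
    (e1 : n' = n - 1) (e2 : s' = s - r) : C.B n' s' (r + 1) z := by
  subst e1 e2
  obtain ⟨y, b, c⟩ := h
  unfold B
  rw [show s - r + (r + 1) - 1 = s by ring]
  refine ⟨y, ?_, c⟩
  rw [← T.I_comp _ (s - r) (s - 1) s y (by omega) (by omega), b]
  exact hP.ik _ _ _ i e x (by ring) (by simpa using a) l

theorem perm_h (a : At n s i e) (h : C.Perm n s x) (r : ℤ) : C.H n s r x 0 := by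
  refine ⟨0, ?_, map_zero _⟩
  rw [map_zero]
  exact ((hP.ex_k (n - 1) (s - 1) n s i e x (by ring) (by ring) a (hP.perm_lm a h)).2 h).symm

theorem perm_z (a : At n s i e) (h : C.Perm n s x) (r : ℤ) : C.Z n s r x := (hP.perm_h a h r).cyc

theorem b_five (h : C.B n s 5 z) : z = 0 := by
  have st : ∀ r : ℤ, 2 ≤ r → r ≤ 4 → C.B n s (r + 1) z → C.B n s r z ∨ z = 0 := by
    intro r h2 h4 hb
    rcases hP.b_succ h2 hb with c | ⟨i, e, x, c, -, -⟩
    · exact Or.inl c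
    · refine Or.inr (hP.perm_zero (fun i' e' a => ?_) hb.perm)
      unfold At at a c
      omega
  rcases st 4 (by omega) (by omega) h with h | h
  · rcases st 3 (by omega) (by omega) h with h | h
    · rcases st 2 (by omega) (by omega) h with h | h
      · obtain ⟨y, a, rfl⟩ := h
        refine (hP.ex_j n (s - 1) s (s + 2 - 1) y (by ring) (by ring)).2 ⟨0, ?_⟩
        rw [map_zero, sub_zero, a]
      · exact h
    · exact h
  · exact h

theorem z_five (a : At n s i e) (l : Lm e x) : C.Z n s 5 x := by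
  have st : ∀ r : ℤ, 2 ≤ r → r ≤ 4 → C.Z n s r x → C.Z n s (r + 1) x := by
    intro r h2 h4 hz
    obtain ⟨z, h⟩ := hz.h
    have : z = 0 := hP.perm_zero (fun i' e' a' => by unfold At at a a'; omega) h.perm
    exact hP.z_succ0 h2 (this ▸ h)
  exact st 4 (by omega) (by omega) (st 3 (by omega) (by omega)
    (st 2 (by omega) (by omega) (hP.z_two a l)))

theorem h_mul0 {n' s' n'' s'' i' e' : ℤ} (h5 : 5 ≤ r) (e1 : n'' = n + n') (e2 : s'' = s + s')
    (a : At n s i 0) (a' : At n' s' i' e') (l : Lm 0 x) (l' : Lm e' x')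
    (hz : z = 0 ∨ ∃ i1, At (n - 1) (s - r) i1 1) (h : C.H n s r x z) (h' : C.H n' s' r x' z') :
    ∃ a b : ℤ, Sg a ∧ Sg b ∧ (e' = 0 → a = 1 ∧ b = 1) ∧
      C.H n'' s'' r (x 0 • x') (a • wd e' z x' + b • x 0 • z') :=
  hP.leib0 (n - 1) (s - r) (s - 1) (n' - 1) (s' - r) (s' - 1) (n'' - 1) (s'' - r) (s'' - 1) i i' e'
    x z x' z' (by omega) (by ring) (by omega) (by omega) (by omega) (by simpa using a)
    (by simpa using a') l l' hz h h'

theorem h_mul1 {n' s' n'' s'' i' e' : ℤ} {w : V O} (h5 : 5 ≤ r) (e1 : n'' = n + n')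
    (e2 : s'' = s + s') (a : At n s i 1) (a' : At n' s' i' e') (he : e' ≤ 2) (l' : Lm e' w)
    (hz : z = 0 ∨ ∃ i1, At (n - 1) (s - r) i1 0) (h : C.H n s r x z) (h' : C.Perm n' s' w) :
    ∃ a : ℤ, Sg a ∧ C.H n'' s'' r (wd e' x w) (a • z 0 • w) :=
  hP.leib1 (n - 1) (s - r) (s - 1) n' s' (n'' - 1) (s'' - r) (s'' - 1) i i' e'
    x z w (by omega) (by omega) (by omega) (by omega) (by simpa using a) a' he l' hz h h'

/-- shift by a class of type `0` on which the differential vanishes -/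
theorem h_shift {n' s' n'' s'' i' e' : ℤ} (h5 : 5 ≤ r) (e1 : n'' = n + n') (e2 : s'' = s + s')
    (a : At n s i 0) (a' : At n' s' i' e') (l : Lm 0 x) (l' : Lm e' x')
    (h : C.H n s r x 0) (h' : C.H n' s' r x' z') :
    ∃ b : ℤ, Sg b ∧ C.H n'' s'' r (x 0 • x') (b • x 0 • z') := by
  obtain ⟨a, b, -, hb, -, h⟩ := hP.h_mul0 h5 e1 e2 a a' l l' (Or.inl rfl) h h'
  rw [wd_zero_left, smul_zero, zero_add] at h
  exact ⟨b, hb, h⟩

theorem h_smul (h5 : 5 ≤ r) (a : At n s i e) (l : Lm e x) (h : C.H n s r x z) (c : O) :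
    ∃ b : ℤ, Sg b ∧ C.H n s r (c • x) (b • c • z) := by
  have a0 : At 0 0 0 0 := by unfold At; omega
  have l0 : Lm 0 (c • e0 : V O) := (lm_e0 0).smul c
  obtain ⟨b, hb, h⟩ := hP.h_shift h5 (zero_add n).symm (zero_add s).symm a0 a l0 l
    (hP.perm_h a0 (hP.perm0 0 0 _ a0 l0) r) h
  have : (c • e0 : V O) 0 = c := by simp [e0]
  rw [this] at h
  exact ⟨b, hb, h⟩

theorem h_g {i' e' t t' : ℤ} (h1 : 1 ≤ r) (a : At n s i e) (a' : At (n - 1) (s - r) i' e')
    (l : Lm e x) (h : C.H n s r x z) (ht : t = n - s) (ht' : t' = n - 1 - (s - r)) :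
    C.H n s r (C.G t e x) (C.G t' e' z) := by
  obtain ⟨y, b, c⟩ := h
  refine ⟨T.g _ _ y, ?_, ?_⟩
  · rw [T.Ig _ _ _ y (by omega), b, ← hP.kg _ _ i e x (by simpa using a) l, ht]
    congr 2
    ring
  · rw [hP.jg _ _ i' e' y a', c, ht']

theorem b_g {t : ℤ} (h1 : 1 ≤ r) (a : At n s i e) (h : C.B n s r z) (ht : t = n - s) :
    C.B n s r (C.G t e z) := by
  obtain ⟨y, b, c⟩ := h
  refine ⟨T.g _ _ y, ?_, ?_⟩
  · rw [T.Ig _ _ _ y (by omega), b, map_zero]
  · rw [hP.jg _ _ i e y a, c, ht]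

end Pre

end Vale.Agent.P236Z.Force
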