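import Vale.Agent.P236Z.Force.Page

/-! Descent along a row, and the rows in stems `-2, 1, 2, 3`. -/

namespace Vale.Agent.P236Z.Force

universe u v

variable {O : Type u} [CommRing O] {D : ℤ → ℤ → Type v} [∀ n s, AddCommGroup (D n s)]
  {T : Tow O D} {C : Crd T} {n1 n2 : O}

theorem Crd.Bd.mono {n s K K' : ℤ} {z : V O} (h : C.Bd n s K z) (h1 : s ≤ K) (h2 : K ≤ K') :
    C.Bd n s K' z := by
  obtain ⟨y, a, b⟩ := h
  exact ⟨y, by rw [← T.I_comp n s K K' y h1 h2, a, map_zero], b⟩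

theorem Crd.Bd.zero (n s K : ℤ) : C.Bd n s K 0 := ⟨0, map_zero _, map_zero _⟩

/-- the arithmetic condition under which a permanent class at `(n,s)` is dead at stage `K` -/
def Side (s K i e : ℤ) : Prop :=
  i % 3 = 2 ∨ (i % 3 = 1 ∧ s + 5 ≤ K) ∨ (i % 9 = 6 ∧ s + 9 ≤ K) ∨ (i % 9 = 3 ∧ s + 17 ≤ K) ∨
    (i % 27 = 18 ∧ s + 33 ≤ K) ∨ (i % 27 = 9 ∧ s + 53 ≤ K) ∨ (i % 27 = 0 ∧ s + 105 ≤ K) ∨
    (i % 9 = 0 ∧ 2 ≤ e ∧ s + 17 ≤ K)

theorem side_low {s K i e : ℤ} (h : s + 105 ≤ K) : Side s K i e := by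
  unfold Side
  have h0 : 0 ≤ i % 27 := by omega
  have h1 : i % 27 < 27 := by omega
  have h2 : i % 9 = i % 27 % 9 := by omega
  have h3 : i % 3 = i % 27 % 3 := by omega
  rw [h2, h3]
  generalize i % 27 = r at h0 h1
  interval_cases r <;> omega

instance (s K i e : ℤ) : Decidable (Side s K i e) := by
  unfold Side
  infer_instance

/-- reduction of a side condition to a finite check -/
theorem side_win (n K lo hi : ℤ) (h : ∀ d : Fin 105, lo < K - 1 - d.val → K - 1 - d.val < hi →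
    (n - (K - 1 - d.val)) % 4 = 0 → (-(2 * n + (K - 1 - d.val))) % 6 ≤ 3 →
    Side (K - 1 - d.val) K ((2 * n + (K - 1 - d.val) + (-(2 * n + (K - 1 - d.val))) % 6) / 6)
      ((-(2 * n + (K - 1 - d.val))) % 6)) (hK : hi ≤ K) {s i e : ℤ}
    (h1 : lo < s ∨ lo + 105 ≤ K) (h2 : s < hi) (a : At n s i e) : Side s K i e := by
  by_cases l : s + 105 ≤ K
  · exact side_low l
  obtain ⟨a1, a2, a3, a4⟩ := a
  have := h ⟨(K - 1 - s).toNat, by omega⟩
  have e1 : K - 1 - ((K - 1 - s).toNat : ℤ) = s := by omega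
  simp only [e1] at this
  have e2 : (-(2 * n + s)) % 6 = e := by omega
  rw [e2, show (2 * n + s + e) / 6 = i by omega] at this
  exact this (by omega) h2 a4 a2

theorem Pre.step (hA : Pre C n1 n2) {n s' s K : ℤ} (hs : s' + 1 = s) (hK : s < K) (y : D n s)
    (h : C.Bd n s K (C.j n s y)) : ∃ y' : D n s', T.I n s' K y' = T.I n s K y := by
  obtain ⟨y0, a, b⟩ := h
  obtain ⟨y', c⟩ := (hA.ex_j n s' s (s + 1) (y - y0) hs rfl).1 (by rw [map_sub, b, sub_self])
  refine ⟨y', ?_⟩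
  have d := T.I_comp n s (s + 1) K (y - y0 - T.I n s' s y') (by omega) (by omega)
  rw [c, map_zero, map_sub, map_sub, a, sub_zero, T.I_comp _ _ _ _ y' (by omega) (by omega)] at d
  exact (sub_eq_zero.1 d.symm).symm

theorem Pre.desc2 (hA : Pre C n1 n2) {n s1 s0 K : ℤ} (h1 : s1 ≤ s0) (hK : s0 < K)
    (h : ∀ s, s1 < s → s ≤ s0 → ∀ y : D n s, C.Bd n s K (C.j n s y)) (y : D n s0) :
    ∃ y' : D n s1, T.I n s1 K y' = T.I n s0 K y := by
  have key : ∀ d : ℕ, ∀ s, s + d = s0 → s1 ≤ s →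
      ∃ y' : D n s, T.I n s K y' = T.I n s0 K y := by
    intro d
    induction d with
    | zero =>
      intro s e _
      obtain rfl : s = s0 := by omega
      exact ⟨y, rfl⟩
    | succ d ih =>
      intro s e l
      obtain ⟨y1, a⟩ := ih (s + 1) (by omega) (by omega)
      obtain ⟨y2, b⟩ := hA.step (s' := s) rfl (by omega) y1 (h (s + 1) (by omega) (by omega) y1)
      exact ⟨y2, b.trans a⟩
  exact key (s0 - s1).toNat s1 (by omega) le_rfl

theorem Pre.desc (hA : Pre C n1 n2) {n s0 K : ℤ} (hK : s0 < K)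
    (h : ∀ s, s ≤ s0 → ∀ y : D n s, C.Bd n s K (C.j n s y)) (y : D n s0) :
    T.I n s0 K y = 0 := by
  obtain ⟨y', a⟩ := hA.desc2 (s1 := s0 - 213) (by omega) hK (fun s _ l => h s l) y
  rw [← a]
  exact T.nil _ _ _ _ (by omega)

theorem Pat.kill (hP : Pat C n1 n2) (hA : Pre C n1 n2) {n s K i e : ℤ} {x : V O}
    (a : At n s i e) (p : C.Perm n s x) (h : Side s K i e) : C.Bd n s K x := by
  rcases h with h | ⟨h, l⟩ | ⟨h, l⟩ | ⟨h, l⟩ | ⟨h, l⟩ | ⟨h, l⟩ | ⟨h, l⟩ | ⟨h, h', l⟩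
  · rw [hP.p1 n s i e x a h p]
    exact Crd.Bd.zero _ _ _
  · exact (hP.p2 n s i e x a h p).mono (by omega) l
  · exact (hP.p3 n s i e x a h p).mono (by omega) l
  · exact (hP.p4 n s i e x a h p).mono (by omega) l
  · exact (hP.p5 n s i e x a h p).mono (by omega) l
  · exact (hP.p6 n s i e x a h p).mono (by omega) l
  · exact (hP.p7 n s i e x a h (hA.perm_lm a p)).mono (by omega) l
  · exact (hP.p8 n s i e x a h h' (hA.perm_lm a p)).mono (by omega) l

theorem Pat.killj (hP : Pat C n1 n2) (hA : Pre C n1 n2) {n s K : ℤ}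
    (h : ∀ i e, At n s i e → Side s K i e) (y : D n s) : C.Bd n s K (C.j n s y) := by
  by_cases a : ∃ i e, At n s i e
  · obtain ⟨i, e, a⟩ := a
    exact hP.kill hA a ⟨y, rfl⟩ (h i e a)
  · rw [hA.j_zero n s y (fun i e b => a ⟨i, e, b⟩)]
    exact Crd.Bd.zero _ _ _

/-- everything at or below `s0` is dead at stage `K` -/
theorem Pat.dead (hP : Pat C n1 n2) (hA : Pre C n1 n2) {n s0 K : ℤ} (hK : s0 < K)
    (h : ∀ s i e, s ≤ s0 → At n s i e → Side s K i e) (y : D n s0) : T.I n s0 K y = 0 :=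
  hA.desc hK (fun s l => hP.killj hA (fun i e => h s i e l)) y

/-- descent through a window -/
theorem Pat.down (hP : Pat C n1 n2) (hA : Pre C n1 n2) {n s1 s0 K : ℤ} (h1 : s1 ≤ s0)
    (hK : s0 < K) (h : ∀ s i e, s1 < s → s ≤ s0 → At n s i e → Side s K i e) (y : D n s0) :
    ∃ y' : D n s1, T.I n s1 K y' = T.I n s0 K y :=
  hA.desc2 h1 hK (fun s l l' => hP.killj hA (fun i e => h s i e l l')) y

/-- a class whose leading term is dead, with everything below dead, is dead -/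
theorem Pat.dead1 (hP : Pat C n1 n2) (hA : Pre C n1 n2) {n s0 K : ℤ} (hK : s0 < K)
    (h : ∀ s i e, s < s0 → At n s i e → Side s K i e) (y : D n s0)
    (b : C.Bd n s0 K (C.j n s0 y)) : T.I n s0 K y = 0 := by
  obtain ⟨y', a⟩ := hA.step (s' := s0 - 1) (by ring) hK y b
  rw [← a]
  exact hP.dead hA (by omega) (fun s i e l => h s i e (by omega)) y'

/-- a whole group vanishes -/
theorem Pat.van (hP : Pat C n1 n2) (hA : Pre C n1 n2) {n K : ℤ} (hn : (n - K) % 4 ≠ 0)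
    (h : ∀ s i e, s < K → At n s i e → Side s K i e) (x : D n K) : x = 0 := by
  obtain ⟨y, rfl⟩ := T.sparse n (K - 1) K (by ring) hn x
  exact hP.dead hA (by omega) (fun s i e l => h s i e (by omega)) y

theorem row1 (hA : Adp C n1 n2) (hP : Pat C n1 n2) (x : D (-2) 0) : x = 0 :=
  hP.van hA.toPre (by omega) (fun _ _ _ l a =>
    side_win (-2) 0 (-105) 0 (by decide) le_rfl (Or.inr (by omega)) l a) x

theorem row5 (hA : Adp C n1 n2) (hP : Pat C n1 n2) (x : D 2 44) : x = 0 :=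
  hP.van hA.toPre (by omega) (fun _ _ _ l a =>
    side_win 2 44 (-61) 44 (by decide) le_rfl (Or.inr (by omega)) l a) x

theorem row6 (hA : Adp C n1 n2) (hP : Pat C n1 n2) (x : D 3 44) : x = 0 :=
  hP.van hA.toPre (by omega) (fun _ _ _ l a =>
    side_win 3 44 (-61) 44 (by decide) le_rfl (Or.inr (by omega)) l a) x

theorem row4 (hA : Adp C n1 n2) (hP : Pat C n1 n2) (x : D 1 44) :
    ∃ c : ℤ, x = c • T.I 1 0 44 T.eta := by
  obtain ⟨y, rfl⟩ := T.sparse 1 43 44 (by norm_num) (by omega) x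
  obtain ⟨y1, a⟩ := hP.down hA.toPre (s1 := -3) (K := 44) (by omega) (by omega)
    (fun _ _ _ l l' a => side_win 1 44 (-3) 44 (by decide) le_rfl (Or.inl l) (by omega) a) y
  obtain ⟨w, w1, w2⟩ := hA.eta_j
  obtain ⟨c, hc⟩ := hA.of.res (C.j 1 (-3) y1 2)
  refine ⟨c, ?_⟩
  have at0 : At 1 (-3) 0 1 := by unfold At; omega
  have b := hP.p10 1 (-3) 0 (C.j 1 (-3) (y1 - c • w)) at0 (by omega) (by
    rw [map_sub, map_zsmul, w1]
    simpa [e2] using hc)
  have d := hP.dead1 hA.toPre (K := 44) (by omega)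
    (fun _ _ _ l a => side_win 1 44 (-61) (-3) (by decide) (by omega) (Or.inr (by omega)) l a)
    (y1 - c • w)
    (b.mono (by omega) (by omega))
  rw [map_sub, map_zsmul, a, sub_eq_zero] at d
  rw [d, ← w2, T.I_comp _ _ _ _ w (by omega) (by omega)]

end Vale.Agent.P236Z.Force
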