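import Vale.Agent.P236Z.Force.LevA

/-! Change of coordinates in the model. -/

namespace Vale.Agent.P236Z.Force

universe u v

variable {O : Type u} [CommRing O] {D : ℤ → ℤ → Type v} [∀ n s, AddCommGroup (D n s)]
  {T : Tow O D}

/-- the type of a position -/
def tyB (n s : ℤ) : ℤ := (-(2 * n + s)) % 6

theorem At.tyB {n s i e : ℤ} (a : At n s i e) : tyB n s = e := by
  unfold At at a; unfold Force.tyB; omega

/-- a change of basis of the exterior algebra -/
structure Chg (P : ℤ → V O ≃ₗ[O] V O) : Prop where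
  zero : ∀ x, P 0 x = x
  lm : ∀ e x, Lm e (P e x) ↔ Lm e x
  wd : ∀ e w x, 0 ≤ e → e ≤ 3 → wd e (P 1 w) (P e x) = P (e + 1) (wd e w x)

/-- the new coordinates -/
def Crd.tw (C : Crd T) (P : ℤ → V O ≃ₗ[O] V O) : Crd T where
  j n s := (P (tyB n s)).symm.toLinearMap.toAddMonoidHom.comp (C.j n s)
  k n s := (C.k n s).comp (P (tyB (n + 1) (s + 1))).toLinearMap.toAddMonoidHom
  G t e := (P e).symm.toLinearMap.toAddMonoidHom.comp
    ((C.G t e).comp (P e).toLinearMap.toAddMonoidHom)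

variable {C : Crd T} {P : ℤ → V O ≃ₗ[O] V O} {n s K t e : ℤ} {x z : V O}

theorem tw_j (y : D n s) : (C.tw P).j n s y = (P (tyB n s)).symm (C.j n s y) := rfl

theorem tw_k : (C.tw P).k n s x = C.k n s (P (tyB (n + 1) (s + 1)) x) := rfl

theorem tw_G : (C.tw P).G t e x = (P e).symm (C.G t e (P e x)) := rfl

theorem tw_hit : (C.tw P).Hit n s K x z ↔
    C.Hit n s K (P (tyB (n + 1) (K + 1)) x) (P (tyB n s) z) :=
  exists_congr fun y => and_congr Iff.rfl (by rw [tw_j, LinearEquiv.symm_apply_eq])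

theorem tw_bd : (C.tw P).Bd n s K z ↔ C.Bd n s K (P (tyB n s) z) :=
  exists_congr fun y => and_congr Iff.rfl (by rw [tw_j, LinearEquiv.symm_apply_eq])

theorem tw_perm : (C.tw P).Perm n s z ↔ C.Perm n s (P (tyB n s) z) :=
  exists_congr fun y => by rw [tw_j, LinearEquiv.symm_apply_eq]

theorem Chg.symm0 (h : Chg P) (x : V O) : (P 0).symm x = x := by
  rw [LinearEquiv.symm_apply_eq, h.zero]

theorem Chg.lms (h : Chg P) (l : Lm e x) : Lm e ((P e).symm x) :=
  (h.lm e _).1 (by rwa [LinearEquiv.apply_symm_apply])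

theorem Chg.G0 (h : Chg P) : (C.tw P).G t 0 x = C.G t 0 x := by rw [tw_G, h.zero, h.symm0]

theorem Pre.tw {n1 n2 : O} (hP : Pre C n1 n2) (h : Chg P) : Pre (C.tw P) n1 n2 where
  of := hP.of
  j_mem n s i e y a := by
    rw [tw_j, a.tyB]
    exact h.lms (hP.j_mem n s i e y a)
  j_zero n s y a := by rw [tw_j, hP.j_zero n s y a, map_zero]
  ex_j n s' s s'' y a b := by
    rw [tw_j, LinearEquiv.map_eq_zero_iff]
    exact hP.ex_j n s' s s'' y a b
  ex_k n s n' s' i e x a b c l := by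
    rw [tw_k, tw_perm, a, b, c.tyB]
    exact hP.ex_k n s n' s' i e _ a b c ((h.lm e x).2 l)
  ex_i n s K K' y a b c := (hP.ex_i n s K K' y a b c).imp id fun ⟨i, e, x, d1, d2, d3⟩ =>
    ⟨i, e, (P e).symm x, d1, h.lms d2, by rw [tw_k, b, d1.tyB, LinearEquiv.apply_symm_apply, d3]⟩
  ik n s s' i e x a b l := by
    rw [tw_k, a, b.tyB]
    exact hP.ik n s s' i e _ a b ((h.lm e x).2 l)
  k_two n s' s i e x a b l := by
    rw [tw_k, b.tyB]
    exact hP.k_two n s' s i e _ a b ((h.lm e x).2 l)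
  leib0 n s K n' s' K' n'' s'' K'' i i' e' x z x' z' c1 c2 c3 c4 c5 a a' l l' hz h1 h2 := by
    rw [tw_hit, a.tyB, h.zero] at h1
    rw [tw_hit, a'.tyB] at h2
    obtain ⟨p, q, d1, d2, d3, d4⟩ := hP.leib0 n s K n' s' K' n'' s'' K'' i i' e' _ _ _ _ c1 c2 c3
      c4 c5 a a' l ((h.lm e' x').2 l') (hz.imp (fun b => by rw [b, map_zero]) id) h1 h2
    refine ⟨p, q, d1, d2, d3, ?_⟩
    have t1 : tyB (n'' + 1) (K'' + 1) = e' := by unfold At at a a'; unfold tyB; omega
    have t2 : tyB n'' s'' = tyB n' s' := by unfold At at a; unfold tyB; omega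
    have t3 : wd e' (P (tyB n s) z) (P e' x') = P (tyB n' s') (wd e' z x') := by
      rcases hz with rfl | ⟨i1, b⟩
      · rw [map_zero, wd_zero_left, wd_zero_left, map_zero]
      · rw [b.tyB, h.wd e' z x' a'.1 a'.2.1,
          show tyB n' s' = e' + 1 by unfold At at a a' b; unfold tyB; omega]
    rwa [tw_hit, t1, t2, map_smul, map_add, map_zsmul, map_zsmul, map_smul, ← t3]
  leib1 n s K n' s' n'' s'' K'' i i' e' x z w c1 c2 c3 c4 a a' he l hz h1 h2 := by
    rw [tw_hit, a.tyB] at h1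
    rw [tw_perm, a'.tyB] at h2
    obtain ⟨p, d1, d2⟩ := hP.leib1 n s K n' s' n'' s'' K'' i i' e' _ _ _ c1 c2 c3 c4 a a' he
      ((h.lm e' w).2 l) (hz.imp (fun b => by rw [b, map_zero]) id) h1 h2
    refine ⟨p, d1, ?_⟩
    have t1 : tyB (n'' + 1) (K'' + 1) = e' + 1 := by unfold At at a a'; unfold tyB; omega
    have t3 : P (tyB n s) z 0 • P e' w = P (tyB n'' s'') (z 0 • w) := by
      rcases hz with rfl | ⟨i1, b⟩
      · simp
      · rw [b.tyB, h.zero, map_smul,
          show tyB n'' s'' = e' by unfold At at a' b; unfold tyB; omega]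
    rwa [tw_hit, t1, ← h.wd e' x w a'.1 a'.2.1, map_zsmul, ← t3]
  perm0 n s x a l := by
    rw [tw_perm, a.tyB, h.zero]
    exact hP.perm0 n s x a l
  jg n s i e y a := by
    rw [tw_j, tw_G, tw_j, a.tyB, LinearEquiv.apply_symm_apply, hP.jg n s i e y a]
  kg n s i e x a l := by
    rw [tw_k, tw_k, tw_G, a.tyB, LinearEquiv.apply_symm_apply, hP.kg n s i e _ a ((h.lm e x).2 l)]
  G_mem t e x l := h.lms (hP.G_mem t e _ ((h.lm e x).2 l))
  G_one := by rw [h.G0, hP.G_one]
  G_res x l := by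
    rw [h.G0]
    exact hP.G_res x l
  inv1 b u := by
    rw [h.G0]
    exact hP.inv1 b u
  inv2 b u := by
    rw [h.G0]
    exact hP.inv2 b u
  inv3 b u := by
    rw [h.G0]
    exact hP.inv3 b u
  acy x l a := by
    have a' := congrArg (P 3) a
    simp only [tw_G, map_add, map_zero, LinearEquiv.apply_symm_apply] at a'
    obtain ⟨y, ly, b⟩ := hP.acy _ ((h.lm 3 x).2 l) a'
    refine ⟨(P 3).symm y, h.lms ly, (P 3).injective ?_⟩
    simp only [tw_G, map_sub, LinearEquiv.apply_symm_apply, b]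
  nb1 := by
    rw [tw_bd, show tyB 4 (-8) = 0 from rfl, h.zero]
    exact hP.nb1
  nb2 := by
    rw [tw_bd, show tyB 16 (-32) = 0 from rfl, h.zero]
    exact hP.nb2
  nb3 := by
    rw [tw_bd, show tyB 0 0 = 0 from rfl, h.zero]
    exact hP.nb3
  link n s i y a := by rw [tw_j, a.tyB, h.symm0, hP.link n s i y a]
  k_one n i a := by rw [tw_k, a.tyB, h.zero, hP.k_one n i a]

/-- an invertible matrix as an equivalence -/
noncomputable def mEq (A : Matrix (Fin 3) (Fin 3) O) (h : IsUnit A.det) : V O ≃ₗ[O] V O :=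
  LinearEquiv.ofLinearMap (Matrix.toLin' A) (Matrix.toLin' A⁻¹)
    (by rw [← Matrix.toLin'_mul, Matrix.mul_nonsing_inv _ h, Matrix.toLin'_one])
    (by rw [← Matrix.toLin'_mul, Matrix.nonsing_inv_mul _ h, Matrix.toLin'_one])

theorem mEq_apply (A : Matrix (Fin 3) (Fin 3) O) (h : IsUnit A.det) (x : V O) (l : Fin 3) :
    mEq A h x l = A l 0 * x 0 + A l 1 * x 1 + A l 2 * x 2 := by
  change A.mulVec x l = _
  simp [Matrix.mulVec, dotProduct, Fin.sum_univ_three]

/-- the exterior powers of an invertible matrix -/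
noncomputable def exP (A : Matrix (Fin 3) (Fin 3) O) (h : IsUnit A.det) (e : ℤ) :
    V O ≃ₗ[O] V O :=
  if e = 1 then mEq A h
  else if e = 2 then mEq A.adjugate.transpose (by
    rw [Matrix.det_transpose, Matrix.det_adjugate]; exact h.pow _)
  else if e = 3 then LinearEquiv.smulOfUnit h.unit
  else LinearEquiv.refl _ _

theorem ext_one (A : Matrix (Fin 3) (Fin 3) O) (h : IsUnit A.det) (x : V O) (l : Fin 3) :
    exP A h 1 x l = A l 0 * x 0 + A l 1 * x 1 + A l 2 * x 2 := mEq_apply A h x l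

theorem ext_two (A : Matrix (Fin 3) (Fin 3) O) (h : IsUnit A.det) (x : V O) (l : Fin 3) :
    exP A h 2 x l = A.adjugate 0 l * x 0 + A.adjugate 1 l * x 1 + A.adjugate 2 l * x 2 :=
  mEq_apply A.adjugate.transpose (by
    rw [Matrix.det_transpose, Matrix.det_adjugate]; exact h.pow _) x l

theorem ext_three (A : Matrix (Fin 3) (Fin 3) O) (h : IsUnit A.det) (x : V O) :
    exP A h 3 x = A.det • x := rfl

theorem chg_ext (A : Matrix (Fin 3) (Fin 3) O) (h : IsUnit A.det) : Chg (exP A h) where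
  zero _ := rfl
  lm e x := by
    by_cases h0 : e = 0
    · subst h0
      rfl
    · by_cases h3 : e = 3
      · subst h3
        unfold Lm
        rw [ext_three]
        simp [h.mul_right_eq_zero]
      · exact ⟨fun _ a => by omega, fun _ a => by omega⟩
  wd e w x h0 h3 := by
    have : e = 0 ∨ e = 1 ∨ e = 2 ∨ e = 3 := by omega
    rcases this with rfl | rfl | rfl | rfl
    · exact (map_smul (exP A h 1) (x 0) w).symm
    · ext l
      rw [show (1 : ℤ) + 1 = 2 from rfl, ext_two]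
      fin_cases l <;> simp [wd, ext_one, Matrix.adjugate_fin_three] <;> ring
    · rw [show (2 : ℤ) + 1 = 3 from rfl, ext_three]
      ext l
      fin_cases l <;> simp [wd, ext_one, ext_two, Matrix.adjugate_fin_three, Matrix.det_fin_three]
      ring
    · simp [wd]

end Vale.Agent.P236Z.Force
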